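import Claimed.Agent.R239.XL.Frob

/-!
# R239 / XL / Conj : equivariance of `Θ`

Skeleton file of the package XL (sub-captain helper120).  The statements are FIXED (msg helper120 before changing
one); the owner of this file replaces each `sorry`, adding auxiliary lemmas (prefix `xl_`) above.
Plan of the package: `XL/Chain.lean`.
-/

set_option autoImplicit false

open NumberField IsDedekindDomain Claims.C0403

namespace Claimed.Agent.R239

open CFT
open scoped Pointwise

section generic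

variable {R S : Type*} [CommRing R] [CommRing S]

/-- the multiplicative equivalence on ideals induced by a ring equivalence. -/
def xlIdealEquiv (e : R ≃+* S) : Ideal R ≃* Ideal S where
  toFun := Ideal.map e
  invFun := Ideal.map e.symm
  left_inv I := by
    rw [Ideal.map_symm, Ideal.comap_map_of_bijective _ e.bijective]
  right_inv I := by
    rw [Ideal.map_symm, Ideal.map_comap_of_surjective _ e.surjective]
  map_mul' I J := Ideal.map_mul _ I J

end generic

section numberfield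

variable {K : Type*} [Field K] [NumberField K]

/-- the permutation of the primes of `K` induced by a ring automorphism. -/
noncomputable def xlPlEquiv (e : K ≃+* K) : Pl K ≃ Pl K :=
  HeightOneSpectrum.equivOfRingEquiv (RingOfIntegers.mapRingEquiv e)

theorem xlPlEquiv_asIdeal (e : K ≃+* K) (v : Pl K) :
    (xlPlEquiv e v).asIdeal = v.asIdeal.map (RingOfIntegers.mapRingEquiv e) := by
  rw [← Ideal.comap_symm]
  rfl

theorem xl_intVal_map (e : K ≃+* K) (v : Pl K) (b : 𝓞 K) :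
    (xlPlEquiv e v).intValuation (RingOfIntegers.mapRingEquiv e b) = v.intValuation b := by
  by_cases hb : b = 0
  · subst hb; simp
  have hb' : RingOfIntegers.mapRingEquiv e b ≠ 0 := by
    simpa using hb
  rw [HeightOneSpectrum.intValuation_eq_exp_neg_multiplicity _ hb,
    HeightOneSpectrum.intValuation_eq_exp_neg_multiplicity _ hb']
  have e1 : Ideal.span {RingOfIntegers.mapRingEquiv e b} =
      xlIdealEquiv (RingOfIntegers.mapRingEquiv e) (Ideal.span {b}) := by
    show _ = Ideal.map _ _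
    rw [Ideal.map_span, Set.image_singleton]
  have e0 : (xlPlEquiv e v).asIdeal = xlIdealEquiv (RingOfIntegers.mapRingEquiv e) v.asIdeal :=
    xlPlEquiv_asIdeal e v
  have e3 : multiplicity (xlPlEquiv e v).asIdeal (Ideal.span {RingOfIntegers.mapRingEquiv e b}) =
      multiplicity v.asIdeal (Ideal.span {b}) := by
    rw [e1, e0]
    unfold multiplicity
    rw [emultiplicity_map_eq]
  rw [e3]

theorem xl_val_map (e : K ≃+* K) (v : Pl K) (b : K) :
    (xlPlEquiv e v).valuation K (e b) = v.valuation K b := by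
  obtain ⟨x, y, hy, rfl⟩ := IsFractionRing.div_surjective (A := 𝓞 K) b
  have h : ∀ z : 𝓞 K, e (algebraMap (𝓞 K) K z) =
      algebraMap (𝓞 K) K (RingOfIntegers.mapRingEquiv e z) := fun z => rfl
  rw [map_div₀, map_div₀, map_div₀, h, h, HeightOneSpectrum.valuation_of_algebraMap,
    HeightOneSpectrum.valuation_of_algebraMap, HeightOneSpectrum.valuation_of_algebraMap,
    HeightOneSpectrum.valuation_of_algebraMap, xl_intVal_map, xl_intVal_map]

theorem xl_ord_map (e : K ≃+* K) (v : Pl K) (b : K) : ord (xlPlEquiv e v) (e b) = ord v b := by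
  rw [ord, ord, xl_val_map]

theorem xl_dv_map (e : K ≃+* K) (b : K) : dv (e b) = Finsupp.mapDomain (xlPlEquiv e) (dv b) := by
  ext w
  obtain ⟨v, rfl⟩ := (xlPlEquiv e).surjective w
  rw [Finsupp.mapDomain_apply (xlPlEquiv e).injective, dv_apply, dv_apply, xl_ord_map]

theorem xl_above_map (ℓ : ℕ) (e : K ≃+* K) (v : Pl K) :
    xlAbove ℓ K (xlPlEquiv e v) ↔ xlAbove ℓ K v := by
  unfold xlAbove
  show (ℓ : 𝓞 K) ∈ v.asIdeal.comap _ ↔ _
  rw [Ideal.mem_comap, map_natCast]

end numberfield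

theorem xl_addHom_eq_of_support {α A : Type*} [AddCommGroup A] (f g : (α →₀ ℤ) →+ A)
    (D : α →₀ ℤ) (h : ∀ v ∈ D.support, f (Finsupp.single v 1) = g (Finsupp.single v 1)) :
    f D = g D := by
  conv_lhs => rw [← Finsupp.sum_single D]
  conv_rhs => rw [← Finsupp.sum_single D]
  rw [Finsupp.sum, map_sum, map_sum]
  refine Finset.sum_congr rfl fun v hv => ?_
  have e : Finsupp.single v (D v) = D v • Finsupp.single v (1 : ℤ) := by
    rw [Finsupp.smul_single, smul_eq_mul, mul_one]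
  rw [e, map_zsmul, map_zsmul, h v hv]

variable {F E : Type} [Field F] [NumberField F] [Field E] [Algebra F E] [IsGalois F E]
variable {ℓ : ℕ} [Fact ℓ.Prime]

omit [NumberField F] [IsGalois F E] in
theorem xl_conj_mem_fld (V : Subgroup Gal(E/F)) (u : Gal(E/F)) (hu : ∀ v ∈ V, u⁻¹ * v * u ∈ V)
    (x : E) (hx : x ∈ fld V) : u x ∈ fld V := by
  rw [IntermediateField.mem_fixedField_iff] at hx ⊢
  intro v hv
  have h1 := hx _ (hu v hv)
  have h2 : u ((u⁻¹ * v * u) x) = v (u x) := by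
    simp only [AlgEquiv.mul_apply]
    exact AlgEquiv.apply_symm_apply u _
  rw [← h2, h1]

/-- the automorphism of `M_V` induced by `u` normalising `V`. -/
noncomputable def xlConjEquiv (V : Subgroup Gal(E/F)) (u : Gal(E/F))
    (hu : ∀ v ∈ V, u⁻¹ * v * u ∈ V) (hu' : ∀ v ∈ V, u * v * u⁻¹ ∈ V) : fld V ≃+* fld V where
  toFun x := ⟨u x.1, xl_conj_mem_fld V u hu x.1 x.2⟩
  invFun x := ⟨u⁻¹ x.1, xl_conj_mem_fld V u⁻¹ (by simpa using hu') x.1 x.2⟩
  left_inv x := by
    ext
    exact AlgEquiv.symm_apply_apply u _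
  right_inv x := by
    ext
    exact AlgEquiv.apply_symm_apply u _
  map_mul' x y := by
    ext
    simp
  map_add' x y := by
    ext
    simp

omit [NumberField F] [IsGalois F E] in
theorem xl_below_conj (V : Subgroup Gal(E/F)) [NumberField (fld V)] (u : Gal(E/F))
    (hu : ∀ v ∈ V, u⁻¹ * v * u ∈ V) (hu' : ∀ v ∈ V, u * v * u⁻¹ ∈ V) (P : Ideal (𝓞 E))
    (v : Pl (fld V)) (h : below V P = v.asIdeal) :
    below V (u • P) = (xlPlEquiv (xlConjEquiv V u hu hu') v).asIdeal := by
  ext y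
  show _ ↔ y ∈ v.asIdeal.comap _
  rw [Ideal.mem_comap, ← h]
  show algebraMap (𝓞 (fld V)) (𝓞 E) y ∈ u • P ↔ algebraMap (𝓞 (fld V)) (𝓞 E) _ ∈ P
  rw [Ideal.mem_pointwise_smul_iff_inv_smul_mem]
  have e : u⁻¹ • algebraMap (𝓞 (fld V)) (𝓞 E) y = algebraMap (𝓞 (fld V)) (𝓞 E)
      ((RingOfIntegers.mapRingEquiv (xlConjEquiv V u hu hu')).symm y) := by
    apply RingOfIntegers.ext
    rfl
  rw [e]
  rfl

omit [NumberField F] [IsGalois F E] in
theorem xl_conj_smul_eq (V : Subgroup Gal(E/F)) (u : Gal(E/F))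
    (hu : ∀ v ∈ V, u⁻¹ * v * u ∈ V) (hu' : ∀ v ∈ V, u * v * u⁻¹ ∈ V) : MulAut.conj u • V = V := by
  ext g
  rw [Subgroup.mem_pointwise_smul_iff_inv_smul_mem]
  constructor
  · intro h
    have := hu' _ h
    simpa [MulAut.smul_def, mul_assoc] using this
  · intro h
    have := hu _ h
    simpa [MulAut.smul_def, mul_assoc] using this

theorem xl_frobAt_conj (V : Subgroup Gal(E/F)) [NumberField (fld V)] (u : Gal(E/F))
    (hu : ∀ v ∈ V, u⁻¹ * v * u ∈ V) (hu' : ∀ v ∈ V, u * v * u⁻¹ ∈ V) (v : Pl (fld V))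
    (σ : Gal(E/F)) (h : xlFrobAt V v σ) :
    xlFrobAt V (xlPlEquiv (xlConjEquiv V u hu hu') v) (u * σ * u⁻¹) := by
  obtain ⟨P, hP, hPv, hF⟩ := h
  refine ⟨u • P, ?_, xl_below_conj V u hu hu' P v hPv, ?_⟩
  · exact Ideal.map_isMaximal_of_equiv (MulSemiringAction.toRingEquiv Gal(E/F) (𝓞 E) u)
  · have := hil_frob_conj hF u
    rwa [xl_conj_smul_eq V u hu hu'] at this

/-- LEAF B5b `XL.theta_conj`.  Equivariance: `V` normal in `Gal(E/F)`... only conjugation by `u ∈ U`, `V` normal in `U`, is needed, written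
without the action: if `x' ∈ X(V)`, `x''(g) = x'(u⁻¹ g u)` and `b'' = u b'` then `Θ_V x'' (b'') = Θ_V x' (b')`.
(`w ↦ u w` permutes the primes of `M_V`, `ord_{u w}(u b') = ord_w b'`, `u Fr_w u⁻¹` is a Frobenius lift at `u w`: `hil_frob_conj`.) -/
theorem xl_theta_conj (hE : SolvablyClosed E) (V : Subgroup Gal(E/F)) (hV : IsOpen (V : Set Gal(E/F)))
    [NumberField (fld V)] (u : Gal(E/F)) (hu : ∀ v ∈ V, u⁻¹ * v * u ∈ V) (hu' : ∀ v ∈ V, u * v * u⁻¹ ∈ V)
    (x' x'' : XChar ℓ V) (hx : ∀ g : V, x''.1 g = x'.1 ⟨u⁻¹ * g.1 * u, hu g.1 g.2⟩)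
    (b' b'' : (fld V)ˣ) (hb : ((b'' : fld V) : E) = u ((b' : fld V) : E))
    (hb' : ∀ v : Pl (fld V), xlAbove ℓ (fld V) v → ord v (b' : fld V) = 0) :
    xlThetaDiv V x'' (dv (b'' : fld V)) = xlThetaDiv V x' (dv (b' : fld V)) := by
  set e := xlConjEquiv V u hu hu' with he
  have hbe : (b'' : fld V) = e (b' : fld V) := Subtype.ext hb
  rw [hbe, xl_dv_map]
  refine xl_addHom_eq_of_support
    ((xlThetaDiv V x'').comp (Finsupp.mapDomain.addMonoidHom (xlPlEquiv e))) (xlThetaDiv V x')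
    (dv (b' : fld V)) fun v hv => ?_
  have hv0 : ord v (b' : fld V) ≠ 0 := by simpa using hv
  have hvl : ¬ xlAbove ℓ (fld V) v := fun h => hv0 (hb' v h)
  have hvl' : ¬ xlAbove ℓ (fld V) (xlPlEquiv e v) := fun h => hvl ((xl_above_map ℓ e v).1 h)
  rw [AddMonoidHom.comp_apply, Finsupp.mapDomain.addMonoidHom_apply, Finsupp.mapDomain_single,
    xlThetaDiv_single, xlThetaDiv_single]
  congr 1
  have h1 := xl_frobAt_conj V u hu hu' v _ (xlFr_spec V hV v)
  have h2 := xl_frob_val_unique hE V hV x'' _ hvl' (xlFr_spec V hV (xlPlEquiv e v)) h1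
  rw [show x''.1 (xlFr V (xlPlEquiv e v)) = _ from h2, hx]
  have e3 : (⟨u⁻¹ * (u * (xlFr V v : Gal(E/F)) * u⁻¹) * u, hu _ h1.mem⟩ : V) = xlFr V v := by
    ext
    simp [mul_assoc]
  exact congrArg x'.1 e3

end Claimed.Agent.R239
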