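import Claimed.Agent.R239.XL.GlueLayer

/-!
# R239 / XL / Recip : (R) when `μ_ℓ ⊆ M_U`

Package XL (sub-captain helper120).  Plan of the package: `XL/Chain.lean`.
-/

set_option autoImplicit false

open NumberField IsDedekindDomain Claims.C0403

namespace Claimed.Agent.R239

open CFT

variable {F E : Type} [Field F] [NumberField F] [Field E] [Algebra F E] [IsGalois F E]
variable {ℓ : ℕ} [Fact ℓ.Prime]

/-- an integral character as a `ℤ_ℓ`-valued function. -/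
def xlInt {H : Type*} [Group H] [TopologicalSpace H] (x : XChar ℓ H) (hx : ∀ u : H, ‖x.1 u‖ ≤ 1)
    (u : H) : ℤ_[ℓ] := ⟨x.1 u, hx u⟩

/-- the `ℤ_ℓ`-valued version of `xlThetaDiv` for an integral character. -/
noncomputable def xlThetaInt (U : Subgroup Gal(E/F)) [NumberField (fld U)] (x : XChar ℓ U)
    (hx : ∀ u : U, ‖x.1 u‖ ≤ 1) : CFT.Div (fld U) →+ ℤ_[ℓ] :=
  Finsupp.liftAddHom (fun v => (zmultiplesHom ℤ_[ℓ]) (xlInt x hx (xlFr U v)))

omit [NumberField F] [IsGalois F E] in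
theorem xlThetaInt_single (U : Subgroup Gal(E/F)) [NumberField (fld U)] (x : XChar ℓ U)
    (hx : ∀ u : U, ‖x.1 u‖ ≤ 1) (v : Pl (fld U)) (n : ℤ) :
    xlThetaInt U x hx (Finsupp.single v n) = n • xlInt x hx (xlFr U v) := by
  simp [xlThetaInt]

omit [NumberField F] [IsGalois F E] in
theorem xlThetaInt_coe (U : Subgroup Gal(E/F)) [NumberField (fld U)] (x : XChar ℓ U)
    (hx : ∀ u : U, ‖x.1 u‖ ≤ 1) (D : CFT.Div (fld U)) :
    ((xlThetaInt U x hx D : ℤ_[ℓ]) : ℚ_[ℓ]) = xlThetaDiv U x D := by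
  have h : (PadicInt.Coe.ringHom (p := ℓ)).toAddMonoidHom.comp (xlThetaInt U x hx) = xlThetaDiv U x := by
    apply Finsupp.addHom_ext
    intro v n
    rw [AddMonoidHom.comp_apply, xlThetaInt_single, xlThetaDiv_single, map_zsmul, zsmul_eq_mul]
    rfl
  exact DFunLike.congr_fun h D

/-- finite level reciprocity: `∑_v ord_v(a) x(Fr_v) ≡ 0 mod ℓ^k` for `a ∈ Γ_c`. -/
theorem xl_recip_level (h1 : XlCft1 ℓ) (hE : SolvablyClosed E) (U : Subgroup Gal(E/F))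
    (hU : IsOpen (U : Set Gal(E/F))) [NumberField (fld U)] (hμ : HasMu ℓ (fld U)) (x : XChar ℓ U)
    (hx : ∀ u : U, ‖x.1 u‖ ≤ 1) (k : ℕ) :
    ∃ c : ℕ, ∀ b : (fld U)ˣ, b ∈ xlGamma ℓ (fld U) 1 → b ∈ xlGamma ℓ (fld U) c →
      PadicInt.toZModPow k (xlThetaInt U x hx (dv (b : fld U))) = 0 := by
  classical
  have hp : ℓ.Prime := Fact.out
  have : NeZero (ℓ ^ k) := ⟨pow_ne_zero _ hp.ne_zero⟩
  obtain ⟨χ, hχo, hχ⟩ := xl_xchar_mod U x hx k
  obtain ⟨L, i1, i2, i3, i4, y, hy, hglue⟩ := xl_glue_layer U hU (ℓ ^ k) χ hχo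
  have hcyc : IsCyclic Gal(L/(fld U)) := isCyclic_of_injective y hy
  have hdeg : ∃ m : ℕ, Module.finrank (fld U) L = ℓ ^ m := by
    have hd : Nat.card Gal(L/(fld U)) ∣ Nat.card (Multiplicative (ZMod (ℓ ^ k))) :=
      Subgroup.card_dvd_of_injective y hy
    rw [IsGalois.card_aut_eq_finrank, Nat.card_eq_fintype_card, Fintype.card_multiplicative,
      ZMod.card] at hd
    obtain ⟨m, -, hm⟩ := (Nat.dvd_prime_pow hp).1 hd
    exact ⟨m, hm⟩
  have hkill : ∀ v : Pl (fld U), ¬ xlAbove ℓ (fld U) v →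
      ∀ P : Ideal (𝓞 E), P.IsMaximal → below U P = v.asIdeal →
        ∀ (g : Gal(E/F)) (hg : g ∈ inert F P ⊓ U), χ ⟨g, hg.2⟩ = 1 := by
    intro v hv P hP hPv g hg
    have hPℓ : ¬ Over P ℓ := fun h => hv ((xl_above_iff U v P hPv).2 h)
    have h0 := xchar_unram hE hU hPℓ x hg
    rw [hχ]
    have : xlInt x hx ⟨g, hg.2⟩ = 0 := PadicInt.ext h0
    change Multiplicative.ofAdd (PadicInt.toZModPow k (xlInt x hx ⟨g, hg.2⟩)) = 1
    rw [this, map_zero]
    rfl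
  have hun : ∀ v : Pl (fld U), ¬ xlAbove ℓ (fld U) v → Unram (fld U) L v :=
    fun v hv => (hglue v (hkill v hv)).1
  obtain ⟨N, hN⟩ := h1 (fld U) L hμ hcyc hdeg hun
  refine ⟨N, fun b hb1 hbc => ?_⟩
  have hart := hN b (fun v hv => xl_one_of_gamma ℓ (fld U) N hbc v hv)
  -- compare the two homomorphisms on divisors prime to `ℓ`
  let R : CFT.Div (fld U) →+ CFT.Div (fld U) :=
    Finsupp.filterAddHom (fun v => ¬ xlAbove ℓ (fld U) v)
  let y' : Additive Gal(L/(fld U)) →+ ZMod (ℓ ^ k) := MonoidHom.toAdditiveLeft y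
  have hcomp : (y'.comp (art (fld U) L)).comp R =
      ((PadicInt.toZModPow (p := ℓ) k).toAddMonoidHom.comp (xlThetaInt U x hx)).comp R := by
    apply Finsupp.addHom_ext
    intro v n
    have hRs : ∀ D, R D = Finsupp.filter (fun v => ¬ xlAbove ℓ (fld U) v) D := fun _ => rfl
    simp only [AddMonoidHom.comp_apply, hRs]
    by_cases hv : xlAbove ℓ (fld U) v
    · rw [Finsupp.filter_single_of_neg (fun v => ¬ xlAbove ℓ (fld U) v) (by simpa using hv)]
      simp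
    · have hart : art (fld U) L (Finsupp.single v n) = n • Additive.ofMul (frob (fld U) L v) := by
        simp [art]
      rw [Finsupp.filter_single_of_pos (fun v => ¬ xlAbove ℓ (fld U) v) hv, hart, xlThetaInt_single, map_zsmul, map_zsmul]
      congr 1
      have h2 := (hglue v (hkill v hv)).2 (xlFr U v) (xlFr_spec U hU v)
      have h3 : y' (Additive.ofMul (frob (fld U) L v)) = Multiplicative.toAdd (y (frob (fld U) L v)) := rfl
      rw [h3, h2, hχ]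
      rfl
  have hR : R (dv (b : fld U)) = dv (b : fld U) := by
    change Finsupp.filter (fun v => ¬ xlAbove ℓ (fld U) v) _ = _
    rw [Finsupp.filter_eq_self_iff]
    intro v hv hv'
    exact hv (xl_ord_eq_zero ℓ (fld U) hb1 v hv')
  have := DFunLike.congr_fun hcomp (dv (b : fld U))
  simp only [AddMonoidHom.comp_apply, hR, hart, map_zero] at this
  exact this.symm

/-- B1 `XL.theta_mem_phi_mu`  ((R) when `μ_ℓ ⊆ M_U`). -/
theorem xl_theta_mem_phi_mu (h1 : XlCft1 ℓ) (hE : SolvablyClosed E) (U : Subgroup Gal(E/F))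
    (hU : IsOpen (U : Set Gal(E/F))) [NumberField (fld U)] (hμ : HasMu ℓ (fld U)) (x : XChar ℓ U) :
    xlTheta U x ∈ xlPhiSpace ℓ (fld U) ℚ_[ℓ] := by
  have hp : ℓ.Prime := Fact.out
  have hl1 : (1 : ℝ) < ℓ := by exact_mod_cast hp.one_lt
  have hl0 : (0 : ℝ) < ℓ := by linarith
  intro ε hε
  obtain ⟨j, hj⟩ := xl_xchar_bounded U hU x
  set x' : XChar ℓ U := ((ℓ : ℚ_[ℓ]) ^ j) • x with hx'
  have hx'1 : ∀ u : U, ‖x'.1 u‖ ≤ 1 := fun u => hj u
  -- choose `k`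
  obtain ⟨k, hk⟩ := pow_unbounded_of_one_lt ((ℓ : ℝ) ^ j / ε) hl1
  obtain ⟨c, hc⟩ := xl_recip_level h1 hE U hU hμ x' hx'1 k
  refine ⟨c, fun b hb => ?_⟩
  have h0 := hc b b.2 hb
  rw [← RingHom.mem_ker, PadicInt.ker_toZModPow, ← PadicInt.norm_le_pow_iff_mem_span_pow] at h0
  have h2 : ‖xlTheta U x' (Additive.ofMul b)‖ ≤ (ℓ : ℝ) ^ (-(k : ℤ)) := by
    rw [xlTheta_apply, ← xlThetaInt_coe U x' hx'1]
    exact h0
  have h3 : xlTheta U x' (Additive.ofMul b) = (ℓ : ℚ_[ℓ]) ^ j * xlTheta U x (Additive.ofMul b) := by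
    rw [hx', map_smul]
    rfl
  rw [h3, norm_mul, norm_pow, Padic.norm_p, inv_pow, zpow_neg, zpow_natCast] at h2
  have hpj : (0 : ℝ) < (ℓ : ℝ) ^ j := by positivity
  have hpk : (0 : ℝ) < (ℓ : ℝ) ^ k := by positivity
  have h4 : ‖xlTheta U x (Additive.ofMul b)‖ ≤ (ℓ : ℝ) ^ j * ((ℓ : ℝ) ^ k)⁻¹ := by
    rw [inv_mul_le_iff₀ hpj] at h2
    exact h2
  refine h4.trans ?_
  rw [← div_eq_mul_inv, div_le_iff₀ hpk]
  rw [div_lt_iff₀ hε] at hk
  linarith

end Claimed.Agent.R239
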