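import Claimed.Agent.R239.Defs
import Claimed.Agent.R239.CFT.Defs
import Claimed.Agent.R239.LogExp

/-!
# R239 / XL : additive `ℓ`-adic characters.  Definitions (owner helper120)

`M` is an abstract number field, `ℓ` an odd prime.  Places, `ord`, `One`, `dv`, `Div` are those of
`CFT/Defs.lean`.

* `xlAbove ℓ M v`    : `v ∣ ℓ`
* `xlGamma ℓ M c`    : `Γ_c(M) = {b ∈ Mˣ : b is a unit and ≡ 1 mod ℓ^c at all v ∣ ℓ}`
* `xlPhiSpace ℓ M 𝕂` : `Φ(M, 𝕂)` = additive maps `Γ_1(M) → 𝕂`, continuous for the filtration `Γ_c`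
* `xlAnn ℓ M`        : the `φ ∈ Φ(M, ℚ_ℓ)` which kill the global units in `Γ_1(M)`
* `xlLg`             : the logarithm on `1 + disc`, DEFINED as the inverse of the exponential
* `xlFrobAt U v σ`   : `σ` is a Frobenius lift at the prime `v` of `M_U`
* `xlFr U v`         : a chosen Frobenius lift
* `xlTheta U`        : `x ↦ (b ↦ ∑_v ord_v(b) x(Fr_v))`
* `XlCft1 ℓ`, `XlCft2 ℓ` : the two statements consumed from the package CFT
-/

set_option autoImplicit false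

open NumberField IsDedekindDomain

namespace Claimed.Agent.R239

open CFT

/-! ## 1. The groups `Γ_c(M)` and the spaces `Φ(M, 𝕂)`, `Ann(M)` -/

section

variable (ℓ : ℕ) (M : Type*) [Field M] [NumberField M]

/-- the finite place `v` of `M` lies above the rational prime `ℓ`. -/
def xlAbove (v : Pl M) : Prop := (ℓ : 𝓞 M) ∈ v.asIdeal

/-- `Γ_c(M)`: the `b ∈ Mˣ` which at every `v ∣ ℓ` are units and `≡ 1 mod ℓ^c`. -/
def xlGamma (c : ℕ) : Subgroup Mˣ where
  carrier := {b | ∀ v : Pl M, xlAbove ℓ M v →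
      v.valuation M (b : M) = 1 ∧ v.valuation M ((b : M) - 1) ≤ v.valuation M ((ℓ : M) ^ c)}
  one_mem' := by
    intro v _
    simp
  mul_mem' := by
    intro a b ha hb v hv
    obtain ⟨ha1, ha2⟩ := ha v hv
    obtain ⟨hb1, hb2⟩ := hb v hv
    refine ⟨by simp [ha1, hb1], ?_⟩
    have h : ((a * b : Mˣ) : M) - 1 = (a : M) * ((b : M) - 1) + ((a : M) - 1) := by
      push_cast; ring
    rw [h]
    refine (Valuation.map_add _ _ _).trans (max_le ?_ ha2)
    rw [map_mul, ha1, one_mul]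
    exact hb2
  inv_mem' := by
    intro a ha v hv
    obtain ⟨ha1, ha2⟩ := ha v hv
    refine ⟨by simp [ha1], ?_⟩
    have h : ((a⁻¹ : Mˣ) : M) - 1 = - (((a⁻¹ : Mˣ) : M) * ((a : M) - 1)) := by
      have : ((a⁻¹ : Mˣ) : M) * (a : M) = 1 := by simp
      linear_combination this
    rw [h, Valuation.map_neg, map_mul]
    have : v.valuation M ((a⁻¹ : Mˣ) : M) = 1 := by simp [ha1]
    rw [this, one_mul]
    exact ha2

theorem xlGamma_antitone : Antitone (xlGamma ℓ M) := by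
  intro c c' hcc b hb v hv
  obtain ⟨h1, h2⟩ := hb v hv
  refine ⟨h1, h2.trans ?_⟩
  rw [map_pow, map_pow]
  have h : v.valuation M (ℓ : M) ≤ 1 := by
    have := v.valuation_le_one (K := M) (ℓ : 𝓞 M)
    simpa using this
  exact pow_le_pow_of_le_one zero_le h hcc

/-- continuous additive maps `Γ_1(M) → 𝕂` (continuity for the filtration `Γ_c`). -/
def xlPhiSpace (𝕂 : Type*) [NormedField 𝕂] :
    Submodule 𝕂 (Additive (xlGamma ℓ M 1) →+ 𝕂) where
  carrier := {φ | ∀ ε : ℝ, 0 < ε → ∃ c : ℕ, ∀ b : xlGamma ℓ M 1,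
      (b : Mˣ) ∈ xlGamma ℓ M c → ‖φ (Additive.ofMul b)‖ ≤ ε}
  zero_mem' := by
    intro ε hε
    exact ⟨0, fun b _ => by simpa using hε.le⟩
  add_mem' := by
    intro φ ψ hφ hψ ε hε
    obtain ⟨c₁, h₁⟩ := hφ (ε / 2) (by positivity)
    obtain ⟨c₂, h₂⟩ := hψ (ε / 2) (by positivity)
    refine ⟨max c₁ c₂, fun b hb => ?_⟩
    have hb₁ := h₁ b (xlGamma_antitone ℓ M (le_max_left c₁ c₂) hb)
    have hb₂ := h₂ b (xlGamma_antitone ℓ M (le_max_right c₁ c₂) hb)
    calc ‖(φ + ψ) (Additive.ofMul b)‖ ≤ ‖φ (Additive.ofMul b)‖ + ‖ψ (Additive.ofMul b)‖ := by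
          rw [AddMonoidHom.add_apply]; exact norm_add_le _ _
      _ ≤ ε := by linarith
  smul_mem' := by
    intro a φ hφ ε hε
    obtain ⟨c, h⟩ := hφ (ε / (‖a‖ + 1)) (by positivity)
    refine ⟨c, fun b hb => ?_⟩
    have hb' := h b hb
    have h1 : ‖(a • φ) (Additive.ofMul b)‖ = ‖a‖ * ‖φ (Additive.ofMul b)‖ := by
      rw [AddMonoidHom.smul_apply, norm_smul]
    rw [h1]
    calc ‖a‖ * ‖φ (Additive.ofMul b)‖ ≤ (‖a‖ + 1) * (ε / (‖a‖ + 1)) := by
          apply mul_le_mul (by linarith) hb' (norm_nonneg _) (by positivity)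
      _ = ε := by field_simp

/-- additive maps `Γ_1(M) → 𝕂` killing the global units. -/
def xlKillUnits (𝕂 : Type*) [NormedField 𝕂] :
    Submodule 𝕂 (Additive (xlGamma ℓ M 1) →+ 𝕂) where
  carrier := {φ | ∀ (b : xlGamma ℓ M 1) (u : (𝓞 M)ˣ), ((b : Mˣ) : M) = ((u : 𝓞 M) : M) →
      φ (Additive.ofMul b) = 0}
  zero_mem' := by
    intro b u _
    simp
  add_mem' := by
    intro φ ψ hφ hψ b u h
    rw [AddMonoidHom.add_apply, hφ b u h, hψ b u h, add_zero]
  smul_mem' := by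
    intro a φ hφ b u h
    rw [AddMonoidHom.smul_apply, hφ b u h, smul_zero]

/-- `Ann(M)`: continuous additive maps `Γ_1(M) → ℚ_ℓ` killing the global units. -/
noncomputable def xlAnn [Fact ℓ.Prime] : Submodule ℚ_[ℓ] (Additive (xlGamma ℓ M 1) →+ ℚ_[ℓ]) :=
  xlPhiSpace ℓ M ℚ_[ℓ] ⊓ xlKillUnits ℓ M ℚ_[ℓ]

/-- field independent form of `b ≡ 1 mod ℓ^c` (see `xl_mem_gamma_iff`). -/
def XlCong {A : Type*} [Field A] (c : ℕ) (b : A) : Prop :=
  ∃ s : ℕ, ¬ ℓ ∣ s ∧ IsIntegral ℤ ((s : A) * (b - 1) / (ℓ : A) ^ c)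

end

/-! ## 2. The logarithm as inverse of the exponential -/

section

variable (ℓ : ℕ) [Fact ℓ.Prime] {𝕂 : Type*} [NormedField 𝕂] [NormedAlgebra ℚ_[ℓ] 𝕂]

open Classical in
/-- `xlLg ℓ z` is the `y` with `‖y‖ < expRad ℓ` and `exp y = z` (junk value `0` if there is none). -/
noncomputable def xlLg (z : 𝕂) : 𝕂 :=
  if h : ∃ y : 𝕂, ‖y‖ < Log.expRad ℓ ∧ NormedSpace.exp y = z then h.choose else 0

end

/-! ## 3. Divisors -/

section

variable {K : Type*} [Field K] [NumberField K]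

theorem xl_ord_mul (v : Pl K) {a b : K} (ha : a ≠ 0) (hb : b ≠ 0) :
    ord v (a * b) = ord v a + ord v b := by
  unfold ord
  rw [map_mul, WithZero.log_mul ((Valuation.ne_zero_iff _).2 ha) ((Valuation.ne_zero_iff _).2 hb)]
  ring

theorem xl_dv_mul {a b : K} (ha : a ≠ 0) (hb : b ≠ 0) : dv (a * b) = dv a + dv b := by
  ext v
  simp [xl_ord_mul v ha hb]

/-- the divisor map as a homomorphism. -/
noncomputable def xlDvHom (K : Type*) [Field K] [NumberField K] : Additive Kˣ →+ CFT.Div K where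
  toFun a := dv ((Additive.toMul a : Kˣ) : K)
  map_zero' := by
    ext v
    simp [ord]
  map_add' a b := by
    simpa using xl_dv_mul (Additive.toMul a).ne_zero (Additive.toMul b).ne_zero

@[simp] theorem xlDvHom_apply (a : Kˣ) : xlDvHom K (Additive.ofMul a) = dv (a : K) := rfl

end

/-! ## 4. Frobenius lifts and the map `Θ` -/

section

variable {F E : Type} [Field F] [Field E] [Algebra F E]

/-- `σ` is a Frobenius lift at the prime `v` of `M_U`. -/
def xlFrobAt (U : Subgroup Gal(E/F)) [NumberField (fld U)] (v : Pl (fld U)) (σ : Gal(E/F)) : Prop :=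
  ∃ P : Ideal (𝓞 E), P.IsMaximal ∧ below U P = v.asIdeal ∧ IsFrob U P σ

open Classical in
/-- a chosen Frobenius lift at `v` (junk value `1`). -/
noncomputable def xlFr (U : Subgroup Gal(E/F)) [NumberField (fld U)] (v : Pl (fld U)) : U :=
  if h : ∃ σ, xlFrobAt U v σ then ⟨h.choose, by
    obtain ⟨P, _, _, h3⟩ := h.choose_spec
    exact h3.1⟩ else 1

variable {ℓ : ℕ} [Fact ℓ.Prime]

/-- `D ↦ ∑_v D(v) x(Fr_v)`, linear in `x`. -/
noncomputable def xlThetaDiv (U : Subgroup Gal(E/F)) [NumberField (fld U)] :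
    XChar ℓ U →ₗ[ℚ_[ℓ]] (CFT.Div (fld U) →+ ℚ_[ℓ]) where
  toFun x := Finsupp.liftAddHom (fun v => (zmultiplesHom ℚ_[ℓ]) (x.1 (xlFr U v)))
  map_add' x y := by
    ext v
    simp
  map_smul' c x := by
    ext v
    simp

theorem xlThetaDiv_single (U : Subgroup Gal(E/F)) [NumberField (fld U)] (x : XChar ℓ U)
    (v : Pl (fld U)) (n : ℤ) : xlThetaDiv U x (Finsupp.single v n) = n * x.1 (xlFr U v) := by
  simp [xlThetaDiv]

/-- `Θ_U : x ↦ (b ↦ ∑_v ord_v(b) x(Fr_v))` on `Γ_1(M_U)`. -/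
noncomputable def xlTheta (U : Subgroup Gal(E/F)) [NumberField (fld U)] :
    XChar ℓ U →ₗ[ℚ_[ℓ]] (Additive (xlGamma ℓ (fld U) 1) →+ ℚ_[ℓ]) where
  toFun x := ((xlThetaDiv U x).comp (xlDvHom (fld U))).comp
    (MonoidHom.toAdditive (xlGamma ℓ (fld U) 1).subtype)
  map_add' x y := by
    ext b
    simp
  map_smul' c x := by
    ext b
    simp

theorem xlTheta_apply (U : Subgroup Gal(E/F)) [NumberField (fld U)] (x : XChar ℓ U)
    (b : xlGamma ℓ (fld U) 1) :
    xlTheta U x (Additive.ofMul b) = xlThetaDiv U x (dv (((b : (fld U)ˣ) : fld U))) := rfl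

end

/-! ## 5. What XL consumes from CFT -/

/-- CFT-1 (reciprocity): `L/K` cyclic of `ℓ`-power degree, unramified outside `ℓ`, `μ_ℓ ⊆ K`. -/
def XlCft1 (ℓ : ℕ) : Prop :=
  ∀ (K L : Type) [Field K] [NumberField K] [Field L] [NumberField L] [Algebra K L]
    [IsAbelianGalois K L], HasMu ℓ K → IsCyclic Gal(L/K) → (∃ k : ℕ, Module.finrank K L = ℓ ^ k) →
    (∀ v : Pl K, ¬ xlAbove ℓ K v → Unram K L v) →
    ∃ N : ℕ, ∀ a : Kˣ, (∀ v : Pl K, xlAbove ℓ K v → One v N (a : K)) → art K L (dv (a : K)) = 0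

/-- CFT-2 (existence, weak form with a finite exceptional set), `μ_ℓ ⊆ K`. -/
def XlCft2 (ℓ : ℕ) : Prop :=
  ∀ (K : Type) [Field K] [NumberField K], HasMu ℓ K → ∀ (k N : ℕ) (ψ : CFT.Div K →+ ZMod (ℓ ^ k)),
    (∀ a : Kˣ, (∀ v : Pl K, xlAbove ℓ K v → One v N (a : K)) → ψ (dv (a : K)) = 0) →
    ∃ (L : Type) (_ : Field L) (_ : NumberField L) (_ : Algebra K L) (_ : IsAbelianGalois K L)
      (y : Gal(L/K) →* Multiplicative (ZMod (ℓ ^ k))) (S : Finset (Pl K)),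
      ∀ v : Pl K, v ∉ S → Unram K L v ∧
        y (frob K L v) = Multiplicative.ofAdd (ψ (Finsupp.single v 1))

end Claimed.Agent.R239
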