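import Claimed.Agent.R239.CFT.P0a
import Claimed.Agent.R239.XL.Defs

/-!
# R239 / XL / Gamma : basic properties of `Γ_c(M)` (valuations / integrality)

Package XL (sub-captain helper120).  Plan of the package: `XL/Chain.lean`.
-/

set_option autoImplicit false

open NumberField IsDedekindDomain Claims.C0403

namespace Claimed.Agent.R239

open CFT

variable (ℓ : ℕ) [hℓ : Fact ℓ.Prime] (M : Type*) [Field M] [NumberField M]

omit hℓ in
/-- `val_v ℓ ≤ exp (-1)` for `v ∣ ℓ`. -/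
theorem xl_val_l_le {v : Pl M} (hv : xlAbove ℓ M v) :
    v.valuation M (ℓ : M) ≤ WithZero.exp (-(1 : ℤ)) := by
  have h := (val_le_exp_iff_mem_pow v (ℓ : 𝓞 M) 1).2 (by rw [pow_one]; exact hv)
  simpa using h

omit hℓ in
theorem xl_val_l_lt_one {v : Pl M} (hv : xlAbove ℓ M v) : v.valuation M (ℓ : M) < 1 := by
  have h := (v.valuation_lt_one_iff_mem (K := M) (ℓ : 𝓞 M)).2 hv
  simpa using h

omit hℓ in
theorem xl_val_l_eq_one {v : Pl M} (hv : ¬ xlAbove ℓ M v) : v.valuation M (ℓ : M) = 1 := by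
  have h1 := v.valuation_le_one (K := M) (ℓ : 𝓞 M)
  have h2 := (v.valuation_lt_one_iff_mem (K := M) (ℓ : 𝓞 M)).not.2 hv
  have := le_antisymm h1 (not_lt.1 h2)
  simpa using this

/-- `val_v s = 1` for `v ∣ ℓ`, `ℓ ∤ s`. -/
theorem xl_val_natCast_eq_one {v : Pl M} (hv : xlAbove ℓ M v) {s : ℕ} (hs : ¬ ℓ ∣ s) :
    v.valuation M (s : M) = 1 := by
  have h1 := v.valuation_le_one (K := M) (s : 𝓞 M)
  have h2 : ¬ (s : 𝓞 M) ∈ v.asIdeal := by
    intro hmem
    have hcop : Nat.Coprime ℓ s := (Nat.Prime.coprime_iff_not_dvd hℓ.out).2 hs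
    have hone : (1 : 𝓞 M) ∈ v.asIdeal := by
      have hb := Nat.gcd_eq_gcd_ab ℓ s
      rw [hcop] at hb
      have : (1 : 𝓞 M) = (ℓ : 𝓞 M) * ((Nat.gcdA ℓ s : ℤ) : 𝓞 M) + (s : 𝓞 M) * ((Nat.gcdB ℓ s : ℤ) : 𝓞 M) := by
        have := congrArg (fun n : ℤ => (n : 𝓞 M)) hb
        simpa using this
      rw [this]
      exact v.asIdeal.add_mem (v.asIdeal.mul_mem_right _ hv) (v.asIdeal.mul_mem_right _ hmem)
    exact v.isPrime.ne_top ((Ideal.eq_top_iff_one _).2 hone)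
  have h3 := (v.valuation_lt_one_iff_mem (K := M) (s : 𝓞 M)).not.2 h2
  have := le_antisymm h1 (not_lt.1 h3)
  simpa using this

omit [NumberField M] hℓ in
theorem xl_natCast_ne_zero [CharZero M] (hℓ' : ℓ.Prime) : (ℓ : M) ≠ 0 := by
  exact_mod_cast hℓ'.ne_zero

/-- A0 `XL.mem_gamma_iff`. -/
theorem xl_mem_gamma_iff (c : ℕ) (hc : 1 ≤ c) (b : Mˣ) :
    b ∈ xlGamma ℓ M c ↔ XlCong ℓ c (b : M) := by
  have hl0 : (ℓ : M) ≠ 0 := xl_natCast_ne_zero ℓ M hℓ.out
  constructor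
  · intro hb
    set z : M := ((b : M) - 1) / (ℓ : M) ^ c with hz
    -- a denominator
    obtain ⟨d, hd0, hd⟩ : ∃ d : ℕ, d ≠ 0 ∧ IsIntegral ℤ ((d : M) * z) := by
      have hzalg : IsIntegral ℚ z := Algebra.IsIntegral.isIntegral z
      obtain ⟨m, hm⟩ := IsIntegral.exists_multiple_integral_of_isLocalization
        (nonZeroDivisors ℤ) (Rₘ := ℚ) z hzalg
      have hm0 : (m : ℤ) ≠ 0 := nonZeroDivisors.coe_ne_zero m
      refine ⟨(m : ℤ).natAbs, by simp, ?_⟩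
      have h1 : IsIntegral ℤ (((m : ℤ) : M) * z) := by
        have : m • z = ((m : ℤ) : M) * z := by
          rw [Submonoid.smul_def, zsmul_eq_mul]
        rwa [this] at hm
      rcases Int.natAbs_eq (m : ℤ) with h | h
      · have : (((m : ℤ).natAbs : ℕ) : M) = ((m : ℤ) : M) := by
          conv_rhs => rw [h]
          simp
        rwa [this]
      · have : (((m : ℤ).natAbs : ℕ) : M) * z = -(((m : ℤ) : M) * z) := by
          conv_rhs => rw [h]
          simp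
        rw [this]
        exact h1.neg
    obtain ⟨k, s, hs, hds⟩ := Nat.exists_eq_pow_mul_and_not_dvd hd0 ℓ hℓ.out.ne_one
    refine ⟨s, hs, ?_⟩
    have hgoal : (s : M) * ((b : M) - 1) / (ℓ : M) ^ c = (s : M) * z := by
      rw [hz, mul_div_assoc]
    rw [hgoal]
    -- all valuations are ≤ 1
    have hval : ∀ v : Pl M, v.valuation M ((s : M) * z) ≤ 1 := by
      intro v
      by_cases hv : xlAbove ℓ M v
      · rw [map_mul, xl_val_natCast_eq_one ℓ M hv hs, one_mul, hz, map_div₀]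
        have h2 := (hb v hv).2
        have h3 : v.valuation M ((ℓ : M) ^ c) ≠ 0 := (Valuation.ne_zero_iff _).2 (pow_ne_zero _ hl0)
        exact div_le_one_of_le₀ h2 zero_le
      · have h1 : (s : M) * z = ((d : M) * z) / (ℓ : M) ^ k := by
          rw [hds]
          push_cast
          field_simp
        rw [h1, map_div₀, map_pow, xl_val_l_eq_one ℓ M hv, one_pow, div_one]
        exact v.valuation_le_one (K := M) (⟨(d : M) * z, hd⟩ : 𝓞 M)
    obtain ⟨x, hx⟩ := HeightOneSpectrum.mem_integers_of_valuation_le_one (R := 𝓞 M) M _ hval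
    rw [← hx]
    exact x.2
  · rintro ⟨s, hs, hy⟩ v hv
    have hs0 : (s : M) ≠ 0 := by
      intro h
      have : s = 0 := by exact_mod_cast h
      exact hs (this ▸ dvd_zero _)
    have hy1 : v.valuation M ((s : M) * ((b : M) - 1) / (ℓ : M) ^ c) ≤ 1 :=
      v.valuation_le_one (K := M) (⟨_, hy⟩ : 𝓞 M)
    have h3 : v.valuation M ((ℓ : M) ^ c) ≠ 0 := (Valuation.ne_zero_iff _).2 (pow_ne_zero _ hl0)
    have h2 : v.valuation M ((b : M) - 1) ≤ v.valuation M ((ℓ : M) ^ c) := by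
      rw [map_div₀, map_mul, xl_val_natCast_eq_one ℓ M hv hs, one_mul] at hy1
      exact (div_le_one₀ (zero_lt_iff.2 h3)).1 hy1
    refine ⟨?_, h2⟩
    have h4 : v.valuation M ((b : M) - 1) < 1 := by
      refine lt_of_le_of_lt h2 ?_
      rw [map_pow]
      exact pow_lt_one₀ zero_le (xl_val_l_lt_one ℓ M hv) (by omega)
    have := Valuation.map_add_eq_of_lt_left (v.valuation M) (x := 1) (y := (b : M) - 1)
      (by simpa using h4)
    simpa using this

omit hℓ in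
/-- A0' `XL.cong_map`. -/
theorem xl_cong_map {A B : Type*} [Field A] [Field B] (f : A →+* B) (c : ℕ) (b : A) :
    XlCong ℓ c (f b) ↔ XlCong ℓ c b := by
  have key : ∀ s : ℕ, (s : B) * (f b - 1) / (ℓ : B) ^ c = f.toIntAlgHom ((s : A) * (b - 1) / (ℓ : A) ^ c) := by
    intro s
    simp
  constructor
  · rintro ⟨s, hs, h⟩
    refine ⟨s, hs, ?_⟩
    rw [key] at h
    exact (isIntegral_algHom_iff f.toIntAlgHom f.injective).1 h
  · rintro ⟨s, hs, h⟩
    refine ⟨s, hs, ?_⟩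
    rw [key]
    exact (isIntegral_algHom_iff f.toIntAlgHom f.injective).2 h

/-- A0'' `XL.one_gamma`. -/
theorem xl_exists_one_imp_gamma (c : ℕ) :
    ∃ N : ℕ, ∀ b : Mˣ, (∀ v : Pl M, xlAbove ℓ M v → One v N (b : M)) → b ∈ xlGamma ℓ M c := by
  classical
  have hl0 : (ℓ : M) ≠ 0 := xl_natCast_ne_zero ℓ M hℓ.out
  set S := (finite_ord_ne_zero (ℓ : M)).toFinset with hS
  refine ⟨1 + c * ∑ v ∈ S, (ord v (ℓ : M)).toNat, fun b hb v hv => ?_⟩
  have h1 := hb v hv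
  refine ⟨h1.val_eq_one (by omega), le_trans h1 ?_⟩
  rw [map_pow, val_eq_exp_neg_ord v hl0, ← WithZero.exp_nsmul, WithZero.exp_le_exp]
  have hpos : 0 < ord v (ℓ : M) := by
    have := (ord_pos_iff_mem v (a := (ℓ : 𝓞 M)) (by exact_mod_cast hℓ.out.ne_zero)).2 hv
    simpa using this
  have hmem : v ∈ S := by
    rw [hS, Set.Finite.mem_toFinset]
    exact hpos.ne'
  have hle : (ord v (ℓ : M)).toNat ≤ ∑ v ∈ S, (ord v (ℓ : M)).toNat :=
    Finset.single_le_sum (f := fun v => (ord v (ℓ : M)).toNat) (fun _ _ => Nat.zero_le _) hmem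
  have h2 : ((ord v (ℓ : M)).toNat : ℤ) = ord v (ℓ : M) := Int.toNat_of_nonneg hpos.le
  have h3 : (c : ℤ) * ord v (ℓ : M) ≤ c * ∑ v ∈ S, (ord v (ℓ : M)).toNat := by
    rw [← h2]
    exact_mod_cast Nat.mul_le_mul_left c hle
  simp only [nsmul_eq_mul, mul_neg, neg_le_neg_iff]
  push_cast
  push_cast at h3
  linarith

omit hℓ in
theorem xl_one_of_gamma (c : ℕ) {b : Mˣ} (hb : b ∈ xlGamma ℓ M c) (v : Pl M) (hv : xlAbove ℓ M v) :
    One v c (b : M) := by
  refine le_trans (hb v hv).2 ?_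
  rw [map_pow]
  calc v.valuation M (ℓ : M) ^ c ≤ (WithZero.exp (-(1 : ℤ))) ^ c :=
        pow_le_pow_left₀ zero_le (xl_val_l_le ℓ M hv) c
    _ = WithZero.exp (-(c : ℤ)) := by
        rw [← WithZero.exp_nsmul]
        simp

omit hℓ in
/-- elements of `Γ_1` have trivial divisor above `ℓ`. -/
theorem xl_ord_eq_zero {b : Mˣ} (hb : b ∈ xlGamma ℓ M 1) (v : Pl M) (hv : xlAbove ℓ M v) :
    ord v (b : M) = 0 := by
  unfold ord
  rw [(hb v hv).1]
  simp

omit hℓ in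
/-- A1a `XL.gamma_pow`. -/
theorem xl_gamma_pow (c : ℕ) (hc : 1 ≤ c) {b : Mˣ} (hb : b ∈ xlGamma ℓ M c) :
    b ^ ℓ ∈ xlGamma ℓ M (c + 1) := by
  intro v hv
  have hbl := (xlGamma ℓ M c).pow_mem hb ℓ v hv
  refine ⟨hbl.1, ?_⟩
  have hgeo : ((b ^ ℓ : Mˣ) : M) - 1 = ((b : M) - 1) * ∑ i ∈ Finset.range ℓ, (b : M) ^ i := by
    rw [mul_geom_sum]
    simp
  have hsum : ∑ i ∈ Finset.range ℓ, (b : M) ^ i = (ℓ : M) + ∑ i ∈ Finset.range ℓ, ((b : M) ^ i - 1) := by
    rw [Finset.sum_sub_distrib]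
    simp
  have ht1 : v.valuation M (ℓ : M) ≤ 1 := (xl_val_l_lt_one ℓ M hv).le
  have h1 : v.valuation M (∑ i ∈ Finset.range ℓ, ((b : M) ^ i - 1)) ≤ v.valuation M (ℓ : M) := by
    refine Valuation.map_sum_le _ fun i _ => ?_
    have := ((xlGamma ℓ M c).pow_mem hb i v hv).2
    have h2 : v.valuation M ((ℓ : M) ^ c) ≤ v.valuation M (ℓ : M) := by
      rw [map_pow]
      calc v.valuation M (ℓ : M) ^ c ≤ v.valuation M (ℓ : M) ^ 1 :=
            pow_le_pow_of_le_one zero_le ht1 hc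
        _ = _ := pow_one _
    refine le_trans ?_ h2
    simpa using this
  have h2 : v.valuation M (∑ i ∈ Finset.range ℓ, (b : M) ^ i) ≤ v.valuation M (ℓ : M) := by
    rw [hsum]
    exact le_trans (Valuation.map_add _ _ _) (max_le le_rfl h1)
  rw [hgeo, map_mul, pow_succ, map_mul]
  exact mul_le_mul' (hb v hv).2 h2

omit hℓ in
/-- A7 `XL.dv_eq_zero`. -/
theorem xl_dv_eq_zero_iff (b : Mˣ) :
    dv (b : M) = 0 ↔ ∃ u : (𝓞 M)ˣ, (b : M) = ((u : 𝓞 M) : M) := by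
  constructor
  · intro h
    have h0 : ∀ v : Pl M, ord v (b : M) = 0 := fun v => by
      have := DFunLike.congr_fun h v
      simpa using this
    obtain ⟨x, hx⟩ := exists_integer_of_ord_nonneg (b : M) (fun v => (h0 v).ge)
    obtain ⟨y, hy⟩ := exists_integer_of_ord_nonneg ((b : M)⁻¹) (fun v => by
      rw [ord_inv, h0 v]; simp)
    have hxy : x * y = 1 := by
      apply RingOfIntegers.ext
      have : ((x * y : 𝓞 M) : M) = (x : M) * (y : M) := map_mul (algebraMap (𝓞 M) M) x y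
      rw [this, hx, hy]
      simp
    exact ⟨⟨x, y, hxy, by rw [mul_comm]; exact hxy⟩, hx.symm⟩
  · rintro ⟨u, hu⟩
    ext v
    rw [dv_apply, Finsupp.coe_zero, Pi.zero_apply, hu]
    have h1 := ord_nonneg_of_integer v (u : 𝓞 M)
    have h2 := ord_nonneg_of_integer v ((u⁻¹ : (𝓞 M)ˣ) : 𝓞 M)
    have hu0 : ((u : 𝓞 M) : M) ≠ 0 := by
      rw [← hu]; exact b.ne_zero
    have hinv : (((u⁻¹ : (𝓞 M)ˣ) : 𝓞 M) : M) = ((u : 𝓞 M) : M)⁻¹ := by
      apply eq_inv_of_mul_eq_one_left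
      rw [← map_mul]
      simp
    rw [hinv, ord_inv] at h2
    omega

end Claimed.Agent.R239
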