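import Claimed.Agent.R239.Iface.TAME
import Claimed.Agent.R239.Iface.XCHAR
import Claimed.Agent.R239.Iface.SPL
import Claimed.Agent.R239.XL.Gamma

/-!
# R239 / XL / Frob : Frobenius lifts, values of characters, elementary properties of `Θ`

Package XL (sub-captain helper120).
Plan of the package: `XL/Chain.lean`.
-/

set_option autoImplicit false

open NumberField IsDedekindDomain Claims.C0403

namespace Claimed.Agent.R239

open CFT

variable {F E : Type} [Field F] [NumberField F] [Field E] [Algebra F E] [IsGalois F E]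
variable {ℓ : ℕ} [Fact ℓ.Prime]

omit [NumberField F] [IsGalois F E] in
theorem xlFrobAt.mem {U : Subgroup Gal(E/F)} [NumberField (fld U)] {v : Pl (fld U)} {σ : Gal(E/F)}
    (h : xlFrobAt U v σ) : σ ∈ U := by
  obtain ⟨P, _, _, h3⟩ := h
  exact h3.1

/-- B0a `XL.fr_spec`. -/
theorem xlFr_spec (U : Subgroup Gal(E/F)) (hU : IsOpen (U : Set Gal(E/F))) [NumberField (fld U)]
    (v : Pl (fld U)) : xlFrobAt U v (xlFr U v : Gal(E/F)) := by
  have hex : ∃ σ, xlFrobAt U v σ := by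
    have := v.isMaximal
    obtain ⟨P, hP, hPv⟩ := hil_exists_above U v.asIdeal
    obtain ⟨σ, hσ⟩ := hil_exists_frob U hU P
    exact ⟨σ, P, hP, hPv, hσ⟩
  have : (xlFr U v : Gal(E/F)) = hex.choose := by
    unfold xlFr
    rw [dif_pos hex]
  rw [this]
  exact hex.choose_spec

omit [NumberField F] [IsGalois F E] [Fact ℓ.Prime] in
/-- B0b `XL.above_iff`. -/
theorem xl_above_iff (U : Subgroup Gal(E/F)) [NumberField (fld U)] (v : Pl (fld U))
    (P : Ideal (𝓞 E)) (h : below U P = v.asIdeal) : xlAbove ℓ (fld U) v ↔ Over P ℓ := by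
  unfold xlAbove Over
  rw [← h, below, Ideal.under, Ideal.mem_comap, map_natCast]

/-- B0c `XL.frob_val_unique`. -/
theorem xl_frob_val_unique (hE : SolvablyClosed E) (U : Subgroup Gal(E/F))
    (hU : IsOpen (U : Set Gal(E/F))) [NumberField (fld U)] (x : XChar ℓ U) (v : Pl (fld U))
    (hv : ¬ xlAbove ℓ (fld U) v) {σ σ' : Gal(E/F)} (h : xlFrobAt U v σ) (h' : xlFrobAt U v σ') :
    x.1 ⟨σ, h.mem⟩ = x.1 ⟨σ', h'.mem⟩ := by
  obtain ⟨P, hP, hPv, hF⟩ := h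
  obtain ⟨P', hP', hPv', hF'⟩ := h'
  obtain ⟨g, hg, hgP⟩ := hil_transitive U hU P P' (hPv.trans hPv'.symm)
  have h1 := hil_frob_conj hF g
  rw [Subgroup.conj_smul_eq_self_of_mem hg, hgP] at h1
  have h2 := hil_frob_unique h1 hF'
  have hℓ' : ¬ Over P' ℓ := fun ho => hv ((xl_above_iff U v P' hPv').2 ho)
  have hmem : (g * σ * g⁻¹)⁻¹ * σ' ∈ inert F P' ⊓ U :=
    ⟨h2, U.mul_mem (U.inv_mem h1.1) hF'.1⟩
  have h3 := xchar_unram hE hU hℓ' x hmem
  have e1 : (⟨σ', hF'.1⟩ : U) = ⟨g * σ * g⁻¹, h1.1⟩ * ⟨(g * σ * g⁻¹)⁻¹ * σ', hmem.2⟩ := by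
    ext
    simp
  have e2 : (⟨g * σ * g⁻¹, h1.1⟩ : U) = ⟨g, hg⟩ * ⟨σ, hF.1⟩ * (⟨g, hg⟩ : U)⁻¹ := by
    ext
    simp
  rw [e1, XChar.map_mul, h3, add_zero, e2, XChar.map_conj]

/-- B6 `XL.theta_of_dv`. -/
theorem xl_theta_of_dv (hE : SolvablyClosed E) (U : Subgroup Gal(E/F)) (hU : IsOpen (U : Set Gal(E/F)))
    [NumberField (fld U)] (x : XChar ℓ U) (v : Pl (fld U)) (hv : ¬ xlAbove ℓ (fld U) v)
    (σ : Gal(E/F)) (hσ : xlFrobAt U v σ) (b : xlGamma ℓ (fld U) 1) (h : ℤ)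
    (hb : dv (((b : (fld U)ˣ) : fld U)) = Finsupp.single v h) :
    xlTheta U x (Additive.ofMul b) = h * x.1 ⟨σ, hσ.mem⟩ := by
  rw [xlTheta_apply, hb, xlThetaDiv_single]
  congr 1
  exact xl_frob_val_unique hE U hU x v hv (xlFr_spec U hU v) hσ

omit [NumberField F] [IsGalois F E] in
/-- B3' `XL.theta_kill_units`. -/
theorem xl_theta_kill_units (U : Subgroup Gal(E/F)) [NumberField (fld U)] (x : XChar ℓ U) :
    xlTheta U x ∈ xlKillUnits ℓ (fld U) ℚ_[ℓ] := by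
  intro b u hbu
  rw [xlTheta_apply, (xl_dv_eq_zero_iff (fld U) (b : (fld U)ˣ)).2 ⟨u, hbu⟩, map_zero]

omit [NumberField F] in
/-- B0d `XL.xchar_bounded`. -/
theorem xl_xchar_bounded (U : Subgroup Gal(E/F)) (hU : IsOpen (U : Set Gal(E/F))) (x : XChar ℓ U) :
    ∃ j : ℕ, ∀ u : U, ‖(ℓ : ℚ_[ℓ]) ^ j * x.1 u‖ ≤ 1 := by
  have : CompactSpace U :=
    isCompact_iff_compactSpace.1 (U.isClosed_of_isOpen hU).isCompact
  obtain ⟨C, hC⟩ := isCompact_univ.exists_bound_of_continuousOn (XChar.continuous x).continuousOn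
  have hl1 : (1 : ℝ) < ℓ := by exact_mod_cast (Fact.out : ℓ.Prime).one_lt
  obtain ⟨j, hj⟩ := pow_unbounded_of_one_lt C hl1
  refine ⟨j, fun u => ?_⟩
  have hpos : (0 : ℝ) < (ℓ : ℝ) ^ j := by positivity
  rw [norm_mul, norm_pow, Padic.norm_p, inv_pow]
  calc ((ℓ : ℝ) ^ j)⁻¹ * ‖x.1 u‖ ≤ ((ℓ : ℝ) ^ j)⁻¹ * (ℓ : ℝ) ^ j := by
        apply mul_le_mul_of_nonneg_left ((hC u (Set.mem_univ u)).trans hj.le) (by positivity)
    _ = 1 := inv_mul_cancel₀ hpos.ne'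

omit [NumberField F] [IsGalois F E] in
/-- B0e `XL.xchar_mod`. -/
theorem xl_xchar_mod (U : Subgroup Gal(E/F)) (x : XChar ℓ U) (hx : ∀ u : U, ‖x.1 u‖ ≤ 1) (k : ℕ) :
    ∃ χ : U →* Multiplicative (ZMod (ℓ ^ k)), IsOpen ((χ.ker : Subgroup U) : Set U) ∧
      ∀ u : U, χ u = Multiplicative.ofAdd (PadicInt.toZModPow k ⟨x.1 u, hx u⟩) := by
  let z : U → ℤ_[ℓ] := fun u => ⟨x.1 u, hx u⟩
  have hz1 : z 1 = 0 := PadicInt.ext (XChar.map_one x)
  have hzm : ∀ a b, z (a * b) = z a + z b := fun a b => PadicInt.ext (XChar.map_mul x a b)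
  let χ : U →* Multiplicative (ZMod (ℓ ^ k)) :=
    { toFun := fun u => Multiplicative.ofAdd (PadicInt.toZModPow k (z u))
      map_one' := by
        rw [hz1, map_zero]
        rfl
      map_mul' := fun a b => by
        rw [hzm, map_add]
        rfl }
  refine ⟨χ, ?_, fun u => rfl⟩
  have hset : ((χ.ker : Subgroup U) : Set U) =
      (fun u => x.1 u) ⁻¹' Metric.closedBall (0 : ℚ_[ℓ]) ((ℓ : ℝ) ^ (-(k : ℤ))) := by
    ext u
    simp only [SetLike.mem_coe, MonoidHom.mem_ker, Set.mem_preimage, mem_closedBall_zero_iff]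
    have h1 : χ u = 1 ↔ z u ∈ RingHom.ker (PadicInt.toZModPow (p := ℓ) k) := Iff.rfl
    rw [h1, PadicInt.ker_toZModPow, ← PadicInt.norm_le_pow_iff_mem_span_pow]
    rfl
  rw [hset]
  refine (IsUltrametricDist.isOpen_closedBall (0 : ℚ_[ℓ]) ?_).preimage (XChar.continuous x)
  have : (0 : ℝ) < (ℓ : ℝ) ^ (-(k : ℤ)) := by
    have : (0 : ℝ) < ℓ := by exact_mod_cast (Fact.out : ℓ.Prime).pos
    positivity
  exact this.ne'

end Claimed.Agent.R239
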