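import Claimed.Agent.R239.CFT.P0d
import Claimed.Agent.R239.XL.Frob

/-!
# R239 / XL / Res : `Θ` and restriction

Package XL (sub-captain helper120).  Plan of the package: `XL/Chain.lean`.
-/

set_option autoImplicit false

open NumberField IsDedekindDomain Claims.C0403

namespace Claimed.Agent.R239

open CFT

/-- two additive functions on divisors which agree on the primes outside `p` agree on the divisors with support
outside `p`. -/
theorem xl_addHom_eq_of_pred {K : Type*} [Field K] [NumberField K] {A : Type*} [AddCommGroup A]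
    (f g : CFT.Div K →+ A) (p : Pl K → Prop)
    (h : ∀ v : Pl K, ¬ p v → f (Finsupp.single v 1) = g (Finsupp.single v 1))
    (D : CFT.Div K) (hD : ∀ v, p v → D v = 0) : f D = g D := by
  classical
  let R : CFT.Div K →+ CFT.Div K := Finsupp.filterAddHom (fun v => ¬ p v)
  have hRs : ∀ D, R D = Finsupp.filter (fun v => ¬ p v) D := fun _ => rfl
  have hcomp : f.comp R = g.comp R := by
    apply Finsupp.addHom_ext
    intro v n
    simp only [AddMonoidHom.comp_apply, hRs]
    by_cases hv : p v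
    · rw [Finsupp.filter_single_of_neg (fun v => ¬ p v) (by simpa using hv)]
      simp
    · rw [Finsupp.filter_single_of_pos (fun v => ¬ p v) hv]
      have e : (Finsupp.single v n : CFT.Div K) = n • Finsupp.single v 1 := by
        rw [Finsupp.smul_single]
        simp
      rw [e, map_zsmul, map_zsmul, h v hv]
  have hR : R D = D := by
    rw [hRs, Finsupp.filter_eq_self_iff]
    intro v hv hv'
    exact hv (hD v hv')
  have := DFunLike.congr_fun hcomp D
  simpa only [AddMonoidHom.comp_apply, hR] using this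

variable {F E : Type} [Field F] [NumberField F] [Field E] [Algebra F E] [IsGalois F E]
variable {ℓ : ℕ} [Fact ℓ.Prime]

omit [NumberField F] in
/-- `[M_U : F] = (G : U)`. -/
theorem xl_finrank_fld (U : Subgroup Gal(E/F)) (hU : IsOpen (U : Set Gal(E/F))) :
    Module.finrank F (fld U) = U.index := by
  rw [IntermediateField.finrank_eq_fixingSubgroup_index E (fld U)]
  have := InfiniteGalois.fixingSubgroup_fixedField
    (⟨U, U.isClosed_of_isOpen hU⟩ : ClosedSubgroup Gal(E/F))
  rw [show fld U = IntermediateField.fixedField U from rfl]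
  exact congrArg Subgroup.index this

/-- Frobenius values in a tower. -/
theorem xl_frob_val_tower (hE : SolvablyClosed E) (U V : Subgroup Gal(E/F))
    (hV : IsOpen (V : Set Gal(E/F))) (hVU : V ≤ U) [NumberField (fld U)] [NumberField (fld V)]
    (x : XChar ℓ U) (v : Pl (fld U)) (w : Pl (fld V)) (hv : ¬ xlAbove ℓ (fld U) v)
    (hwv : ∀ P : Ideal (𝓞 E), below V P = w.asIdeal → below U P = v.asIdeal) (f₀ : ℕ)
    (hf₀ : Nat.card (𝓞 (fld U) ⧸ v.asIdeal) ^ f₀ = Nat.card (𝓞 (fld V) ⧸ w.asIdeal)) :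
    (XChar.res hVU x).1 (xlFr V w) = f₀ * x.1 (xlFr U v) := by
  have hU : IsOpen (U : Set Gal(E/F)) := Subgroup.isOpen_mono hVU hV
  obtain ⟨P, hP, hPw, hFw⟩ := xlFr_spec V hV w
  have hPv := hwv P hPw
  have hPℓ : ¬ Over P ℓ := fun h => hv ((xl_above_iff U v P hPv).2 h)
  have hw : ¬ xlAbove ℓ (fld V) w := fun h => hPℓ ((xl_above_iff V w P hPw).1 h)
  obtain ⟨σ, hσ⟩ := hil_exists_frob U hU P
  obtain ⟨f, hf, hN, ⟨i, hi, hFi⟩, -⟩ := hil_tower hV hVU hσ
  -- `f = f₀`
  have hff : f = f₀ := by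
    obtain ⟨p, hp, hPp⟩ := hil_exists_over P
    obtain ⟨e, he, -, hNe⟩ := hil_normAt U hU P hp hPp
    have h2 : 2 ≤ normAt U P := by
      rw [hNe]
      calc 2 ≤ p := hp.two_le
        _ = p ^ 1 := (pow_one p).symm
        _ ≤ p ^ e := Nat.pow_le_pow_right hp.pos he
    have e1 : normAt U P = Nat.card (𝓞 (fld U) ⧸ v.asIdeal) := by rw [normAt, hPv]
    have e2 : normAt V P = Nat.card (𝓞 (fld V) ⧸ w.asIdeal) := by rw [normAt, hPw]
    rw [← e1, ← e2, hN] at hf₀
    exact (Nat.pow_right_injective h2 hf₀).symm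
  subst hff
  have h1 : (XChar.res hVU x).1 (xlFr V w) = (XChar.res hVU x).1 ⟨σ ^ f * i, hFi.1⟩ :=
    xl_frob_val_unique hE V hV (XChar.res hVU x) w hw ⟨P, hP, hPw, hFw⟩ ⟨P, hP, hPw, hFi⟩
  rw [h1, XChar.res_apply]
  have e3 : (⟨σ ^ f * i, hVU hFi.1⟩ : U) = (⟨σ, hσ.1⟩ : U) ^ f * ⟨i, hi.2⟩ := rfl
  rw [e3, XChar.map_mul, XChar.map_pow, xchar_unram hE hU hPℓ x hi, add_zero]
  congr 1
  exact xl_frob_val_unique hE U hU x v hv ⟨P, hP, hPv, hσ⟩ (xlFr_spec U hU v)

/-- B2a `XL.theta_res`. -/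
theorem xl_theta_res (hE : SolvablyClosed E) (U V : Subgroup Gal(E/F)) (hV : IsOpen (V : Set Gal(E/F)))
    (hVU : V ≤ U) (hn : ∀ u ∈ U, ∀ v ∈ V, u * v * u⁻¹ ∈ V)
    [NumberField (fld U)] [NumberField (fld V)] (x : XChar ℓ U)
    (b : (fld U)ˣ) (b' : (fld V)ˣ) (hbb : ((b' : fld V) : E) = ((b : fld U) : E))
    (hb : ∀ v : Pl (fld U), xlAbove ℓ (fld U) v → ord v (b : fld U) = 0) :
    xlThetaDiv V (XChar.res hVU x) (dv (b' : fld V)) =
      (V.relIndex U : ℚ_[ℓ]) * xlThetaDiv U x (dv (b : fld U)) := by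
  classical
  have hU : IsOpen (U : Set Gal(E/F)) := Subgroup.isOpen_mono hVU hV
  have hle : fld U ≤ fld V := fun _ hx g => hx ⟨g.1, hVU g.2⟩
  let _ : Algebra (fld U) (fld V) := (IntermediateField.inclusion hle).toRingHom.toAlgebra
  have : IsScalarTower (fld U) (fld V) E := IsScalarTower.of_algebraMap_eq fun _ => rfl
  have : IsScalarTower F (fld U) (fld V) := IsScalarTower.of_algebraMap_eq fun _ => rfl
  -- the degree
  have hdeg : Module.finrank (fld U) (fld V) = V.relIndex U := by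
    have h1 := Module.finrank_mul_finrank F (fld U) (fld V)
    rw [xl_finrank_fld U hU, xl_finrank_fld V hV, ← Subgroup.relIndex_mul_index hVU, mul_comm] at h1
    have hU0 : U.index ≠ 0 := by
      have := Subgroup.quotient_finite_of_isOpen U hU
      exact Subgroup.FiniteIndex.index_ne_zero (H := U)
        (self := Subgroup.finiteIndex_of_finite_quotient)
    exact Nat.eq_of_mul_eq_mul_right (Nat.pos_of_ne_zero hU0) h1
  have hb' : (b' : fld V) = algebraMap (fld U) (fld V) (b : fld U) := Subtype.ext hbb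
  rw [hb', dv_algebraMap]
  let g : CFT.Div (fld U) →+ ℚ_[ℓ] := (V.relIndex U : ℚ_[ℓ]) • xlThetaDiv U x
  have hg : ∀ D, g D = (V.relIndex U : ℚ_[ℓ]) * xlThetaDiv U x D := fun _ => rfl
  rw [← hg, ← AddMonoidHom.comp_apply]
  refine xl_addHom_eq_of_pred _ _ (xlAbove ℓ (fld U)) (fun v hv => ?_) _ hb
  rw [AddMonoidHom.comp_apply, ext_single, one_smul, map_sum, hg, xlThetaDiv_single, ← hdeg,
    ← sum_eidx_mul_fdeg (fld U) (fld V) v]
  push_cast
  rw [one_mul, Finset.sum_mul]
  refine Finset.sum_congr rfl fun w hw => ?_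
  have hwv : CFT.below (fld U) (fld V) w = v := by simpa using hw
  rw [xlThetaDiv_single, xl_frob_val_tower hE U V hV hVU x v w hv (fun P hP => ?_)
    (fdeg (fld U) (fld V) w) (by rw [← hwv]; exact card_quot_pow_fdeg (fld U) (fld V) w)]
  · push_cast
    ring
  · rw [← hwv]
    change P.under (𝓞 (fld U)) = (w.asIdeal).under (𝓞 (fld U))
    rw [← hP]
    exact (Ideal.under_under (A := 𝓞 (fld U)) (B := 𝓞 (fld V)) P).symm

end Claimed.Agent.R239
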