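import Claimed.Agent.R239.Solv
import Claimed.Agent.R239.XL.Recip
import Claimed.Agent.R239.XL.Res

/-!
# R239 / XL / Mu : (R) in general

Package XL (sub-captain helper120).  Plan of the package: `XL/Chain.lean`.
-/

set_option autoImplicit false

open NumberField IsDedekindDomain Claims.C0403
open scoped IntermediateField

namespace Claimed.Agent.R239

open CFT

variable {F E : Type} [Field F] [NumberField F] [Field E] [Algebra F E] [IsGalois F E]
variable {ℓ : ℕ} [Fact ℓ.Prime]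

/-- B2b `XL.mu_sub`. -/
theorem xl_exists_mu_sub (hE : SolvablyClosed E) (U : Subgroup Gal(E/F))
    (hU : IsOpen (U : Set Gal(E/F))) :
    ∃ U' : Subgroup Gal(E/F), IsOpen (U' : Set Gal(E/F)) ∧ U' ≤ U ∧
      (∀ u ∈ U, ∀ v ∈ U', u * v * u⁻¹ ∈ U') ∧ HasMu ℓ (fld U') := by
  have hp : ℓ.Prime := Fact.out
  have : NeZero ℓ := ⟨hp.ne_zero⟩
  have : CharZero E := charZero_of_injective_algebraMap (algebraMap F E).injective
  obtain ⟨ζ, hζ⟩ := solv_exists_prim hE (n := ℓ) hp.pos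
  let Z : Subgroup Gal(E/F) := MulAction.stabilizer Gal(E/F) ζ
  have hZmem : ∀ g : Gal(E/F), g ∈ Z ↔ g ζ = ζ := fun g => Iff.rfl
  have hZo : IsOpen (Z : Set Gal(E/F)) := by
    have hint : IsIntegral F ζ := Algebra.IsIntegral.isIntegral ζ
    have := IntermediateField.adjoin.finiteDimensional hint
    refine Subgroup.isOpen_mono (H₁ := (F⟮ζ⟯).fixingSubgroup) ?_
      (IntermediateField.fixingSubgroup_isOpen F⟮ζ⟯)
    intro g hg
    exact (IntermediateField.mem_fixingSubgroup_iff _ g).1 hg ζ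
      (IntermediateField.mem_adjoin_simple_self F ζ)
  refine ⟨U ⊓ Z, hU.inter hZo, inf_le_left, ?_, ?_⟩
  · rintro u hu v ⟨hvU, hvZ⟩
    refine ⟨U.mul_mem (U.mul_mem hu hvU) (U.inv_mem hu), ?_⟩
    replace hvZ : v ζ = ζ := hvZ
    change (u * v * u⁻¹) ζ = ζ
    have h1 : (u⁻¹ ζ) ^ ℓ = 1 := by
      rw [← map_pow, hζ.pow_eq_one, map_one]
    obtain ⟨i, -, hi⟩ := hζ.eq_pow_of_pow_eq_one h1
    have h2 : v (u⁻¹ ζ) = u⁻¹ ζ := by
      rw [← hi, map_pow, hvZ]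
    change u (v (u⁻¹ ζ)) = ζ
    rw [h2]
    change (u * u⁻¹) ζ = ζ
    rw [mul_inv_cancel]
    rfl
  · have hmem : ζ ∈ fld (U ⊓ Z) := fun g => g.2.2
    refine ⟨⟨ζ, hmem⟩, ?_⟩
    exact IsPrimitiveRoot.of_map_of_injective (f := algebraMap (fld (U ⊓ Z)) E) hζ
      (algebraMap (fld (U ⊓ Z)) E).injective

omit [NumberField F] [IsGalois F E] in
theorem xl_fld_le {U V : Subgroup Gal(E/F)} (hVU : V ≤ U) : fld U ≤ fld V :=
  fun _ hx g => hx ⟨g.1, hVU g.2⟩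

/-- the inclusion `M_Uˣ → M_Vˣ` for `V ≤ U`. -/
noncomputable def xlIncl {U V : Subgroup Gal(E/F)} (hVU : V ≤ U) : (fld U)ˣ →* (fld V)ˣ :=
  Units.map (IntermediateField.inclusion (xl_fld_le hVU)).toRingHom.toMonoidHom

omit [NumberField F] [IsGalois F E] in
theorem xlIncl_coe {U V : Subgroup Gal(E/F)} (hVU : V ≤ U) (b : (fld U)ˣ) :
    ((xlIncl hVU b : fld V) : E) = ((b : fld U) : E) := rfl

omit [NumberField F] [IsGalois F E] in
/-- membership in `Γ_c` only depends on the element of `E`. -/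
theorem xl_gamma_transfer {U V : Subgroup Gal(E/F)} [NumberField (fld U)] [NumberField (fld V)]
    (c : ℕ) (hc : 1 ≤ c) (b : (fld U)ˣ) (b' : (fld V)ˣ) (h : ((b' : fld V) : E) = ((b : fld U) : E)) :
    b' ∈ xlGamma ℓ (fld V) c ↔ b ∈ xlGamma ℓ (fld U) c := by
  rw [xl_mem_gamma_iff ℓ (fld V) c hc, xl_mem_gamma_iff ℓ (fld U) c hc,
    ← xl_cong_map ℓ (algebraMap (fld V) E) c, ← xl_cong_map ℓ (algebraMap (fld U) E) c]
  have h' : algebraMap (fld V) E (b' : fld V) = algebraMap (fld U) E (b : fld U) := h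
  rw [h']

omit [NumberField F] in
theorem xl_relIndex_ne_zero {U V : Subgroup Gal(E/F)} (hV : IsOpen (V : Set Gal(E/F))) (hVU : V ≤ U) :
    V.relIndex U ≠ 0 := by
  have hU : IsOpen (U : Set Gal(E/F)) := Subgroup.isOpen_mono hVU hV
  have : CompactSpace U := isCompact_iff_compactSpace.1 (U.isClosed_of_isOpen hU).isCompact
  have hWo : IsOpen ((V.subgroupOf U : Subgroup U) : Set U) := hV.preimage continuous_subtype_val
  have := gen_finiteIndex_of_isOpen (V.subgroupOf U) hWo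
  exact Subgroup.FiniteIndex.index_ne_zero

/-- B2 `XL.theta_mem_phi`  ((R) in general). -/
theorem xl_theta_mem_phi (h1 : XlCft1 ℓ) (hE : SolvablyClosed E) (U : Subgroup Gal(E/F))
    (hU : IsOpen (U : Set Gal(E/F))) [NumberField (fld U)] (x : XChar ℓ U) :
    xlTheta U x ∈ xlPhiSpace ℓ (fld U) ℚ_[ℓ] := by
  obtain ⟨U', hU'o, hU'U, hn, hμ⟩ := xl_exists_mu_sub (ℓ := ℓ) hE U hU
  have := hil_numberField U' hU'o
  have hmu := xl_theta_mem_phi_mu h1 hE U' hU'o hμ (XChar.res hU'U x)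
  have hd : ((U'.relIndex U : ℕ) : ℚ_[ℓ]) ≠ 0 := by
    exact_mod_cast xl_relIndex_ne_zero hU'o hU'U
  have hdn : 0 < ‖((U'.relIndex U : ℕ) : ℚ_[ℓ])‖ := norm_pos_iff.2 hd
  intro ε hε
  obtain ⟨c, hc⟩ := hmu (ε * ‖((U'.relIndex U : ℕ) : ℚ_[ℓ])‖) (by positivity)
  refine ⟨max c 1, fun b hb => ?_⟩
  have hb1 : xlIncl hU'U b ∈ xlGamma ℓ (fld U') 1 :=
    (xl_gamma_transfer 1 le_rfl (b : (fld U)ˣ) _ (xlIncl_coe hU'U b)).2 b.2
  have hbc : xlIncl hU'U b ∈ xlGamma ℓ (fld U') c :=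
    xlGamma_antitone ℓ (fld U') (le_max_left c 1)
      ((xl_gamma_transfer (max c 1) (le_max_right c 1) (b : (fld U)ˣ) _ (xlIncl_coe hU'U b)).2 hb)
  have h2 := hc ⟨xlIncl hU'U b, hb1⟩ hbc
  rw [xlTheta_apply, xl_theta_res hE U U' hU'o hU'U hn x b _ (xlIncl_coe hU'U b)
    (fun v hv => xl_ord_eq_zero ℓ (fld U) b.2 v hv), norm_mul, mul_comm] at h2
  rw [xlTheta_apply]
  exact le_of_mul_le_mul_right h2 hdn

end Claimed.Agent.R239
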