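import Claimed.Agent.R239.XL.Frob

/-!
# R239 / XL / Norm : the norm `M_V → M_U` on `Γ_c`

Skeleton file of the package XL (sub-captain helper120).  The statements are FIXED (msg helper120 before changing
one); the owner of this file replaces each `sorry`, adding auxiliary lemmas (prefix `xl_`) above.
Plan of the package: `XL/Chain.lean`.
-/

set_option autoImplicit false

open NumberField IsDedekindDomain Claims.C0403

namespace Claimed.Agent.R239

open CFT

/-! ### The product of the conjugates over `U / V` -/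

section Conj

variable {F E : Type*} [Field F] [Field E] [Algebra F E]

/-- `∏_{δ ∈ U/V} δ x` (meaningful for `x ∈ M_V`, `[U : V]` finite). -/
noncomputable def xlNm (U V : Subgroup Gal(E/F)) (x : E) : E :=
  ∏ᶠ q : U ⧸ V.subgroupOf U, ((Quotient.out q : U) : Gal(E/F)) x

variable (U V : Subgroup Gal(E/F))

theorem xl_out_apply {x : E} (hx : x ∈ fld V) (δ : U) :
    ((Quotient.out (QuotientGroup.mk δ : U ⧸ V.subgroupOf U) : U) : Gal(E/F)) x
      = (δ : Gal(E/F)) x := by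
  obtain ⟨h, hh⟩ := QuotientGroup.mk_out_eq_mul (V.subgroupOf U) δ
  rw [hh]
  show (δ : Gal(E/F)) (((h : U) : Gal(E/F)) x) = _
  rw [(IntermediateField.mem_fixedField_iff _ _).1 hx _ (Subgroup.mem_subgroupOf.1 h.2)]

theorem xlNm_one : xlNm U V (1 : E) = 1 := by
  simp [xlNm]

theorem xlNm_mul [Finite (U ⧸ V.subgroupOf U)] (x y : E) :
    xlNm U V (x * y) = xlNm U V x * xlNm U V y := by
  unfold xlNm
  rw [← finprod_mul_distrib (Set.toFinite _) (Set.toFinite _)]
  exact finprod_congr fun q => map_mul _ _ _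

theorem xlNm_smul [Finite (U ⧸ V.subgroupOf U)] {x : E} (hx : x ∈ fld V) (u : U) :
    (u : Gal(E/F)) (xlNm U V x) = xlNm U V x := by
  unfold xlNm
  have h1 := MonoidHom.map_finprod (((u : Gal(E/F)) : E →+* E) : E →* E)
    (f := fun q : U ⧸ V.subgroupOf U => ((Quotient.out q : U) : Gal(E/F)) x) (Set.toFinite _)
  have h2 : (u : Gal(E/F)) (∏ᶠ q : U ⧸ V.subgroupOf U, ((Quotient.out q : U) : Gal(E/F)) x)
      = ∏ᶠ q : U ⧸ V.subgroupOf U, (u : Gal(E/F)) (((Quotient.out q : U) : Gal(E/F)) x) := h1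
  rw [h2]
  refine Eq.trans ?_ (finprod_comp_equiv (MulAction.toPerm u : Equiv.Perm (U ⧸ V.subgroupOf U)))
  refine finprod_congr fun q => ?_
  have h3 : (MulAction.toPerm u : Equiv.Perm (U ⧸ V.subgroupOf U)) q
      = QuotientGroup.mk (u * Quotient.out q) := by
    show u • q = _
    conv_lhs => rw [← QuotientGroup.out_eq' q]
    rfl
  rw [h3, xl_out_apply U V hx]
  rfl

theorem xlNm_mem [Finite (U ⧸ V.subgroupOf U)] {x : E} (hx : x ∈ fld V) : xlNm U V x ∈ fld U :=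
  (IntermediateField.mem_fixedField_iff _ _).2 fun u hu => xlNm_smul U V hx ⟨u, hu⟩

theorem xlNm_of_mem [Finite (U ⧸ V.subgroupOf U)] {x : E} (hx : x ∈ fld U) :
    xlNm U V x = x ^ V.relIndex U := by
  unfold xlNm
  have : ∀ q : U ⧸ V.subgroupOf U, ((Quotient.out q : U) : Gal(E/F)) x = x := fun q =>
    (IntermediateField.mem_fixedField_iff _ _).1 hx _ (Quotient.out q : U).2
  rw [finprod_congr this]
  have := Fintype.ofFinite (U ⧸ V.subgroupOf U)
  rw [finprod_eq_prod_of_fintype, Finset.prod_const, Finset.card_univ, ← Nat.card_eq_fintype_card]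
  rfl

theorem xlNm_conj [Finite (U ⧸ V.subgroupOf U)] [(V.subgroupOf U).Normal] {x : E} (hx : x ∈ fld V)
    (u : U) : xlNm U V ((u : Gal(E/F)) x) = xlNm U V x := by
  unfold xlNm
  refine Eq.trans ?_ (finprod_comp_equiv (Equiv.mulRight (QuotientGroup.mk u : U ⧸ V.subgroupOf U)))
  refine finprod_congr fun q => ?_
  have h3 : Equiv.mulRight (QuotientGroup.mk u : U ⧸ V.subgroupOf U) q
      = QuotientGroup.mk (Quotient.out q * u) := by
    show q * _ = _
    conv_lhs => rw [← QuotientGroup.out_eq' q]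
    rfl
  rw [h3, xl_out_apply U V hx]
  rfl

theorem xlNm_induction (p : E → Prop) (h1 : p 1) (hmul : ∀ x y, p x → p y → p (x * y))
    (hconj : ∀ (g : Gal(E/F)) (x : E), p x → p (g x)) {x : E} (hx : p x) : p (xlNm U V x) :=
  finprod_induction p h1 hmul fun _ => hconj _ _ hx

end Conj

/-! ### Congruences -/

section Cong

variable {A : Type*} [Field A] [CharZero A] (ℓ : ℕ) [hℓ : Fact ℓ.Prime]

omit [CharZero A] in
theorem xl_cong_one (c : ℕ) : XlCong ℓ c (1 : A) :=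
  ⟨1, fun h => hℓ.out.one_lt.ne' (Nat.dvd_one.1 h), by simpa using isIntegral_zero⟩

theorem xl_cong_mul (c : ℕ) {a b : A} (ha : XlCong ℓ c a) (hb : XlCong ℓ c b) :
    XlCong ℓ c (a * b) := by
  obtain ⟨s, hs, h1⟩ := ha
  obtain ⟨t, ht, h2⟩ := hb
  refine ⟨s * t, fun h => ?_, ?_⟩
  · rcases (Nat.Prime.dvd_mul hℓ.out).1 h with h | h
    · exact hs h
    · exact ht h
  · have hl0 : (ℓ : A) ^ c ≠ 0 := pow_ne_zero _ (Nat.cast_ne_zero.2 hℓ.out.ne_zero)
    have e : ((s * t : ℕ) : A) * (a * b - 1) / (ℓ : A) ^ c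
        = (t : A) * ((s : A) * (a - 1) / (ℓ : A) ^ c) + (s : A) * ((t : A) * (b - 1) / (ℓ : A) ^ c)
          + (ℓ : A) ^ c * (((s : A) * (a - 1) / (ℓ : A) ^ c) * ((t : A) * (b - 1) / (ℓ : A) ^ c)) := by
      push_cast
      field_simp
      ring
    rw [e]
    exact (((isIntegral_natCast t).mul h1).add ((isIntegral_natCast s).mul h2)).add
      (((isIntegral_natCast ℓ).pow c).mul (h1.mul h2))

end Cong


theorem xl_dv_eq_zero_iff' (M : Type*) [Field M] [NumberField M] (b : Mˣ) :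
    dv (b : M) = 0 ↔ IsIntegral ℤ (b : M) ∧ IsIntegral ℤ ((b : M)⁻¹) := by
  rw [xl_dv_eq_zero_iff]
  constructor
  · rintro ⟨u, hu⟩
    refine ⟨hu ▸ (u : 𝓞 M).2, ?_⟩
    have hinv : (((u⁻¹ : (𝓞 M)ˣ) : 𝓞 M) : M) = (b : M)⁻¹ := by
      apply eq_inv_of_mul_eq_one_left
      rw [hu, ← map_mul]
      simp
    exact hinv ▸ ((u⁻¹ : (𝓞 M)ˣ) : 𝓞 M).2
  · rintro ⟨h1, h2⟩
    refine ⟨⟨⟨b, h1⟩, ⟨(b : M)⁻¹, h2⟩, ?_, ?_⟩, rfl⟩
    · apply RingOfIntegers.ext
      show (b : M) * (b : M)⁻¹ = 1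
      exact mul_inv_cancel₀ b.ne_zero
    · apply RingOfIntegers.ext
      show (b : M)⁻¹ * (b : M) = 1
      exact inv_mul_cancel₀ b.ne_zero

variable {F E : Type} [Field F] [NumberField F] [Field E] [Algebra F E] [IsGalois F E]
variable {ℓ : ℕ} [Fact ℓ.Prime]

/-- LEAF B5a `XL.norm_gamma`.  Norm from `M_V` to `M_U` (`V` normal in `U`): for `b' ∈ Γ_c(M_V)` the product of the conjugates
`∏_{δ ∈ U/V} δ b'` lies in `M_U` and in `Γ_c` (`xl_mem_gamma_iff`: each conjugate is `1 + ℓ^c z_δ`, `s z_δ` integral);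
it is a global unit if `b'` is; it is multiplicative; for `b' ∈ M_U` it is `b' ^ [U:V]`. -/
theorem xl_norm_gamma (U V : Subgroup Gal(E/F)) (hV : IsOpen (V : Set Gal(E/F))) (hVU : V ≤ U)
    (hn : ∀ u ∈ U, ∀ v ∈ V, u * v * u⁻¹ ∈ V) [NumberField (fld U)] [NumberField (fld V)] :
    ∃ N : (fld V)ˣ →* (fld U)ˣ,
      (∀ (c : ℕ), 1 ≤ c → ∀ b', b' ∈ xlGamma ℓ (fld V) c → N b' ∈ xlGamma ℓ (fld U) c) ∧
      (∀ b' : (fld V)ˣ, dv (b' : fld V) = 0 → dv (N b' : fld U) = 0) ∧
      (∀ (b' : (fld V)ˣ) (b : (fld U)ˣ), ((b' : fld V) : E) = ((b : fld U) : E) → N b' = b ^ V.relIndex U) ∧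
      (∀ (b' b'' : (fld V)ˣ) (u : Gal(E/F)), u ∈ U → ((b'' : fld V) : E) = u ((b' : fld V) : E) → N b'' = N b') := by
  have hUo : IsOpen (U : Set Gal(E/F)) := Subgroup.isOpen_mono hVU hV
  have hUc : CompactSpace U := isCompact_iff_compactSpace.1 (U.isClosed_of_isOpen hUo).isCompact
  have hfin : Finite (U ⧸ V.subgroupOf U) :=
    Subgroup.quotient_finite_of_isOpen (V.subgroupOf U) (hV.preimage continuous_subtype_val)
  have hnor : (V.subgroupOf U).Normal := ⟨fun n hn' g => hn g.1 g.2 n.1 hn'⟩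
  have hchar : CharZero E := charZero_of_injective_algebraMap (algebraMap F E).injective
  let N₁ : fld V →* fld U :=
    { toFun := fun x => ⟨xlNm U V (x : E), xlNm_mem U V x.2⟩
      map_one' := Subtype.ext (xlNm_one U V)
      map_mul' := fun x y => Subtype.ext (xlNm_mul U V (x : E) (y : E)) }
  have hN : ∀ b' : (fld V)ˣ, (((Units.map N₁ b' : (fld U)ˣ) : fld U) : E)
      = xlNm U V ((b' : fld V) : E) := fun _ => rfl
  refine ⟨Units.map N₁, ?_, ?_, ?_, ?_⟩
  · intro c hc b' hb'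
    rw [xl_mem_gamma_iff ℓ (fld U) c hc, ← xl_cong_map ℓ (algebraMap (fld U) E)]
    rw [xl_mem_gamma_iff ℓ (fld V) c hc, ← xl_cong_map ℓ (algebraMap (fld V) E)] at hb'
    exact xlNm_induction U V (XlCong ℓ c) (xl_cong_one ℓ c) (fun x y => xl_cong_mul ℓ c)
      (fun g x hx => (xl_cong_map ℓ (g : E →+* E) c x).2 hx) hb'
  · intro b' hb'
    rw [xl_dv_eq_zero_iff'] at hb' ⊢
    have key : ∀ y : fld V, IsIntegral ℤ y → IsIntegral ℤ (N₁ y) := by
      intro y hy
      have h1 : IsIntegral ℤ ((y : fld V) : E) := hy.map (IsScalarTower.toAlgHom ℤ (fld V) E)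
      have h2 : IsIntegral ℤ (xlNm U V (y : E)) :=
        xlNm_induction U V (IsIntegral ℤ) isIntegral_one (fun x y => IsIntegral.mul)
          (fun g x hx => hx.map (g : E →+* E).toIntAlgHom) h1
      exact (isIntegral_algHom_iff (IsScalarTower.toAlgHom ℤ (fld U) E)
        (algebraMap (fld U) E).injective).1 h2
    refine ⟨key _ hb'.1, ?_⟩
    have : ((Units.map N₁ b' : (fld U)ˣ) : fld U)⁻¹ = N₁ ((b' : fld V)⁻¹) := by
      rw [← Units.val_inv_eq_inv_val, ← map_inv, ← Units.val_inv_eq_inv_val]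
      rfl
    rw [this]
    exact key _ hb'.2
  · intro b' b hb
    apply Units.ext
    apply Subtype.ext
    rw [hN, hb, xlNm_of_mem U V b.1.2]
    simp
  · intro b' b'' u hu hb
    apply Units.ext
    apply Subtype.ext
    rw [hN, hN, hb]
    exact xlNm_conj U V b'.1.2 ⟨u, hu⟩

end Claimed.Agent.R239
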