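import Claimed.Agent.R239.GEN.Res
import Claimed.Agent.R239.XL.Defs

/-!
# R239 / XL / ResRange : invariant characters are restrictions

Package XL (sub-captain helper120).  Relative version (`V` normal in `U` only) of helper123's `gen_res_surj`, obtained by
applying it to the compact group `U`.
-/

set_option autoImplicit false

open NumberField IsDedekindDomain Claims.C0403

namespace Claimed.Agent.R239

/-- group theoretic form. -/
theorem xl_res_range_grp {G : Type*} [Group G] [TopologicalSpace G] [IsTopologicalGroup G]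
    {ℓ : ℕ} [Fact ℓ.Prime] (U V : Subgroup G) [CompactSpace U] (hV : IsOpen (V : Set G)) (hVU : V ≤ U)
    (hn : ∀ u ∈ U, ∀ v ∈ V, u⁻¹ * v * u ∈ V) (y : XChar ℓ V)
    (hy : ∀ (u : G) (hu : u ∈ U) (g : V), y.1 ⟨u⁻¹ * g.1 * u, hn u hu g.1 g.2⟩ = y.1 g) :
    ∃ x : XChar ℓ U, XChar.res hVU x = y := by
  let W : Subgroup U := V.subgroupOf U
  have hWn : W.Normal := by
    constructor
    intro w hw u
    have := hn u⁻¹.1 u⁻¹.2 w.1 hw
    simpa [W, Subgroup.mem_subgroupOf] using this
  have hWo : IsOpen (W : Set U) := hV.preimage continuous_subtype_val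
  have hWf : W.FiniteIndex := gen_finiteIndex_of_isOpen W hWo
  let f : W →* V :=
    { toFun := fun a => ⟨a.1.1, a.2⟩
      map_one' := rfl
      map_mul' := fun _ _ => rfl }
  have hf : Continuous f :=
    Continuous.subtype_mk (continuous_subtype_val.comp continuous_subtype_val) _
  let y' : XChar ℓ W := XChar.comap f hf y
  have hy' : ∀ g ∈ (⊤ : Subgroup U), XChar.conj W g y' = y' := by
    intro g _
    ext a
    rw [XChar.conj_apply]
    exact hy g.1 g.2 (f a)
  obtain ⟨z, hz⟩ := gen_res_surj W ⊤ hWo le_top y' hy'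
  let e : U →* (⊤ : Subgroup U) :=
    { toFun := fun u => ⟨u, Subgroup.mem_top u⟩
      map_one' := rfl
      map_mul' := fun _ _ => rfl }
  have he : Continuous e := Continuous.subtype_mk continuous_id _
  refine ⟨XChar.comap e he z, ?_⟩
  ext g
  have h1 := congrArg (fun t : XChar ℓ W => t.1 ⟨⟨g.1, hVU g.2⟩, g.2⟩) hz
  exact h1

variable {F E : Type} [Field F] [NumberField F] [Field E] [Algebra F E] [IsGalois F E]
variable {ℓ : ℕ} [Fact ℓ.Prime]

omit [NumberField F] in
/-- B5c `XL.res_range`. -/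
theorem xl_res_range (U V : Subgroup Gal(E/F)) (hV : IsOpen (V : Set Gal(E/F))) (hVU : V ≤ U)
    (hn : ∀ u ∈ U, ∀ v ∈ V, u⁻¹ * v * u ∈ V) (y : XChar ℓ V)
    (hy : ∀ (u : Gal(E/F)) (hu : u ∈ U) (g : V), y.1 ⟨u⁻¹ * g.1 * u, hn u hu g.1 g.2⟩ = y.1 g) :
    ∃ x : XChar ℓ U, XChar.res hVU x = y := by
  have hU : IsOpen (U : Set Gal(E/F)) := Subgroup.isOpen_mono hVU hV
  have : CompactSpace U := isCompact_iff_compactSpace.1 (U.isClosed_of_isOpen hU).isCompact
  exact xl_res_range_grp U V hV hVU hn y hy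

end Claimed.Agent.R239
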