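import Claimed.Agent.R239.XL.Exist
import Claimed.Agent.R239.XL.Mu
import Claimed.Agent.R239.XL.Norm
import Claimed.Agent.R239.XL.Conj
import Claimed.Agent.R239.XL.ResRange

/-!
# R239 / XL / Descent : (E) in general

Package XL (sub-captain helper120).  Plan of the package: `XL/Chain.lean`.
-/

set_option autoImplicit false

open NumberField IsDedekindDomain Claims.C0403

namespace Claimed.Agent.R239

open CFT

variable {F E : Type} [Field F] [NumberField F] [Field E] [Algebra F E] [IsGalois F E]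
variable {ℓ : ℕ} [Fact ℓ.Prime]

omit [NumberField F] [IsGalois F E] in
/-- an element `u` normalising `V` acts on `M_Vˣ`. -/
theorem xl_exists_conj_unit (V : Subgroup Gal(E/F)) (u : Gal(E/F)) (hu : ∀ v ∈ V, u⁻¹ * v * u ∈ V)
    (b : (fld V)ˣ) : ∃ b₁ : (fld V)ˣ, ((b₁ : fld V) : E) = u ((b : fld V) : E) := by
  have hmem : ∀ y : fld V, u (y : E) ∈ fld V := by
    intro y v
    have h1 : (⟨u⁻¹ * v.1 * u, hu v.1 v.2⟩ : V) • (y : E) = (y : E) := y.2 _
    have h2 : (u⁻¹ * v.1 * u) (y : E) = (y : E) := h1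
    change v.1 (u (y : E)) = u (y : E)
    have h3 : v.1 (u (y : E)) = u ((u⁻¹ * v.1 * u) (y : E)) := by
      change v.1 (u (y : E)) = (u * (u⁻¹ * v.1 * u)) (y : E)
      rw [mul_assoc, mul_inv_cancel_left]
      rfl
    rw [h3, h2]
  refine ⟨⟨⟨u ((b : fld V) : E), hmem _⟩, ⟨u (((b⁻¹ : (fld V)ˣ) : fld V) : E), hmem _⟩, ?_, ?_⟩, rfl⟩
  · apply Subtype.ext
    change u ((b : fld V) : E) * u (((b⁻¹ : (fld V)ˣ) : fld V) : E) = 1
    rw [← map_mul]
    have : ((b : fld V) : E) * (((b⁻¹ : (fld V)ˣ) : fld V) : E) = 1 := by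
      simp
    rw [this, map_one]
  · apply Subtype.ext
    change u (((b⁻¹ : (fld V)ˣ) : fld V) : E) * u ((b : fld V) : E) = 1
    rw [← map_mul]
    have : (((b⁻¹ : (fld V)ˣ) : fld V) : E) * ((b : fld V) : E) = 1 := by
      simp
    rw [this, map_one]

omit [NumberField F] [IsGalois F E] in
/-- `Γ_c` is stable under the automorphisms of `E`. -/
theorem xl_gamma_conj {V : Subgroup Gal(E/F)} [NumberField (fld V)] (c : ℕ) (hc : 1 ≤ c)
    (u : Gal(E/F)) (b b₁ : (fld V)ˣ) (h : ((b₁ : fld V) : E) = u ((b : fld V) : E)) :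
    b₁ ∈ xlGamma ℓ (fld V) c ↔ b ∈ xlGamma ℓ (fld V) c := by
  rw [xl_mem_gamma_iff ℓ (fld V) c hc, xl_mem_gamma_iff ℓ (fld V) c hc,
    ← xl_cong_map ℓ (algebraMap (fld V) E) c, ← xl_cong_map ℓ (algebraMap (fld V) E) c (b : fld V),
    ← xl_cong_map ℓ (u : E →+* E) c (algebraMap (fld V) E (b : fld V))]
  have h' : algebraMap (fld V) E (b₁ : fld V) = (u : E →+* E) (algebraMap (fld V) E (b : fld V)) := h
  rw [h']

/-- B5 `XL.theta_surj`  ((E) in general). -/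
theorem xl_theta_surj (h1 : XlCft1 ℓ) (h2 : XlCft2 ℓ) (hE : SolvablyClosed E)
    (U : Subgroup Gal(E/F)) (hU : IsOpen (U : Set Gal(E/F))) [NumberField (fld U)]
    (φ : Additive (xlGamma ℓ (fld U) 1) →+ ℚ_[ℓ]) (hφ : φ ∈ xlAnn ℓ (fld U)) :
    ∃ x : XChar ℓ U, xlTheta U x = φ := by
  obtain ⟨U', hU'o, hU'U, hn, hμ⟩ := xl_exists_mu_sub (ℓ := ℓ) hE U hU
  have := hil_numberField U' hU'o
  have hn' : ∀ u ∈ U, ∀ v ∈ U', u⁻¹ * v * u ∈ U' := fun u hu v hv => by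
    have := hn u⁻¹ (U.inv_mem hu) v hv
    rwa [inv_inv] at this
  obtain ⟨N, hN1, hN2, hN3, hN4⟩ := xl_norm_gamma (ℓ := ℓ) U U' hU'o hU'U hn
  let N₁ : xlGamma ℓ (fld U') 1 →* xlGamma ℓ (fld U) 1 :=
    (N.comp (xlGamma ℓ (fld U') 1).subtype).codRestrict _ (fun b => hN1 1 le_rfl b.1 b.2)
  have hN₁ : ∀ b, ((N₁ b : xlGamma ℓ (fld U) 1) : (fld U)ˣ) = N b.1 := fun _ => rfl
  let φ' : Additive (xlGamma ℓ (fld U') 1) →+ ℚ_[ℓ] := φ.comp (MonoidHom.toAdditive N₁)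
  have hφ'v : ∀ b, φ' (Additive.ofMul b) = φ (Additive.ofMul (N₁ b)) := fun _ => rfl
  have hφ' : φ' ∈ xlAnn ℓ (fld U') := by
    constructor
    · intro ε hε
      obtain ⟨c, hc⟩ := hφ.1 ε hε
      refine ⟨max c 1, fun b hb => ?_⟩
      rw [hφ'v]
      refine hc (N₁ b) ?_
      rw [hN₁]
      exact xlGamma_antitone ℓ (fld U) (le_max_left c 1) (hN1 _ (le_max_right c 1) _ hb)
    · intro b u hbu
      rw [hφ'v]
      have h0 : dv ((b : (fld U')ˣ) : fld U') = 0 := (xl_dv_eq_zero_iff (fld U') _).2 ⟨u, hbu⟩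
      obtain ⟨u₁, hu₁⟩ := (xl_dv_eq_zero_iff (fld U) _).1 (hN2 _ h0)
      exact hφ.2 (N₁ b) u₁ hu₁
  obtain ⟨x', hx'⟩ := xl_theta_surj_mu h1 h2 hE U' hU'o hμ φ' hφ'
  have hx'v : ∀ b : xlGamma ℓ (fld U') 1,
      xlThetaDiv U' x' (dv ((b : (fld U')ˣ) : fld U')) = φ (Additive.ofMul (N₁ b)) := by
    intro b
    rw [← xlTheta_apply, hx', hφ'v]
  -- invariance of `x'`
  have hinv : ∀ (u : Gal(E/F)) (hu : u ∈ U) (g : U'),
      x'.1 ⟨u⁻¹ * g.1 * u, hn' u hu g.1 g.2⟩ = x'.1 g := by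
    intro u hu
    let cu : U' →* U' :=
      { toFun := fun g => ⟨u⁻¹ * g.1 * u, hn' u hu g.1 g.2⟩
        map_one' := by
          apply Subtype.ext
          simp
        map_mul' := fun a b => by
          apply Subtype.ext
          simp [mul_assoc] }
    have hcu : Continuous cu :=
      Continuous.subtype_mk ((continuous_const.mul continuous_subtype_val).mul continuous_const) _
    let x'' : XChar ℓ U' := XChar.comap cu hcu x'
    have hx'' : ∀ g : U', x''.1 g = x'.1 ⟨u⁻¹ * g.1 * u, hn' u hu g.1 g.2⟩ := fun _ => rfl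
    have heq : x'' = x' := by
      apply xl_theta_injective hE U' hU'o
      refine DFunLike.ext _ _ fun b => ?_
      obtain ⟨b, rfl⟩ := Additive.ofMul.surjective b
      obtain ⟨b₀, hb₀⟩ := xl_exists_conj_unit U' u⁻¹ (fun v hv => by
        have := hn u hu v hv
        rwa [inv_inv]) (b : (fld U')ˣ)
      have hb : (((b : (fld U')ˣ) : fld U') : E) = u ((b₀ : fld U') : E) := by
        rw [hb₀]
        change _ = (u * u⁻¹) _
        rw [mul_inv_cancel]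
        rfl
      have hb₀1 : b₀ ∈ xlGamma ℓ (fld U') 1 := (xl_gamma_conj 1 le_rfl u⁻¹ _ _ hb₀).2 b.2
      rw [xlTheta_apply, xlTheta_apply,
        xl_theta_conj hE U' hU'o u (hn' u hu) (hn u hu) x' x'' hx'' b₀ b hb
          (fun v hv => xl_ord_eq_zero ℓ (fld U') hb₀1 v hv),
        hx'v b, hx'v ⟨b₀, hb₀1⟩]
      congr 2
      apply Subtype.ext
      rw [hN₁, hN₁]
      exact (hN4 b₀ b u hu hb).symm
    intro g
    rw [← hx'' g, heq]
  obtain ⟨x, hx⟩ := xl_res_range U U' hU'o hU'U hn' x' hinv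
  refine ⟨x, DFunLike.ext _ _ fun b => ?_⟩
  obtain ⟨b, rfl⟩ := Additive.ofMul.surjective b
  have hd : ((U'.relIndex U : ℕ) : ℚ_[ℓ]) ≠ 0 := by
    exact_mod_cast xl_relIndex_ne_zero hU'o hU'U
  have hb1 : xlIncl hU'U b ∈ xlGamma ℓ (fld U') 1 :=
    (xl_gamma_transfer 1 le_rfl (b : (fld U)ˣ) _ (xlIncl_coe hU'U b)).2 b.2
  have e1 := xl_theta_res hE U U' hU'o hU'U hn x b _ (xlIncl_coe hU'U b)
    (fun v hv => xl_ord_eq_zero ℓ (fld U) b.2 v hv)
  rw [hx, hx'v ⟨xlIncl hU'U b, hb1⟩] at e1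
  have e2 : N₁ ⟨xlIncl hU'U b, hb1⟩ = b ^ U'.relIndex U := by
    apply Subtype.ext
    rw [hN₁]
    exact hN3 _ _ (xlIncl_coe hU'U b)
  rw [e2, ofMul_pow, map_nsmul, nsmul_eq_mul] at e1
  rw [xlTheta_apply]
  exact (mul_left_cancel₀ hd e1).symm

end Claimed.Agent.R239
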