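import Claimed.Agent.R239.XL.Units
import Claimed.Agent.R239.XL.Descent

/-!
# R239 / XL : CHAIN of the package (sub-captain helper120)

GOAL (Iface, section XL): `xl_finite`, `xl_finrank_le`, `xl_finrank_diff`, and `xl_top_repr` (= (R), eaten by DET =
`xl_detect`, helper110).   `ℓ` is odd everywhere.

PLAN.  `K = M_U`.  `Γ_c(K)` = elements `≡ 1 mod ℓ^c`; `Φ(K, 𝕂)` = continuous additive maps `Γ_1 → 𝕂`;
`Ann(K)` = those `φ ∈ Φ(K, ℚ_ℓ)` which kill the global units;  `Θ_U x (b) = ∑_v ord_v(b) x(Fr_v)`.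
  A (abstract number field, no Galois groups): `dim Φ(K, ℚ_ℓ) = [K:ℚ]`, and every `φ ∈ Φ(K, 𝕂)` is
    `∑_σ c_σ lg(σ b)`.                                   files Gamma, Lg, Gen, Repr, Ray
  B (`E`-world): `Θ_U` is injective with range `Ann(K)`   (CFT-1, CFT-2, SPL, TAME, HIL).
                                                          files Frob, GlueLayer, GlueEmbed, Recip, Res, Mu, Inj, PadicGlue,
                                                                Exist, Norm, Conj, ResRange, Descent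
  C (abstract number fields `M' → M`): `dim Ann(M') + r₂(M) ≤ dim Ann(M) + r₂(M')`   (Dirichlet rank only).   file Units
SKELETON: every file of the folder exists with its final statements, sorried, each with a proof sketch, and imports the files it
needs.  One owner per file (table `subtask`, rows `XL.<File>`); the owner replaces the `sorry`s.  Statements are changed only by
helper120.  THIS file contains the assembly, proved from the leaves.

IMPORT DAG:  Defs < Gamma < Gen < {Repr (+Lg), Ray} < Units;   Gamma < Frob < {GlueLayer < Recip, GlueEmbed, Res, Norm, Conj};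
{Recip, Res} < Mu;  {Frob, Ray} < Inj;  {GlueEmbed, Inj, Recip, PadicGlue} < Exist;  {Exist, Mu, Norm, Conj, ResRange} < Descent.
-/

set_option autoImplicit false

open NumberField IsDedekindDomain Claims.C0403

namespace Claimed.Agent.R239

open CFT

variable {F E : Type} [Field F] [NumberField F] [Field E] [Algebra F E] [IsGalois F E]
variable {ℓ : ℕ} [Fact ℓ.Prime]

theorem xl_theta_range (h1 : XlCft1 ℓ) (h2 : XlCft2 ℓ) (hE : SolvablyClosed E)
    (U : Subgroup Gal(E/F)) (hU : IsOpen (U : Set Gal(E/F))) [NumberField (fld U)] :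
    LinearMap.range (xlTheta (ℓ := ℓ) U) = xlAnn ℓ (fld U) := by
  apply le_antisymm
  · rintro _ ⟨x, rfl⟩
    exact ⟨xl_theta_mem_phi h1 hE U hU x, xl_theta_kill_units U x⟩
  · intro φ hφ
    exact xl_theta_surj h1 h2 hE U hU φ hφ

theorem xl_top_finite (h1 : XlCft1 ℓ) (hodd : ℓ ≠ 2) (hE : SolvablyClosed E) (U : Subgroup Gal(E/F))
    (hU : IsOpen (U : Set Gal(E/F))) : Module.Finite ℚ_[ℓ] (XChar ℓ U) := by
  have := hil_numberField U hU
  have := (xl_phi_finrank_le ℓ (fld U) hodd ℚ_[ℓ]).1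
  let T : XChar ℓ U →ₗ[ℚ_[ℓ]] xlPhiSpace ℓ (fld U) ℚ_[ℓ] :=
    (xlTheta U).codRestrict _ (xl_theta_mem_phi h1 hE U hU)
  have hT : Function.Injective T := fun a b hab =>
    xl_theta_injective hE U hU (congrArg Subtype.val hab)
  exact Module.Finite.of_injective T hT

theorem xl_top_finrank_le (h1 : XlCft1 ℓ) (hodd : ℓ ≠ 2) (hE : SolvablyClosed E)
    (U : Subgroup Gal(E/F)) (hU : IsOpen (U : Set Gal(E/F))) :
    Module.finrank ℚ_[ℓ] (XChar ℓ U) ≤ Module.finrank ℚ (fld U) := by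
  have := hil_numberField U hU
  have := (xl_phi_finrank_le ℓ (fld U) hodd ℚ_[ℓ]).1
  let T : XChar ℓ U →ₗ[ℚ_[ℓ]] xlPhiSpace ℓ (fld U) ℚ_[ℓ] :=
    (xlTheta U).codRestrict _ (xl_theta_mem_phi h1 hE U hU)
  have hT : Function.Injective T := fun a b hab =>
    xl_theta_injective hE U hU (congrArg Subtype.val hab)
  exact (LinearMap.finrank_le_finrank_of_injective hT).trans
    (xl_phi_finrank_le ℓ (fld U) hodd ℚ_[ℓ]).2

theorem xl_finrank_eq_ann (h1 : XlCft1 ℓ) (h2 : XlCft2 ℓ) (hE : SolvablyClosed E)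
    (U : Subgroup Gal(E/F)) (hU : IsOpen (U : Set Gal(E/F))) [NumberField (fld U)] :
    Module.finrank ℚ_[ℓ] (XChar ℓ U) = Module.finrank ℚ_[ℓ] (xlAnn ℓ (fld U)) := by
  rw [← xl_theta_range h1 h2 hE U hU]
  exact (LinearMap.finrank_range_of_inj (xl_theta_injective hE U hU)).symm

theorem xl_top_finrank_diff (h1 : XlCft1 ℓ) (h2 : XlCft2 ℓ) (hodd : ℓ ≠ 2) (hE : SolvablyClosed E)
    (U V : Subgroup Gal(E/F)) (hV : IsOpen (V : Set Gal(E/F))) (hVU : V ≤ U)
    [NumberField (fld U)] [NumberField (fld V)] :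
    Module.finrank ℚ_[ℓ] (XChar ℓ U) + InfinitePlace.nrComplexPlaces (fld V) ≤
      Module.finrank ℚ_[ℓ] (XChar ℓ V) + InfinitePlace.nrComplexPlaces (fld U) := by
  have hU : IsOpen (U : Set Gal(E/F)) := Subgroup.isOpen_mono hVU hV
  rw [xl_finrank_eq_ann h1 h2 hE U hU, xl_finrank_eq_ann h1 h2 hE V hV]
  have hle : fld U ≤ fld V := fun x hx g => hx ⟨g.1, hVU g.2⟩
  exact xl_ann_diff ℓ hodd (fld U) (fld V) (IntermediateField.inclusion hle).toRingHom

/-- (R) FOR DET (helper110).  `𝕂 = ℂ_[ℓ]` is an instance.  `c = 0` forces `x = 0` by `xl_theta_injective`;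
`Θ_U x (b) = h x(σ)` if `dv b = h v` and `σ` is a Frobenius lift at `v ∤ ℓ` (`xl_theta_of_dv`). -/
theorem xl_top_repr (h1 : XlCft1 ℓ) (hodd : ℓ ≠ 2) (hE : SolvablyClosed E) (U : Subgroup Gal(E/F))
    (hU : IsOpen (U : Set Gal(E/F))) [NumberField (fld U)] (x : XChar ℓ U)
    (𝕂 : Type*) [NormedField 𝕂] [NormedAlgebra ℚ_[ℓ] 𝕂] [IsUltrametricDist 𝕂] [CompleteSpace 𝕂]
    [CharZero 𝕂] [IsAlgClosed 𝕂] :
    ∃ c : ((fld U) →+* 𝕂) → 𝕂, ∀ b : xlGamma ℓ (fld U) 1,
      algebraMap ℚ_[ℓ] 𝕂 (xlTheta U x (Additive.ofMul b)) =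
        ∑ σ : (fld U) →+* 𝕂, c σ * xlLg ℓ (σ ((b : (fld U)ˣ) : fld U)) := by
  have hx := xl_theta_mem_phi h1 hE U hU x
  let φ : Additive (xlGamma ℓ (fld U) 1) →+ 𝕂 :=
    (algebraMap ℚ_[ℓ] 𝕂).toAddMonoidHom.comp (xlTheta U x)
  have hφ : φ ∈ xlPhiSpace ℓ (fld U) 𝕂 := by
    intro ε hε
    obtain ⟨c, hc⟩ := hx ε hε
    refine ⟨c, fun b hb => ?_⟩
    have : ‖φ (Additive.ofMul b)‖ = ‖xlTheta U x (Additive.ofMul b)‖ := norm_algebraMap' 𝕂 _
    rw [this]
    exact hc b hb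
  exact xl_phi_repr ℓ (fld U) hodd φ hφ

end Claimed.Agent.R239
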