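import Claimed.Agent.R239.CFT.Out
import Claimed.Agent.R239.XL.Defs

/-!
# R239 / XL / FromCFT : the hypotheses `XlCft1`, `XlCft2` from the outputs of the package CFT
-/

set_option autoImplicit false

open NumberField IsDedekindDomain

namespace Claimed.Agent.R239

open CFT

variable {ℓ : ℕ} [hℓ : Fact ℓ.Prime]

theorem xl_cft1 (hodd : ℓ ≠ 2) : XlCft1 ℓ := by
  intro K L _ _ _ _ _ _ hμ _ hdeg hur
  exact cft1 hℓ.out hodd K L hμ hdeg hur

theorem xl_cft2 (hodd : ℓ ≠ 2) : XlCft2 ℓ := by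
  intro K _ _ hμ k N ψ hψ
  obtain ⟨L, i1, i2, i3, i4, x, S, h1, h2⟩ := cft2 hℓ.out hodd K hμ k N ψ hψ
  refine ⟨L, i1, i2, i3, i4, AddMonoidHom.toMultiplicativeRight x, S, fun v hv => ⟨h1 v hv, ?_⟩⟩
  have := h2 v hv
  rw [← this]
  rfl

end Claimed.Agent.R239
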