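import Claimed.Agent.R239.XL.Gen
import Claimed.Agent.R239.CFT.P0b
import Claimed.Agent.R239.CFT.P3b3

/-!
# R239 / XL / Ray : ray class exponent, moving lemma, from `Ann(M)` to functions on divisors

File of the package XL (sub-captain helper120).  The statements are FIXED (msg helper120 before changing
one).  Owner of this file: helper49.
Plan of the package: `XL/Chain.lean`.
-/

set_option autoImplicit false

open NumberField IsDedekindDomain Claims.C0403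

namespace Claimed.Agent.R239

open CFT

/-! ### auxiliary lemmas -/

/-- in a commutative group, the `relIndex`-th power of an element of `K` lies in `H` -/
theorem xl_pow_relIndex_mem {G : Type*} [CommGroup G] (H K : Subgroup G) {g : G} (hg : g ∈ K) :
    g ^ H.relIndex K ∈ H := by
  have h := Subgroup.pow_index_mem (H.subgroupOf K) (⟨g, hg⟩ : K)
  rw [Subgroup.mem_subgroupOf] at h
  show g ^ (H.subgroupOf K).index ∈ H
  simpa using h

section aux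

variable (ℓ : ℕ) [Fact ℓ.Prime] (M : Type*) [Field M] [NumberField M]

theorem xl_ord_l_ne_zero {v : Pl M} (hv : xlAbove ℓ M v) : ord v (ℓ : M) ≠ 0 := by
  have h0 : (ℓ : M) ≠ 0 := Nat.cast_ne_zero.2 (Fact.out : ℓ.Prime).ne_zero
  exact ((ord_pos_iff v h0).2 (xl_val_l_lt_one ℓ M hv)).ne'

theorem xl_finite_above : {v : Pl M | xlAbove ℓ M v}.Finite :=
  (finite_ord_ne_zero (ℓ : M)).subset fun _ hv => xl_ord_l_ne_zero ℓ M hv

/-- a uniform exponent: the `h`-th power of every element which is a unit at all `v ∣ ℓ` lies in `Γ_c` -/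
theorem xl_exists_exponent (c : ℕ) :
    ∃ h : ℕ, 0 < h ∧ ∀ a : Mˣ, (∀ v : Pl M, xlAbove ℓ M v → ord v (a : M) = 0) →
      a ^ h ∈ xlGamma ℓ M c := by
  classical
  obtain ⟨N, hN⟩ := xl_exists_one_imp_gamma ℓ M c
  set S := (xl_finite_above ℓ M).toFinset with hS
  refine ⟨∏ v ∈ S, (Ulev v N).relIndex (Ulev v 0),
    Finset.prod_pos fun v _ => Nat.pos_of_ne_zero (ulev_relIndex_ne_zero v N), fun a ha => ?_⟩
  apply hN
  intro v hv
  have hvS : v ∈ S := by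
    rw [hS, Set.Finite.mem_toFinset]
    exact hv
  obtain ⟨k, hk⟩ := Finset.dvd_prod_of_mem (fun v : Pl M => (Ulev v N).relIndex (Ulev v 0)) hvS
  have h1 : a ^ (Ulev v N).relIndex (Ulev v 0) ∈ Ulev v N :=
    xl_pow_relIndex_mem _ _ (mem_ulev_zero.2 (ha v hv))
  have h2 : a ^ (∏ v ∈ S, (Ulev v N).relIndex (Ulev v 0)) ∈ Ulev v N := by
    rw [hk, pow_mul]
    exact pow_mem h1 k
  exact (mem_ulev.1 h2).2

/-- the class number kills the divisor class group (uniform version of `CFT.exists_nsmul_eq_dv`) -/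
theorem xl_exists_nsmul_eq_dv : ∃ h : ℕ, 0 < h ∧ ∀ D : CFT.Div M, ∃ a : Mˣ, h • D = dv (a : M) := by
  classical
  obtain ⟨S0, hS0⟩ := exists_ClS (K := M)
  choose hw hwpos aw haw using fun w : Pl M => exists_nsmul_eq_dv (Finsupp.single w (1 : ℤ))
  refine ⟨∏ w ∈ S0, hw w, Finset.prod_pos fun w _ => hwpos w, fun D => ?_⟩
  set h := ∏ w ∈ S0, hw w with hh
  let G : AddSubgroup (CFT.Div M) :=
    { carrier := {D | ∃ a : Mˣ, h • D = dv (a : M)}
      add_mem' := by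
        rintro D D' ⟨a, ha⟩ ⟨b, hb⟩
        refine ⟨a * b, ?_⟩
        rw [smul_add, ha, hb, Units.val_mul, dv_mul a.ne_zero b.ne_zero]
      zero_mem' := ⟨1, by simp [dv_one]⟩
      neg_mem' := by
        rintro D ⟨a, ha⟩
        refine ⟨a⁻¹, ?_⟩
        rw [smul_neg, ha, Units.val_inv_eq_inv_val, dv_inv] }
  have hprin : ∀ a : Mˣ, dv (a : M) ∈ G := fun a => ⟨a ^ h, by rw [Units.val_pow_eq_pow_val, dv_pow]⟩
  have hsingle : ∀ w ∈ S0, Finsupp.single w (1 : ℤ) ∈ G := by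
    intro w hwS
    obtain ⟨k, hk⟩ := Finset.dvd_prod_of_mem hw hwS
    refine ⟨aw w ^ k, ?_⟩
    rw [Units.val_pow_eq_pow_val, dv_pow, ← haw w, hh, hk, mul_comm, mul_smul]
  obtain ⟨a, ha⟩ := hS0 D
  have hD : D = dv (a : M) + ∑ w ∈ S0, (D w - ord w (a : M)) • Finsupp.single w (1 : ℤ) := by
    ext v
    rw [Finsupp.add_apply, Finsupp.finsetSum_apply, dv_apply]
    by_cases hv : v ∈ S0
    · rw [Finset.sum_eq_single v]
      · simp
      · intro w _ hwv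
        simp [hwv]
      · intro h1
        exact absurd hv h1
    · rw [Finset.sum_eq_zero, ha v (by simpa using hv), add_zero]
      intro w hw'
      have : w ≠ v := fun h1 => hv (h1 ▸ hw')
      simp [this]
  have : D ∈ G := by
    rw [hD]
    exact G.add_mem (hprin a) (G.sum_mem fun w hw' => G.zsmul_mem (hsingle w hw') _)
  exact this

end aux

variable (ℓ : ℕ) [Fact ℓ.Prime] (M : Type*) [Field M] [NumberField M]

/-- LEAF A5 `XL.ray_exponent`.  `h = (class number) * card (𝓞 M / ℓ)ˣ`:  `h₁ D = dv a`, `a` a unit at all `v ∣ ℓ`;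
`a = x / y` with `x y ∈ 𝓞 M` prime to `ℓ` (or use `xl_mem_gamma_iff`), so `a ^ h₂ ≡ 1 mod ℓ`. -/
theorem xl_ray_exponent :
    ∃ h : ℕ, 0 < h ∧ ∀ D : CFT.Div M, (∀ v : Pl M, xlAbove ℓ M v → D v = 0) →
      ∃ b : Mˣ, b ∈ xlGamma ℓ M 1 ∧ dv (b : M) = h • D := by
  obtain ⟨h₁, h₁pos, hh₁⟩ := xl_exists_nsmul_eq_dv M
  obtain ⟨h₂, h₂pos, hh₂⟩ := xl_exists_exponent ℓ M 1
  refine ⟨h₂ * h₁, Nat.mul_pos h₂pos h₁pos, fun D hD => ?_⟩
  obtain ⟨a, ha⟩ := hh₁ D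
  refine ⟨a ^ h₂, hh₂ a fun v hv => ?_, ?_⟩
  · rw [← dv_apply, ← ha, Finsupp.smul_apply, hD v hv, smul_zero]
  · rw [Units.val_pow_eq_pow_val, dv_pow, ← ha, mul_smul]

/-- LEAF A6 `XL.moving`.  Weak approximation (CFT P0b `WAx`): `a ≡ 1 mod v^N` for `v ∣ ℓ`, `a ≡ b⁻¹` (multiplicatively, so
`ord_v (a b) = 0`) at the `v ∈ S`, `v ∤ ℓ`. -/
theorem xl_moving (c : ℕ) (S : Finset (Pl M)) (b : Mˣ) (hb : b ∈ xlGamma ℓ M 1) :
    ∃ a : Mˣ, a ∈ xlGamma ℓ M c ∧ a ∈ xlGamma ℓ M 1 ∧ ∀ v ∈ S, ord v ((a * b : Mˣ) : M) = 0 := by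
  classical
  obtain ⟨N, hN⟩ := xl_exists_one_imp_gamma ℓ M (max c 1)
  obtain ⟨a, ha⟩ := weak_approx_units (S ∪ (xl_finite_above ℓ M).toFinset)
    (fun v => if xlAbove ℓ M v then 1 else b⁻¹) (N + 1)
  have haΓ : a ∈ xlGamma ℓ M (max c 1) := by
    apply hN
    intro v hv
    have h1 := ha v (by
      rw [Finset.mem_union, Set.Finite.mem_toFinset]
      exact Or.inr hv)
    rw [if_pos hv] at h1
    simpa using h1.mono (Nat.le_succ N)
  have ha1 : a ∈ xlGamma ℓ M 1 := xlGamma_antitone ℓ M (le_max_right c 1) haΓ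
  refine ⟨a, xlGamma_antitone ℓ M (le_max_left c 1) haΓ, ha1, fun v hv => ?_⟩
  by_cases hvl : xlAbove ℓ M v
  · rw [Units.val_mul, ord_mul v a.ne_zero b.ne_zero, xl_ord_eq_zero ℓ M ha1 v hvl,
      xl_ord_eq_zero ℓ M hb v hvl, add_zero]
  · have h1 := ha v (Finset.mem_union_left _ hv)
    rw [if_neg hvl] at h1
    have h2 := h1.ord_eq_zero (Nat.succ_le_succ (Nat.zero_le N))
    simpa using h2

/-- LEAF C2 `XL.unit_pow`.  `h = card (𝓞 M / ℓ)ˣ`. -/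
theorem xl_unit_pow (M : Type*) [Field M] [NumberField M] :
    ∃ h : ℕ, 0 < h ∧ ∀ u : (𝓞 M)ˣ, (Units.map (algebraMap (𝓞 M) M).toMonoidHom u) ^ h ∈ xlGamma ℓ M 1 := by
  obtain ⟨h, hpos, hh⟩ := xl_exists_exponent ℓ M 1
  refine ⟨h, hpos, fun u => hh _ fun v _ => ?_⟩
  have h1 : dv ((Units.map (algebraMap (𝓞 M) M).toMonoidHom u : Mˣ) : M) = 0 :=
    (xl_dv_eq_zero_iff M _).2 ⟨u, rfl⟩
  rw [← dv_apply, h1, Finsupp.zero_apply]

/-- LEAF A8 `XL.psi`.  From `φ ∈ Ann(M)` to a function on divisors.  `h` from `xl_ray_exponent`, `j` from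
`xl_phi_bounded`.  For `v ∤ ℓ` choose `b_v ∈ Γ_1` with `dv b_v = h v`; `ψ v := ℓ^j φ (b_v)`, `ψ v := 0` for `v ∣ ℓ`.
For `b ∈ Γ_1`: `b^h / ∏ b_v ^ ord_v b` has divisor `0`, is a unit in `Γ_1`, killed by `φ`. -/
theorem xl_psi (φ : Additive (xlGamma ℓ M 1) →+ ℚ_[ℓ]) (hφ : φ ∈ xlAnn ℓ M) :
    ∃ (t : ℚ_[ℓ]) (ψ : CFT.Div M →+ ℤ_[ℓ]), t ≠ 0 ∧
      ∀ b : xlGamma ℓ M 1, ((ψ (dv ((b : Mˣ) : M)) : ℤ_[ℓ]) : ℚ_[ℓ]) = t * φ (Additive.ofMul b) := by
  classical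
  obtain ⟨h, hpos, hh⟩ := xl_ray_exponent ℓ M
  obtain ⟨j, hj⟩ := xl_phi_bounded ℓ M φ hφ.1
  -- the elements `b_v`
  have hex : ∀ v : Pl M, ∃ b : xlGamma ℓ M 1,
      dv ((b : Mˣ) : M) = h • (if xlAbove ℓ M v then 0 else Finsupp.single v (1 : ℤ)) := by
    intro v
    obtain ⟨b, hb, hb'⟩ := hh (if xlAbove ℓ M v then 0 else Finsupp.single v (1 : ℤ)) (by
      intro w hw
      split_ifs with hv
      · rfl
      · rw [Finsupp.single_apply, if_neg]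
        rintro rfl
        exact hv hw)
    exact ⟨⟨b, hb⟩, hb'⟩
  choose β hβ using hex
  let Ψ : CFT.Div M →+ Additive (xlGamma ℓ M 1) :=
    Finsupp.liftAddHom (fun v => (zmultiplesHom (Additive (xlGamma ℓ M 1))) (Additive.ofMul (β v)))
  let δ : Additive (xlGamma ℓ M 1) →+ CFT.Div M :=
    (xlDvHom M).comp (MonoidHom.toAdditive (xlGamma ℓ M 1).subtype)
  have hδ : ∀ b : xlGamma ℓ M 1, δ (Additive.ofMul b) = dv ((b : Mˣ) : M) := fun b => rfl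
  have hfil : ∀ D : CFT.Div M, Finsupp.filterAddHom (fun v : Pl M => ¬ xlAbove ℓ M v) D
      = D.filter (fun v : Pl M => ¬ xlAbove ℓ M v) := fun _ => rfl
  have hcomp : δ.comp Ψ = h • (Finsupp.filterAddHom (fun v : Pl M => ¬ xlAbove ℓ M v)) := by
    refine Finsupp.addHom_ext fun v n => ?_
    have e1 : Ψ (Finsupp.single v n) = n • Additive.ofMul (β v) := by
      simp [Ψ]
    rw [AddMonoidHom.comp_apply, e1, map_zsmul, hδ, hβ, AddMonoidHom.smul_apply, hfil]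
    by_cases hv : xlAbove ℓ M v
    · rw [if_pos hv, Finsupp.filter_single_of_neg _ (by simpa using hv)]
      simp
    · rw [if_neg hv, Finsupp.filter_single_of_pos (fun v : Pl M => ¬ xlAbove ℓ M v) hv, smul_comm, Finsupp.smul_single]
      simp
  have hkey : ∀ b : xlGamma ℓ M 1, φ (Ψ (dv ((b : Mˣ) : M))) = h * φ (Additive.ofMul b) := by
    intro b
    have h1 : δ (Ψ (dv ((b : Mˣ) : M))) = h • dv ((b : Mˣ) : M) := by
      rw [← AddMonoidHom.comp_apply, hcomp, AddMonoidHom.smul_apply, hfil,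
        (Finsupp.filter_eq_self_iff _ _).2]
      intro v hv hvl
      exact hv (xl_ord_eq_zero ℓ M b.2 v hvl)
    set e : Additive (xlGamma ℓ M 1) := h • Additive.ofMul b - Ψ (dv ((b : Mˣ) : M)) with he
    have h2 : δ e = 0 := by
      rw [he, map_sub, map_nsmul, hδ, h1, sub_self]
    have h3 : dv (((Additive.toMul e : xlGamma ℓ M 1) : Mˣ) : M) = 0 := h2
    obtain ⟨u, hu⟩ := (xl_dv_eq_zero_iff M _).1 h3
    have h4 : φ e = 0 := hφ.2 (Additive.toMul e) u hu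
    rw [he, map_sub, map_nsmul, sub_eq_zero, nsmul_eq_mul] at h4
    exact h4.symm
  let f : CFT.Div M → ℤ_[ℓ] := fun D => ⟨(ℓ : ℚ_[ℓ]) ^ j * φ (Ψ D), hj (Additive.toMul (Ψ D))⟩
  have hf : ∀ D, ((f D : ℤ_[ℓ]) : ℚ_[ℓ]) = (ℓ : ℚ_[ℓ]) ^ j * φ (Ψ D) := fun _ => rfl
  let ψ : CFT.Div M →+ ℤ_[ℓ] :=
    AddMonoidHom.mk' f (by
      intro D D'
      apply PadicInt.ext
      rw [PadicInt.coe_add, hf, hf, hf, map_add, map_add, mul_add])
  have hℓ0 : (ℓ : ℚ_[ℓ]) ≠ 0 := Nat.cast_ne_zero.2 (Fact.out : ℓ.Prime).ne_zero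
  refine ⟨(ℓ : ℚ_[ℓ]) ^ j * h, ψ, mul_ne_zero (pow_ne_zero _ hℓ0) (Nat.cast_ne_zero.2 hpos.ne'),
    fun b => ?_⟩
  show ((f (dv ((b : Mˣ) : M)) : ℤ_[ℓ]) : ℚ_[ℓ]) = _
  rw [hf, hkey, mul_assoc]

end Claimed.Agent.R239
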