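import Claimed.Agent.R239.XL.Frob
import Claimed.Agent.R239.XL.Ray

/-!
# R239 / XL / Inj : rigidity and injectivity of `Θ`

Package XL (sub-captain helper120).  Plan of the package: `XL/Chain.lean`.
-/

set_option autoImplicit false

open NumberField IsDedekindDomain Claims.C0403

namespace Claimed.Agent.R239

open CFT

variable {F E : Type} [Field F] [NumberField F] [Field E] [Algebra F E] [IsGalois F E]
variable {ℓ : ℕ} [Fact ℓ.Prime]

/-- `spl_cyclic` in the form used by XL: the residue characteristic avoids a given finite set. -/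
theorem xl_spl (U V : Subgroup Gal(E/F)) (hV : IsOpen (V : Set Gal(E/F))) (hVU : V ≤ U)
    (hn : ∀ u ∈ U, ∀ v ∈ V, u * v * u⁻¹ ∈ V) (γ : Gal(E/F)) (hγ : γ ∈ U) (T : Finset ℕ) :
    ∃ (p : ℕ) (P : Ideal (𝓞 E)) (σ : Gal(E/F)), p.Prime ∧ p ∉ T ∧ P.IsMaximal ∧ Over P p ∧
      IsFrob U P σ ∧ Subgroup.zpowers σ ⊔ V = Subgroup.zpowers γ ⊔ V := by
  obtain ⟨q, hq, hqT⟩ := (spl_cyclic U V hV hVU hn γ hγ).exists_notMem_finset T
  obtain ⟨hqp, P, σ, hP, hPq, -, -, hσ, hz⟩ := hq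
  exact ⟨q, P, σ, hqp, hqT, hP, hPq, hσ, hz⟩

/-- B3a `XL.rigid`. -/
theorem xl_rigid (U : Subgroup Gal(E/F)) (hU : IsOpen (U : Set Gal(E/F))) {A : Type} [CommGroup A]
    (χ : U →* A) (hχ : IsOpen ((χ.ker : Subgroup U) : Set U)) (T : Finset ℕ)
    (h : ∀ (P : Ideal (𝓞 E)) (q : ℕ) (σ : Gal(E/F)) (hσ : IsFrob U P σ), P.IsMaximal → q.Prime →
      Over P q → q ∉ T → χ ⟨σ, hσ.1⟩ = 1) : χ = 1 := by
  let V : Subgroup Gal(E/F) := χ.ker.map U.subtype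
  have hmemV : ∀ g : Gal(E/F), g ∈ V ↔ ∃ hg : g ∈ U, χ ⟨g, hg⟩ = 1 := by
    intro g
    constructor
    · rintro ⟨u, hu, rfl⟩
      exact ⟨u.2, hu⟩
    · rintro ⟨hg, hg1⟩
      exact ⟨⟨g, hg⟩, hg1, rfl⟩
  have hV : IsOpen (V : Set Gal(E/F)) := by
    have : (V : Set Gal(E/F)) = Subtype.val '' ((χ.ker : Subgroup U) : Set U) := rfl
    rw [this]
    exact hU.isOpenEmbedding_subtypeVal.isOpenMap _ hχ
  have hVU : V ≤ U := fun g hg => ((hmemV g).1 hg).1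
  have hn : ∀ u ∈ U, ∀ v ∈ V, u * v * u⁻¹ ∈ V := by
    intro u hu v hv
    obtain ⟨hvU, hv1⟩ := (hmemV v).1 hv
    refine (hmemV _).2 ⟨U.mul_mem (U.mul_mem hu hvU) (U.inv_mem hu), ?_⟩
    have : (⟨u * v * u⁻¹, U.mul_mem (U.mul_mem hu hvU) (U.inv_mem hu)⟩ : U)
        = ⟨u, hu⟩ * ⟨v, hvU⟩ * (⟨u, hu⟩ : U)⁻¹ := rfl
    rw [this, map_mul, map_mul, hv1, map_inv, mul_one, mul_inv_cancel]
  ext γ
  obtain ⟨p, P, σ, hp, hpT, hP, hPp, hσ, hz⟩ := xl_spl U V hV hVU hn γ.1 γ.2 T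
  have hσV : σ ∈ V := (hmemV σ).2 ⟨hσ.1, h P p σ hσ hP hp hPp hpT⟩
  have h1 : Subgroup.zpowers σ ⊔ V = V := sup_eq_right.2 ((Subgroup.zpowers_le).2 hσV)
  have h2 : γ.1 ∈ V := by
    rw [← h1, hz]
    exact (le_sup_left : Subgroup.zpowers γ.1 ≤ _) (Subgroup.mem_zpowers _)
  exact ((hmemV _).1 h2).2

/-- the prime of `M_U` below `P`. -/
theorem xl_exists_pl (U : Subgroup Gal(E/F)) [NumberField (fld U)] (P : Ideal (𝓞 E)) [P.IsMaximal] :
    ∃ v : Pl (fld U), below U P = v.asIdeal := by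
  have hmax := hil_below_isMaximal U P
  exact ⟨⟨below U P, hmax.isPrime,
    Ring.ne_bot_of_isMaximal_of_not_isField hmax (RingOfIntegers.not_isField (fld U))⟩, rfl⟩

/-- B3 `XL.theta_injective`. -/
theorem xl_theta_injective (hE : SolvablyClosed E) (U : Subgroup Gal(E/F))
    (hU : IsOpen (U : Set Gal(E/F))) [NumberField (fld U)] :
    Function.Injective (xlTheta (ℓ := ℓ) U) := by
  classical
  rw [injective_iff_map_eq_zero]
  intro x hx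
  -- (a), (b): `x` kills all Frobenius lifts outside `ℓ`
  have hfrob : ∀ (P : Ideal (𝓞 E)) (σ : Gal(E/F)) (hσ : IsFrob U P σ), P.IsMaximal → ¬ Over P ℓ →
      x.1 ⟨σ, hσ.1⟩ = 0 := by
    intro P σ hσ hP hPℓ
    obtain ⟨v, hv⟩ := xl_exists_pl U P
    have hvℓ : ¬ xlAbove ℓ (fld U) v := fun h => hPℓ ((xl_above_iff U v P hv).1 h)
    obtain ⟨h, hh, hray⟩ := xl_ray_exponent ℓ (fld U)
    obtain ⟨b, hb, hdv⟩ := hray (Finsupp.single v 1) (fun v' hv' => by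
      rw [Finsupp.single_apply, if_neg]
      rintro rfl
      exact hvℓ hv')
    have hdv' : dv (b : fld U) = Finsupp.single v (h : ℤ) := by
      rw [hdv, Finsupp.smul_single]
      simp
    have h1 := xl_theta_of_dv hE U hU x v hvℓ σ ⟨P, hP, hv, hσ⟩ ⟨b, hb⟩ h hdv'
    rw [hx] at h1
    have hh0 : ((h : ℤ) : ℚ_[ℓ]) ≠ 0 := by
      exact_mod_cast hh.ne'
    rw [AddMonoidHom.zero_apply] at h1
    exact (mul_eq_zero.1 h1.symm).resolve_left hh0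
  obtain ⟨j, hj⟩ := xl_xchar_bounded U hU x
  set x' : XChar ℓ U := ((ℓ : ℚ_[ℓ]) ^ j) • x with hx'
  have hx'v : ∀ u : U, x'.1 u = (ℓ : ℚ_[ℓ]) ^ j * x.1 u := fun u => rfl
  have hx'1 : ∀ u : U, ‖x'.1 u‖ ≤ 1 := fun u => by rw [hx'v]; exact hj u
  have hl0 : (ℓ : ℚ_[ℓ]) ^ j ≠ 0 := pow_ne_zero _ (by exact_mod_cast (Fact.out : ℓ.Prime).ne_zero)
  ext u
  let z : U → ℤ_[ℓ] := fun u => ⟨x'.1 u, hx'1 u⟩
  have hz : z u = 0 := by
    rw [← PadicInt.ext_of_toZModPow]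
    intro k
    obtain ⟨χ, hχo, hχ⟩ := xl_xchar_mod U x' hx'1 k
    have hχ1 : χ = 1 := by
      refine xl_rigid U hU χ hχo {ℓ} fun P q σ hσ hP hq hPq hqT => ?_
      have hPℓ : ¬ Over P ℓ := fun hO =>
        hqT (Finset.mem_singleton.2 (hil_over_unique P hq (Fact.out : ℓ.Prime) hPq hO))
      rw [hχ]
      have h0 : z ⟨σ, hσ.1⟩ = 0 := by
        apply PadicInt.ext
        change x'.1 ⟨σ, hσ.1⟩ = 0
        rw [hx'v, hfrob P σ hσ hP hPℓ, mul_zero]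
      change Multiplicative.ofAdd (PadicInt.toZModPow k (z ⟨σ, hσ.1⟩)) = 1
      rw [h0, map_zero]
      rfl
    have := hχ u
    rw [hχ1] at this
    rw [map_zero]
    exact (Multiplicative.ofAdd.injective this.symm)
  have h1 : x'.1 u = 0 := congrArg Subtype.val hz
  rw [hx'v] at h1
  exact (mul_eq_zero.1 h1).resolve_left hl0

end Claimed.Agent.R239
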