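import Claimed.Agent.R239.XL.Defs

/-!
# R239 / XL / PadicGlue : gluing characters mod `ℓ^k`

Skeleton file of the package XL (sub-captain helper120).  The statements are FIXED (msg helper120 before changing
one); the owner of this file replaces each `sorry`, adding auxiliary lemmas (prefix `xl_`) above.
Plan of the package: `XL/Chain.lean`.
-/

set_option autoImplicit false

open NumberField IsDedekindDomain Claims.C0403

namespace Claimed.Agent.R239

open CFT

variable {ℓ : ℕ} [Fact ℓ.Prime]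

/-- The ring of compatible families in `∏ ℤ/ℓ^k`. -/
def xlCompat (ℓ : ℕ) : Subring (∀ k : ℕ, ZMod (ℓ ^ k)) where
  carrier := {a | ∀ (k1 k2 : ℕ) (hk : k1 ≤ k2), ZMod.castHom (pow_dvd_pow ℓ hk) (ZMod (ℓ ^ k1)) (a k2) = a k1}
  mul_mem' := by
    intro a b ha hb k1 k2 hk
    simp only [Pi.mul_apply, map_mul, ha k1 k2 hk, hb k1 k2 hk]
  one_mem' := by
    intro k1 k2 hk
    simp only [Pi.one_apply, map_one]
  add_mem' := by
    intro a b ha hb k1 k2 hk
    simp only [Pi.add_apply, map_add, ha k1 k2 hk, hb k1 k2 hk]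
  zero_mem' := by
    intro k1 k2 hk
    simp only [Pi.zero_apply, map_zero]
  neg_mem' := by
    intro a ha k1 k2 hk
    simp only [Pi.neg_apply, map_neg, ha k1 k2 hk]

/-- The `k`-th projection of the ring of compatible families. -/
def xlCompatProj (ℓ : ℕ) (k : ℕ) : xlCompat ℓ →+* ZMod (ℓ ^ k) :=
  (Pi.evalRingHom (fun k : ℕ => ZMod (ℓ ^ k)) k).comp (xlCompat ℓ).subtype

theorem xl_compatProj_compat (ℓ : ℕ) (k1 k2 : ℕ) (hk : k1 ≤ k2) :
    (ZMod.castHom (pow_dvd_pow ℓ hk) (ZMod (ℓ ^ k1))).comp (xlCompatProj ℓ k2) = xlCompatProj ℓ k1 := by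
  ext a
  exact a.2 k1 k2 hk

omit [Fact ℓ.Prime] in
/-- successive compatibility implies compatibility. -/
theorem xl_compat_of_succ (a : ∀ k : ℕ, ZMod (ℓ ^ k))
    (h : ∀ k : ℕ, ZMod.castHom (pow_dvd_pow ℓ (Nat.le_succ k)) (ZMod (ℓ ^ k)) (a (k + 1)) = a k) :
    a ∈ xlCompat ℓ := by
  intro k1 k2 hk
  induction k2, hk using Nat.le_induction with
  | base => simp
  | succ k2 hk ih =>
    rw [← ih, ← h k2]
    have := ZMod.castHom_comp (pow_dvd_pow ℓ hk) (pow_dvd_pow ℓ (Nat.le_succ k2))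
    exact (DFunLike.congr_fun this (a (k2 + 1))).symm

/-- LEAF B4b `XL.padic_glue`.  A compatible family of homomorphisms `χ_k : H → ℤ/ℓ^k` with open kernels is the reduction of one
continuous `x : H → ℤ_ℓ`.  (Apply `PadicInt.lift` to the ring of compatible families, or build the Cauchy sequence.) -/
theorem xl_padic_glue {H : Type*} [Group H] [TopologicalSpace H] [IsTopologicalGroup H]
    (χ : ∀ k : ℕ, H →* Multiplicative (ZMod (ℓ ^ k)))
    (hχ : ∀ k, IsOpen (((χ k).ker : Subgroup H) : Set H))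
    (hc : ∀ (k : ℕ) (u : H), ZMod.castHom (pow_dvd_pow ℓ (Nat.le_succ k)) (ZMod (ℓ ^ k))
      (Multiplicative.toAdd (χ (k + 1) u)) = Multiplicative.toAdd (χ k u)) :
    ∃ x : XChar ℓ H, ∀ u : H, ∃ hx : ‖x.1 u‖ ≤ 1, ∀ k : ℕ,
      PadicInt.toZModPow k ⟨x.1 u, hx⟩ = Multiplicative.toAdd (χ k u) := by
  classical
  -- the family attached to `u`
  let a : H → xlCompat ℓ := fun u =>
    ⟨fun k => Multiplicative.toAdd (χ k u), xl_compat_of_succ _ fun k => hc k u⟩
  let L : xlCompat ℓ →+* ℤ_[ℓ] := PadicInt.lift (xl_compatProj_compat ℓ)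
  let z : H → ℤ_[ℓ] := fun u => L (a u)
  have hspec : ∀ (u : H) (k : ℕ), PadicInt.toZModPow k (z u) = Multiplicative.toAdd (χ k u) := by
    intro u k
    exact DFunLike.congr_fun (PadicInt.lift_spec (xl_compatProj_compat ℓ) k) (a u)
  have ha_mul : ∀ u v : H, a (u * v) = a u + a v := by
    intro u v
    apply Subtype.ext
    funext k
    simp [a]
  have hz_mul : ∀ u v : H, z (u * v) = z u + z v := by
    intro u v
    simp only [z, ha_mul, map_add]
  have hz_cont : Continuous z := by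
    rw [continuous_iff_continuousAt]
    intro u₀
    rw [ContinuousAt, Metric.tendsto_nhds]
    intro ε hε
    obtain ⟨k, hk⟩ := PadicInt.exists_pow_neg_lt ℓ hε
    have hopen : IsOpen {u : H | u₀⁻¹ * u ∈ (χ k).ker} :=
      (hχ k).preimage (continuous_const.mul continuous_id)
    filter_upwards [hopen.mem_nhds (by simp)] with u hu
    refine lt_of_le_of_lt ?_ hk
    rw [dist_eq_norm, PadicInt.norm_le_pow_iff_mem_span_pow, ← PadicInt.ker_toZModPow,
      RingHom.mem_ker, map_sub, hspec, hspec, sub_eq_zero]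
    have h1 : χ k (u₀⁻¹ * u) = 1 := hu
    rw [map_mul, map_inv, inv_mul_eq_one] at h1
    rw [h1]
  refine ⟨⟨fun u => (z u : ℚ_[ℓ]), ?_, ?_⟩, ?_⟩
  · exact continuous_subtype_val.comp hz_cont
  · intro u v
    show ((z (u * v) : ℤ_[ℓ]) : ℚ_[ℓ]) = (z u : ℚ_[ℓ]) + (z v : ℚ_[ℓ])
    rw [hz_mul]
    push_cast
    rfl
  · intro u
    refine ⟨(z u).2, fun k => ?_⟩
    exact hspec u k

end Claimed.Agent.R239
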