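import Claimed.Agent.R239.XL.GlueEmbed
import Claimed.Agent.R239.XL.Inj
import Claimed.Agent.R239.XL.Recip
import Claimed.Agent.R239.XL.PadicGlue

/-!
# R239 / XL / Exist : (E) when `μ_ℓ ⊆ M_U`

Package XL (sub-captain helper120).  Plan of the package: `XL/Chain.lean`.
-/

set_option autoImplicit false

open NumberField IsDedekindDomain Claims.C0403

namespace Claimed.Agent.R239

open CFT

variable {F E : Type} [Field F] [NumberField F] [Field E] [Algebra F E] [IsGalois F E]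
variable {ℓ : ℕ} [Fact ℓ.Prime]

/-- B4a `XL.level`.  CFT-2 for `ψ mod ℓ^k` + `xl_glue_embed`. -/
theorem xl_level (h2 : XlCft2 ℓ) (hE : SolvablyClosed E) (U : Subgroup Gal(E/F))
    (hU : IsOpen (U : Set Gal(E/F))) [NumberField (fld U)] (hμ : HasMu ℓ (fld U))
    (ψ : CFT.Div (fld U) →+ ℤ_[ℓ]) (k c : ℕ)
    (hψ : ∀ a : (fld U)ˣ, a ∈ xlGamma ℓ (fld U) c → PadicInt.toZModPow k (ψ (dv (a : fld U))) = 0) :
    ∃ (χ : U →* Multiplicative (ZMod (ℓ ^ k))) (S : Finset (Pl (fld U))),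
      IsOpen ((χ.ker : Subgroup U) : Set U) ∧ ∀ v : Pl (fld U), v ∉ S →
        ∀ (σ : Gal(E/F)) (hσ : xlFrobAt U v σ),
          χ ⟨σ, hσ.mem⟩ = Multiplicative.ofAdd (PadicInt.toZModPow k (ψ (Finsupp.single v 1))) := by
  obtain ⟨N, hN⟩ := xl_exists_one_imp_gamma ℓ (fld U) c
  let ψk : CFT.Div (fld U) →+ ZMod (ℓ ^ k) := (PadicInt.toZModPow (p := ℓ) k).toAddMonoidHom.comp ψ
  obtain ⟨L, i1, i2, i3, i4, y, S, hS⟩ := h2 (fld U) hμ k N ψk (fun a ha => hψ a (hN a ha))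
  obtain ⟨χ, hχo, hχ⟩ := xl_glue_embed hE U hU L y
  refine ⟨χ, S, hχo, fun v hv σ hσ => ?_⟩
  rw [hχ v (hS v hv).1 σ hσ, (hS v hv).2]
  rfl

/-- the residue characteristic of a prime of `M_U`. -/
noncomputable def xlResChar {K : Type*} [Field K] [NumberField K] (v : Pl K) : ℕ :=
  (Nat.card (𝓞 K ⧸ v.asIdeal)).minFac

theorem xl_resChar_eq (U : Subgroup Gal(E/F)) (hU : IsOpen (U : Set Gal(E/F))) [NumberField (fld U)]
    (v : Pl (fld U)) (P : Ideal (𝓞 E)) [P.IsMaximal] (hPv : below U P = v.asIdeal) {q : ℕ}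
    (hq : q.Prime) (hPq : Over P q) : xlResChar v = q := by
  obtain ⟨f, hf, -, hN⟩ := hil_normAt U hU P hq hPq
  unfold xlResChar
  have : Nat.card (𝓞 (fld U) ⧸ v.asIdeal) = q ^ f := by
    rw [← hN, normAt, hPv]
  rw [this, hq.pow_minFac hf.ne']

/-- two additive functions on divisors which agree on the primes outside `S` agree on the divisors with support
outside `S`. -/
theorem xl_addHom_eq_of_outside {K : Type*} [Field K] [NumberField K] {A : Type*} [AddCommGroup A]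
    (f g : CFT.Div K →+ A) (S : Finset (Pl K))
    (h : ∀ v : Pl K, v ∉ S → f (Finsupp.single v 1) = g (Finsupp.single v 1))
    (D : CFT.Div K) (hD : ∀ v ∈ S, D v = 0) : f D = g D := by
  classical
  let R : CFT.Div K →+ CFT.Div K := Finsupp.filterAddHom (fun v => v ∉ S)
  have hRs : ∀ D, R D = Finsupp.filter (fun v => v ∉ S) D := fun _ => rfl
  have hcomp : f.comp R = g.comp R := by
    apply Finsupp.addHom_ext
    intro v n
    simp only [AddMonoidHom.comp_apply, hRs]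
    by_cases hv : v ∈ S
    · rw [Finsupp.filter_single_of_neg (fun v => v ∉ S) (by simpa using hv)]
      simp
    · rw [Finsupp.filter_single_of_pos (fun v => v ∉ S) hv]
      have e : (Finsupp.single v n : CFT.Div K) = n • Finsupp.single v 1 := by
        rw [Finsupp.smul_single]
        simp
      rw [e, map_zsmul, map_zsmul, h v hv]
  have hR : R D = D := by
    rw [hRs, Finsupp.filter_eq_self_iff]
    intro v hv hv'
    exact hv (hD v hv')
  have := DFunLike.congr_fun hcomp D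
  simpa only [AddMonoidHom.comp_apply, hR] using this

/-- B4 `XL.theta_surj_mu`  ((E) when `μ_ℓ ⊆ M_U`). -/
theorem xl_theta_surj_mu (h1 : XlCft1 ℓ) (h2 : XlCft2 ℓ) (hE : SolvablyClosed E)
    (U : Subgroup Gal(E/F)) (hU : IsOpen (U : Set Gal(E/F))) [NumberField (fld U)]
    (hμ : HasMu ℓ (fld U)) (φ : Additive (xlGamma ℓ (fld U) 1) →+ ℚ_[ℓ])
    (hφ : φ ∈ xlAnn ℓ (fld U)) : ∃ x : XChar ℓ U, xlTheta U x = φ := by
  classical
  have hp : ℓ.Prime := Fact.out
  have hl0 : (0 : ℝ) < ℓ := by exact_mod_cast hp.pos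
  obtain ⟨t, ψ, ht, hψ⟩ := xl_psi ℓ (fld U) φ hφ
  -- Step 1: continuity of `ψ`
  have hcont : ∀ k : ℕ, ∃ c : ℕ, ∀ a : (fld U)ˣ, a ∈ xlGamma ℓ (fld U) c →
      PadicInt.toZModPow k (ψ (dv (a : fld U))) = 0 := by
    intro k
    have hε : 0 < (ℓ : ℝ) ^ (-(k : ℤ)) / ‖t‖ := by
      have : 0 < ‖t‖ := norm_pos_iff.2 ht
      positivity
    obtain ⟨c, hc⟩ := hφ.1 _ hε
    refine ⟨max c 1, fun a ha => ?_⟩
    have ha1 : a ∈ xlGamma ℓ (fld U) 1 := xlGamma_antitone ℓ (fld U) (le_max_right c 1) ha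
    have hac : a ∈ xlGamma ℓ (fld U) c := xlGamma_antitone ℓ (fld U) (le_max_left c 1) ha
    have h3 := hc ⟨a, ha1⟩ hac
    rw [← RingHom.mem_ker, PadicInt.ker_toZModPow, ← PadicInt.norm_le_pow_iff_mem_span_pow]
    have h4 : ‖ψ (dv (a : fld U))‖ = ‖t‖ * ‖φ (Additive.ofMul (⟨a, ha1⟩ : xlGamma ℓ (fld U) 1))‖ := by
      rw [← norm_mul, ← hψ ⟨a, ha1⟩]
      rfl
    rw [h4]
    have : 0 < ‖t‖ := norm_pos_iff.2 ht
    calc ‖t‖ * ‖φ (Additive.ofMul (⟨a, ha1⟩ : xlGamma ℓ (fld U) 1))‖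
        ≤ ‖t‖ * ((ℓ : ℝ) ^ (-(k : ℤ)) / ‖t‖) := by gcongr
      _ = (ℓ : ℝ) ^ (-(k : ℤ)) := by field_simp
  choose c₂ hc₂ using hcont
  -- Step 2: the finite levels
  have hlev := fun k => xl_level h2 hE U hU hμ ψ k (c₂ k) (hc₂ k)
  choose χ S hχo hχ using hlev
  -- Step 3: compatibility
  have hcompat : ∀ (k : ℕ) (u : U), ZMod.castHom (pow_dvd_pow ℓ (Nat.le_succ k)) (ZMod (ℓ ^ k))
      (Multiplicative.toAdd (χ (k + 1) u)) = Multiplicative.toAdd (χ k u) := by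
    intro k
    let κ : Multiplicative (ZMod (ℓ ^ (k + 1))) →* Multiplicative (ZMod (ℓ ^ k)) :=
      AddMonoidHom.toMultiplicative
        (ZMod.castHom (pow_dvd_pow ℓ (Nat.le_succ k)) (ZMod (ℓ ^ k))).toAddMonoidHom
    let δ : U →* Multiplicative (ZMod (ℓ ^ k)) := (κ.comp (χ (k + 1))) / χ k
    have hδo : IsOpen ((δ.ker : Subgroup U) : Set U) := by
      have hle : (χ (k + 1)).ker ⊓ (χ k).ker ≤ δ.ker := by
        rintro u ⟨hu1, hu2⟩
        have hu1' : χ (k + 1) u = 1 := hu1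
        have hu2' : χ k u = 1 := hu2
        rw [MonoidHom.mem_ker]
        change κ (χ (k + 1) u) / χ k u = 1
        rw [hu1', hu2', map_one, div_one]
      refine Subgroup.isOpen_mono hle ?_
      exact (hχo (k + 1)).inter (hχo k)
    have hδ : δ = 1 := by
      refine xl_rigid U hU δ hδo ((S k ∪ S (k + 1)).image xlResChar) fun P q σ hσ hP hq hPq hqT => ?_
      obtain ⟨v, hv⟩ := xl_exists_pl U P
      have hvS : v ∉ S k ∪ S (k + 1) := fun hmem =>
        hqT (Finset.mem_image.2 ⟨v, hmem, xl_resChar_eq U hU v P hv hq hPq⟩)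
      rw [Finset.mem_union, not_or] at hvS
      have hF : xlFrobAt U v σ := ⟨P, hP, hv, hσ⟩
      have e1 := hχ k v hvS.1 σ hF
      have e2 := hχ (k + 1) v hvS.2 σ hF
      have e3 : δ ⟨σ, hσ.1⟩ = κ (χ (k + 1) ⟨σ, hσ.1⟩) / χ k ⟨σ, hσ.1⟩ := rfl
      rw [e3, e1, e2, div_eq_one]
      have := DFunLike.congr_fun (PadicInt.zmod_cast_comp_toZModPow (p := ℓ) k (k + 1) (Nat.le_succ k))
        (ψ (Finsupp.single v 1))
      exact congrArg Multiplicative.ofAdd this
    intro u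
    have h3 : δ u = 1 := by rw [hδ]; rfl
    have e3 : δ u = κ (χ (k + 1) u) / χ k u := rfl
    rw [e3, div_eq_one] at h3
    exact congrArg Multiplicative.toAdd h3
  -- Step 4: glue
  obtain ⟨x, hx⟩ := xl_padic_glue χ hχo hcompat
  have hx1 : ∀ u : U, ‖x.1 u‖ ≤ 1 := fun u => (hx u).1
  have hxk : ∀ (u : U) (k : ℕ), PadicInt.toZModPow k (xlInt x hx1 u) = Multiplicative.toAdd (χ k u) :=
    fun u k => (hx u).2 k
  -- Step 5: `Θ x = t φ`
  have hmain : ∀ b : xlGamma ℓ (fld U) 1,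
      xlThetaInt U x hx1 (dv ((b : (fld U)ˣ) : fld U)) = ψ (dv ((b : (fld U)ˣ) : fld U)) := by
    intro b
    rw [← PadicInt.ext_of_toZModPow]
    intro k
    obtain ⟨c₁, hc₁⟩ := xl_recip_level h1 hE U hU hμ x hx1 k
    obtain ⟨a, hac, ha1, haS⟩ := xl_moving ℓ (fld U) (max c₁ (c₂ k)) (S k) b b.2
    have ha₁ := hc₁ a ha1 (xlGamma_antitone ℓ (fld U) (le_max_left _ _) hac)
    have ha₂ := hc₂ k a (xlGamma_antitone ℓ (fld U) (le_max_right _ _) hac)
    have hadd : dv (((a * b : (fld U)ˣ)) : fld U) = dv (a : fld U) + dv ((b : (fld U)ˣ) : fld U) := by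
      rw [Units.val_mul]
      exact xl_dv_mul a.ne_zero (b : (fld U)ˣ).ne_zero
    have hcmp := xl_addHom_eq_of_outside
      ((PadicInt.toZModPow (p := ℓ) k).toAddMonoidHom.comp (xlThetaInt U x hx1))
      ((PadicInt.toZModPow (p := ℓ) k).toAddMonoidHom.comp ψ) (S k) (fun v hv => by
        simp only [AddMonoidHom.comp_apply]
        rw [xlThetaInt_single, one_smul]
        have e1 := hχ k v hv (xlFr U v) (xlFr_spec U hU v)
        have e2 := hxk (xlFr U v) k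
        change PadicInt.toZModPow k (xlInt x hx1 (xlFr U v)) = PadicInt.toZModPow k (ψ (Finsupp.single v 1))
        rw [e2]
        exact congrArg Multiplicative.toAdd e1)
      (dv (((a * b : (fld U)ˣ)) : fld U)) (fun v hv => haS v hv)
    simp only [AddMonoidHom.comp_apply, hadd, map_add] at hcmp
    change PadicInt.toZModPow k (xlThetaInt U x hx1 (dv (a : fld U))) +
        PadicInt.toZModPow k (xlThetaInt U x hx1 (dv ((b : (fld U)ˣ) : fld U))) =
      PadicInt.toZModPow k (ψ (dv (a : fld U))) + PadicInt.toZModPow k (ψ (dv ((b : (fld U)ˣ) : fld U))) at hcmp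
    rw [ha₁, ha₂, zero_add, zero_add] at hcmp
    exact hcmp
  refine ⟨t⁻¹ • x, ?_⟩
  refine DFunLike.ext _ _ fun b => ?_
  obtain ⟨b, rfl⟩ := Additive.ofMul.surjective b
  rw [map_smul, AddMonoidHom.smul_apply, xlTheta_apply, ← xlThetaInt_coe U x hx1, hmain b, hψ b,
    smul_eq_mul, inv_mul_cancel_left₀ ht]

end Claimed.Agent.R239
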