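import Claimed.Agent.R239.XL.Defs

/-!
# R239 / XL / Lg : the logarithm = inverse of the exponential on the disc

Skeleton file of the package XL (sub-captain helper120).  The statements are FIXED (msg helper120 before changing
one); the owner of this file replaces each `sorry`, adding auxiliary lemmas (prefix `xl_`) above.
Plan of the package: `XL/Chain.lean`.   Owner of this file: helper181.
-/

set_option autoImplicit false

open NumberField IsDedekindDomain Claims.C0403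

namespace Claimed.Agent.R239

open CFT

open scoped Nat

variable (ℓ : ℕ) [Fact ℓ.Prime]
variable {𝕂 : Type*} [NormedField 𝕂] [NormedAlgebra ℚ_[ℓ] 𝕂] [IsUltrametricDist 𝕂] [CompleteSpace 𝕂]

/-! ### auxiliary lemmas -/

omit [IsUltrametricDist 𝕂] [CompleteSpace 𝕂] in
/-- `(ℓ - 1) v_ℓ(k!) ≤ k - 1` for `k ≥ 1`. -/
theorem xl_sub_one_mul_val_factorial_le {k : ℕ} (hk : 1 ≤ k) :
    (ℓ - 1) * padicValNat ℓ k ! ≤ k - 1 := by
  rw [sub_one_mul_padicValNat_factorial]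
  have h1 : 1 ≤ (ℓ.digits k).sum := by
    by_contra hcon
    have h0 : (ℓ.digits k).sum = 0 := by omega
    have h2 : ∀ d ∈ ℓ.digits k, d = 0 := by
      intro d hd
      have := List.single_le_sum (l := ℓ.digits k) (fun _ _ => Nat.zero_le _) d hd
      omega
    have h3 := Nat.getLast_digit_ne_zero ℓ (m := k) (by omega)
    exact h3 (h2 _ (List.getLast_mem _))
  omega

omit [IsUltrametricDist 𝕂] [CompleteSpace 𝕂] in
/-- `1 / |k!| ≤ expRad ^ (-(k-1))` for `k ≥ 1`. -/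
theorem xl_inv_norm_factorial_le {k : ℕ} (hk : 1 ≤ k) :
    ‖((k ! : ℕ) : 𝕂)‖⁻¹ ≤ (Log.expRad ℓ ^ (k - 1))⁻¹ := by
  rw [Log.norm_factorial_eq (ℓ := ℓ), inv_inv]
  have hpos := Log.expRad_pos ℓ
  have hlt := Log.expRad_lt_one ℓ
  have hL : (ℓ : ℝ) = (Log.expRad ℓ ^ (ℓ - 1))⁻¹ := by rw [Log.expRad_pow, inv_inv]
  rw [hL, inv_pow, ← pow_mul]
  apply inv_anti₀ (pow_pos hpos _)
  exact pow_le_pow_of_le_one hpos.le hlt.le (xl_sub_one_mul_val_factorial_le ℓ hk)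

omit [CompleteSpace 𝕂] in
/-- a sum all of whose terms are `≤ C` is `≤ C` -/
theorem xl_norm_le_of_hasSum {f : ℕ → 𝕂} {a : 𝕂} {C : ℝ} (h : HasSum f a) (hC : 0 ≤ C)
    (hf : ∀ k, ‖f k‖ ≤ C) : ‖a‖ ≤ C := by
  rw [← h.tsum_eq]
  exact IsUltrametricDist.norm_tsum_le_of_forall_le_of_nonneg hC hf

/-- the tail of the exponential series -/
theorem xl_hasSum_exp_tail {y : 𝕂} (hy : ‖y‖ < Log.expRad ℓ) :
    HasSum (fun k : ℕ => y ^ (k + 2) / (((k + 2) ! : ℕ) : 𝕂)) (NormedSpace.exp y - 1 - y) := by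
  have h0 : HasSum (fun k : ℕ => y ^ k / ((k ! : ℕ) : 𝕂)) (NormedSpace.exp y) :=
    Log.hasSum_exp (ℓ := ℓ) hy
  have h := (hasSum_nat_add_iff' (f := fun k : ℕ => y ^ k / ((k ! : ℕ) : 𝕂)) 2).2 h0
  have e : ∑ i ∈ Finset.range 2, y ^ i / ((i ! : ℕ) : 𝕂) = 1 + y := by
    rw [Finset.sum_range_succ, Finset.sum_range_one]
    simp
  rw [e] at h
  have e2 : NormedSpace.exp y - 1 - y = NormedSpace.exp y - (1 + y) := by ring
  rw [e2]
  exact h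

/-- `‖exp y - 1 - y‖ ≤ ‖y‖ * (‖y‖ / expRad)`. -/
theorem xl_norm_exp_sub_le {y : 𝕂} (hy : ‖y‖ < Log.expRad ℓ) :
    ‖NormedSpace.exp y - 1 - y‖ ≤ ‖y‖ * (‖y‖ / Log.expRad ℓ) := by
  have hpos := Log.expRad_pos ℓ
  refine xl_norm_le_of_hasSum (xl_hasSum_exp_tail ℓ hy) (by positivity) fun k => ?_
  have h1 := xl_inv_norm_factorial_le ℓ (𝕂 := 𝕂) (k := k + 2) (by omega)
  have hq : ‖y‖ / Log.expRad ℓ ≤ 1 := (div_le_one hpos).2 hy.le
  have hq0 : 0 ≤ ‖y‖ / Log.expRad ℓ := by positivity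
  rw [norm_div, norm_pow, div_eq_mul_inv]
  calc ‖y‖ ^ (k + 2) * ‖(((k + 2) ! : ℕ) : 𝕂)‖⁻¹
      ≤ ‖y‖ ^ (k + 2) * (Log.expRad ℓ ^ (k + 2 - 1))⁻¹ := by gcongr
    _ = ‖y‖ * (‖y‖ / Log.expRad ℓ) ^ (k + 1) := by
        have : k + 2 - 1 = k + 1 := by omega
        rw [this, div_pow]
        ring
    _ ≤ ‖y‖ * (‖y‖ / Log.expRad ℓ) := by
        refine mul_le_mul_of_nonneg_left ?_ (norm_nonneg _)
        calc (‖y‖ / Log.expRad ℓ) ^ (k + 1) ≤ (‖y‖ / Log.expRad ℓ) ^ 1 :=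
              pow_le_pow_of_le_one hq0 hq (by omega)
          _ = _ := pow_one _

/-- `‖exp y - 1‖ = ‖y‖` on the disc -/
theorem xl_norm_exp_sub_one {y : 𝕂} (hy : ‖y‖ < Log.expRad ℓ) :
    ‖NormedSpace.exp y - 1‖ = ‖y‖ := by
  have hpos := Log.expRad_pos ℓ
  rcases eq_or_ne y 0 with rfl | hy0
  · simp
  have hn : 0 < ‖y‖ := norm_pos_iff.2 hy0
  have h1 : ‖NormedSpace.exp y - 1 - y‖ < ‖y‖ := by
    refine (xl_norm_exp_sub_le ℓ hy).trans_lt ?_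
    have : ‖y‖ / Log.expRad ℓ < 1 := (div_lt_one hpos).2 hy
    nlinarith
  have h2 : NormedSpace.exp y - 1 = (NormedSpace.exp y - 1 - y) + y := by ring
  rw [h2, IsUltrametricDist.norm_add_eq_max_of_norm_ne_norm h1.ne, max_eq_right h1.le]

omit [CompleteSpace 𝕂] in
theorem xl_norm_sub_le_max (x y : 𝕂) : ‖x - y‖ ≤ max ‖x‖ ‖y‖ := by
  have := IsUltrametricDist.norm_add_le_max x (-y)
  rwa [norm_neg, ← sub_eq_add_neg] at this

omit [CompleteSpace 𝕂] in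
theorem xl_norm_sub_lt {x y : 𝕂} {r : ℝ} (hx : ‖x‖ < r) (hy : ‖y‖ < r) : ‖x - y‖ < r :=
  (xl_norm_sub_le_max x y).trans_lt (max_lt hx hy)

omit [CompleteSpace 𝕂] in
theorem xl_norm_add_lt {x y : 𝕂} {r : ℝ} (hx : ‖x‖ < r) (hy : ‖y‖ < r) : ‖x + y‖ < r :=
  (IsUltrametricDist.norm_add_le_max x y).trans_lt (max_lt hx hy)

/-- `exp` is injective on the disc -/
theorem xl_exp_injOn {y y' : 𝕂} (hy : ‖y‖ < Log.expRad ℓ) (hy' : ‖y'‖ < Log.expRad ℓ)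
    (h : NormedSpace.exp y = NormedSpace.exp y') : y = y' := by
  have hn : ‖-y'‖ < Log.expRad ℓ := by rwa [norm_neg]
  have h1 : NormedSpace.exp (y - y') = 1 := by
    rw [sub_eq_add_neg, Log.exp_add' (ℓ := ℓ) hy hn, Log.exp_neg' (ℓ := ℓ) hy', h,
      mul_inv_cancel₀ (Log.exp_ne_zero' (ℓ := ℓ) hy')]
  have h2 := xl_norm_exp_sub_one ℓ (xl_norm_sub_lt hy hy')
  rw [h1, sub_self, norm_zero] at h2
  exact sub_eq_zero.1 (norm_eq_zero.1 h2.symm)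

/-- `‖exp y‖ = 1` on the disc -/
theorem xl_norm_exp {y : 𝕂} (hy : ‖y‖ < Log.expRad ℓ) : ‖NormedSpace.exp y‖ = 1 := by
  have h1 : ‖NormedSpace.exp y - 1‖ < ‖(1 : 𝕂)‖ := by
    rw [xl_norm_exp_sub_one ℓ hy, norm_one]
    exact hy.trans (Log.expRad_lt_one ℓ)
  have h2 : NormedSpace.exp y = (NormedSpace.exp y - 1) + 1 := by ring
  rw [h2, IsUltrametricDist.norm_add_eq_max_of_norm_ne_norm h1.ne, max_eq_right h1.le, norm_one]

/-- the contraction estimate for `y ↦ exp y - y` -/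
theorem xl_exp_sub_id_lip {ρ : ℝ} (hρ : ρ < Log.expRad ℓ) {y y' : 𝕂} (hy : ‖y‖ ≤ ρ)
    (hy' : ‖y'‖ ≤ ρ) :
    ‖(NormedSpace.exp y - y) - (NormedSpace.exp y' - y')‖ ≤ ρ / Log.expRad ℓ * ‖y - y'‖ := by
  have hpos := Log.expRad_pos ℓ
  have hlt1 := Log.expRad_lt_one ℓ
  have hρ0 : 0 ≤ ρ := (norm_nonneg _).trans hy
  have hyr := hy.trans_lt hρ
  have hyr' := hy'.trans_lt hρ
  set d := y - y' with hd
  have hdρ : ‖d‖ ≤ ρ := (xl_norm_sub_le_max y y').trans (max_le hy hy')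
  have hdr := hdρ.trans_lt hρ
  have hexp : NormedSpace.exp y = NormedSpace.exp y' * NormedSpace.exp d := by
    rw [← Log.exp_add' (ℓ := ℓ) hyr' hdr, hd]
    congr 1
    ring
  have hid : (NormedSpace.exp y - y) - (NormedSpace.exp y' - y')
      = NormedSpace.exp y' * (NormedSpace.exp d - 1 - d) + (NormedSpace.exp y' - 1) * d := by
    rw [hexp, hd]
    ring
  rw [hid]
  refine (IsUltrametricDist.norm_add_le_max _ _).trans (max_le ?_ ?_)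
  · rw [norm_mul, xl_norm_exp ℓ hyr', one_mul]
    refine (xl_norm_exp_sub_le ℓ hdr).trans ?_
    rw [mul_comm]
    exact mul_le_mul_of_nonneg_right (div_le_div_of_nonneg_right hdρ hpos.le) (norm_nonneg _)
  · rw [norm_mul, xl_norm_exp_sub_one ℓ hyr']
    refine mul_le_mul_of_nonneg_right ?_ (norm_nonneg _)
    refine hy'.trans ?_
    rw [le_div_iff₀ hpos]
    nlinarith

/-- `exp` maps the disc onto `1 + disc` (Banach fixed point theorem for `y ↦ y - (exp y - z)`) -/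
theorem xl_exp_surj {z : 𝕂} (hz : ‖z - 1‖ < Log.expRad ℓ) :
    ∃ y : 𝕂, ‖y‖ < Log.expRad ℓ ∧ NormedSpace.exp y = z := by
  have hpos := Log.expRad_pos ℓ
  set ρ := ‖z - 1‖ with hρ
  have hρ0 : 0 ≤ ρ := norm_nonneg _
  set F : 𝕂 → 𝕂 := fun y => z - (NormedSpace.exp y - y) with hF
  set s : Set 𝕂 := Metric.closedBall 0 ρ with hs
  have hmem : ∀ y : 𝕂, y ∈ s ↔ ‖y‖ ≤ ρ := fun y => by rw [hs, mem_closedBall_zero_iff]
  have hsc : IsComplete s := Metric.isClosed_closedBall.isComplete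
  have hq1 : ρ / Log.expRad ℓ < 1 := (div_lt_one hpos).2 hz
  have hq0 : 0 ≤ ρ / Log.expRad ℓ := by positivity
  have hsf : Set.MapsTo F s s := by
    intro y hy
    rw [hmem] at hy ⊢
    have h1 : F y = (z - 1) - (NormedSpace.exp y - 1 - y) := by
      simp only [hF]
      ring
    rw [h1]
    refine (xl_norm_sub_le_max _ _).trans (max_le le_rfl ?_)
    refine (xl_norm_exp_sub_le ℓ (hy.trans_lt hz)).trans ?_
    have h2 : ‖y‖ / Log.expRad ℓ ≤ 1 := (div_le_one hpos).2 (hy.trans hz.le)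
    calc ‖y‖ * (‖y‖ / Log.expRad ℓ) ≤ ‖y‖ * 1 := by gcongr
      _ ≤ ρ := by rw [mul_one]; exact hy
  have hcontr : ContractingWith (Real.toNNReal (ρ / Log.expRad ℓ)) (hsf.restrict F s s) := by
    refine ⟨?_, ?_⟩
    · rw [← NNReal.coe_lt_coe, Real.coe_toNNReal _ hq0]
      exact hq1
    · refine LipschitzWith.of_dist_le_mul fun a b => ?_
      rw [Real.coe_toNNReal _ hq0, Subtype.dist_eq, Subtype.dist_eq, dist_eq_norm, dist_eq_norm]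
      have ha := (hmem a).1 a.2
      have hb := (hmem b).1 b.2
      have h1 : (hsf.restrict F s s a : 𝕂) - (hsf.restrict F s s b : 𝕂)
          = -((NormedSpace.exp (a : 𝕂) - a) - (NormedSpace.exp (b : 𝕂) - b)) := by
        simp only [Set.MapsTo.val_restrict_apply, hF]
        ring
      rw [h1, norm_neg]
      exact xl_exp_sub_id_lip ℓ hz ha hb
  obtain ⟨y, hys, hfix, -⟩ := hcontr.exists_fixedPoint' hsc hsf (x := 0)
    ((hmem 0).2 (by rw [norm_zero]; exact hρ0)) (edist_ne_top _ _)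
  refine ⟨y, ((hmem y).1 hys).trans_lt hz, ?_⟩
  have h1 : z - (NormedSpace.exp y - y) = y := hfix
  have h2 : NormedSpace.exp y = z - (z - (NormedSpace.exp y - y)) + y := by ring
  rw [h2, h1]
  ring

/-! ### the four statements of the leaf -/

/-- LEAF A2a `XL.lg` (the next four statements; only `LogExp.lean` is needed).
(1) `‖exp y - 1 - y‖ < ‖y‖` for `0 < ‖y‖ < expRad`, so `‖exp y - 1‖ = ‖y‖` and `exp` is injective on the disc
(`exp y = exp y'` gives `exp (y - y') = 1`).  (2) surjectivity onto `1 + disc`: Newton iteration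
`y_(k+1) = y_k + (z exp(-y_k) - 1)`; with `w_k = z exp(-y_k) - 1` one has `w_(k+1) = (1 + w_k) exp(-w_k) - 1`,
`‖w_(k+1)‖ ≤ ‖w_k‖ * (‖w_k‖ / expRad)`; the series `∑ w_k` converges, `exp` is continuous on the disc. -/
theorem xl_lg_spec {z : 𝕂} (hz : ‖z - 1‖ < Log.expRad ℓ) :
    ‖xlLg ℓ z‖ < Log.expRad ℓ ∧ NormedSpace.exp (xlLg ℓ z) = z := by
  have h := xl_exp_surj ℓ hz
  rw [xlLg, dif_pos h]
  exact h.choose_spec

theorem xl_lg_norm {z : 𝕂} (hz : ‖z - 1‖ < Log.expRad ℓ) : ‖xlLg ℓ z‖ = ‖z - 1‖ := by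
  obtain ⟨h1, h2⟩ := xl_lg_spec ℓ hz
  rw [← xl_norm_exp_sub_one ℓ h1, h2]

theorem xl_lg_mul {z w : 𝕂} (hz : ‖z - 1‖ < Log.expRad ℓ) (hw : ‖w - 1‖ < Log.expRad ℓ) :
    xlLg ℓ (z * w) = xlLg ℓ z + xlLg ℓ w := by
  obtain ⟨h1, h2⟩ := xl_lg_spec ℓ hz
  obtain ⟨h3, h4⟩ := xl_lg_spec ℓ hw
  have hwn : ‖w‖ = 1 := by rw [← h4]; exact xl_norm_exp ℓ h3
  have hzw : ‖z * w - 1‖ < Log.expRad ℓ := by
    have : z * w - 1 = (z - 1) * w + (w - 1) := by ring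
    rw [this]
    refine xl_norm_add_lt ?_ hw
    rw [norm_mul, hwn, mul_one]
    exact hz
  obtain ⟨h5, h6⟩ := xl_lg_spec ℓ hzw
  refine xl_exp_injOn ℓ h5 (xl_norm_add_lt h1 h3) ?_
  rw [h6, Log.exp_add' (ℓ := ℓ) h1 h3, h2, h4]

omit [IsUltrametricDist 𝕂] [CompleteSpace 𝕂] in
theorem xl_norm_ell : ‖(ℓ : 𝕂)‖ = (ℓ : ℝ)⁻¹ := by
  rw [Log.norm_natCast_eq (ℓ := ℓ), Padic.norm_p]

/-- `1/ℓ < expRad ℓ` for odd `ℓ` -/
theorem xl_inv_lt_expRad (hodd : ℓ ≠ 2) : (ℓ : ℝ)⁻¹ < Log.expRad ℓ := by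
  have hp : ℓ.Prime := Fact.out
  have h3 : 3 ≤ ℓ := by
    have := hp.two_le
    omega
  have hpos := Log.expRad_pos ℓ
  have hlt := Log.expRad_lt_one ℓ
  rw [← Log.expRad_pow ℓ]
  calc Log.expRad ℓ ^ (ℓ - 1) < Log.expRad ℓ ^ 1 :=
        pow_lt_pow_right_of_lt_one₀ hpos hlt (by omega)
    _ = _ := pow_one _

/-- `‖y^k / k!‖ ≤ ‖y‖^2` for `k ≥ 2`, `‖y‖ ≤ 1/ℓ`, `ℓ` odd, because `v_ℓ(k!) ≤ (k-1)/(ℓ-1) ≤ (k-1)/2`. -/
theorem xl_lg_sub (hodd : ℓ ≠ 2) {z : 𝕂} (hz : ‖z - 1‖ ≤ ‖(ℓ : 𝕂)‖) :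
    ‖xlLg ℓ z - (z - 1)‖ ≤ ‖z - 1‖ ^ 2 := by
  have hp : ℓ.Prime := Fact.out
  have h3 : 3 ≤ ℓ := by
    have := hp.two_le
    omega
  have hℓ0 : (0 : ℝ) < ℓ := by exact_mod_cast hp.pos
  rw [xl_norm_ell] at hz
  have hz' : ‖z - 1‖ < Log.expRad ℓ := hz.trans_lt (xl_inv_lt_expRad ℓ hodd)
  obtain ⟨h1, h2⟩ := xl_lg_spec ℓ hz'
  have hn := xl_lg_norm ℓ hz'
  set y := xlLg ℓ z with hy
  have e1 : y - (z - 1) = -(NormedSpace.exp y - 1 - y) := by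
    rw [h2]
    ring
  rw [e1, norm_neg, ← hn]
  rw [← hn] at hz
  refine xl_norm_le_of_hasSum (xl_hasSum_exp_tail ℓ h1) (by positivity) fun k => ?_
  rw [norm_div, norm_pow, Log.norm_factorial_eq (ℓ := ℓ), div_inv_eq_mul]
  have hv : padicValNat ℓ (k + 2)! ≤ k := by
    have h4 := xl_sub_one_mul_val_factorial_le ℓ (k := k + 2) (by omega)
    have h5 : 2 * padicValNat ℓ (k + 2)! ≤ (ℓ - 1) * padicValNat ℓ (k + 2)! :=
      Nat.mul_le_mul_right _ (by omega)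
    omega
  have h6 : ‖y‖ ^ k * (ℓ : ℝ) ^ k ≤ 1 := by
    rw [← mul_pow]
    refine pow_le_one₀ (by positivity) ?_
    calc ‖y‖ * ℓ ≤ (ℓ : ℝ)⁻¹ * ℓ := by gcongr
      _ = 1 := inv_mul_cancel₀ hℓ0.ne'
  calc ‖y‖ ^ (k + 2) * (ℓ : ℝ) ^ padicValNat ℓ (k + 2)!
      ≤ ‖y‖ ^ (k + 2) * (ℓ : ℝ) ^ k := by
        gcongr
        exact_mod_cast hp.one_le
    _ = ‖y‖ ^ 2 * (‖y‖ ^ k * (ℓ : ℝ) ^ k) := by ring
    _ ≤ ‖y‖ ^ 2 * 1 := by gcongr
    _ = ‖y‖ ^ 2 := mul_one _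

end Claimed.Agent.R239
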