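import Claimed.Agent.R239.LogLiouville
import Claimed.Agent.R239.XL.Gamma
import Claimed.Agent.R239.XL.Lg

/-!
# R239 / XL / Gen : topological generators of `Γ_1(M)`; `dim Φ ≤ n`

Skeleton file of the package XL (sub-captain helper120).  The statements are FIXED (msg helper120 before changing
one); the owner of this file replaces each `sorry`, adding auxiliary lemmas (prefix `xl_`) above.
Plan of the package: `XL/Chain.lean`.   Owner of this file: helper181.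
-/

set_option autoImplicit false

open NumberField IsDedekindDomain Claims.C0403

namespace Claimed.Agent.R239

open CFT

/-! ### congruences in a commutative ring -/

section ring
variable {R : Type*} [CommRing R]

/-- `(1 + ℓ^(k+1) y)^ℓ ≡ 1 + ℓ^(k+2) y  mod ℓ^(k+3)` for an odd prime `ℓ`. -/
theorem xl_ring_pow_prime {ℓ : ℕ} (hp : ℓ.Prime) (hodd : ℓ ≠ 2) (k : ℕ) (y : R) :
    (ℓ : R) ^ (k + 3) ∣ (1 + (ℓ : R) ^ (k + 1) * y) ^ ℓ - (1 + (ℓ : R) ^ (k + 2) * y) := by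
  have h3 : 3 ≤ ℓ := by
    have := hp.two_le
    omega
  obtain ⟨m, rfl⟩ : ∃ m, ℓ = m + 2 := ⟨ℓ - 2, by omega⟩
  set L : R := ((m + 2 : ℕ) : R) with hL
  rw [add_comm (1 : R), add_pow, Finset.sum_range_succ', Finset.sum_range_succ']
  simp only [one_pow, mul_one, pow_zero, Nat.choose_zero_right, Nat.cast_one, zero_add, pow_one,
    Nat.choose_one_right]
  have e : ∑ i ∈ Finset.range (m + 1), (L ^ (k + 1) * y) ^ (i + 1 + 1) * ((m + 2).choose (i + 1 + 1) : R)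
      + L ^ (k + 1) * y * L + 1 - (1 + L ^ (k + 2) * y)
      = ∑ i ∈ Finset.range (m + 1), (L ^ (k + 1) * y) ^ (i + 1 + 1) * ((m + 2).choose (i + 1 + 1) : R) := by
    ring
  rw [e]
  refine Finset.dvd_sum fun i hi => ?_
  rw [Finset.mem_range] at hi
  rcases Nat.lt_or_ge i m with him | him
  · -- `ℓ ∣ choose`
    have hd : (m + 2) ∣ (m + 2).choose (i + 1 + 1) := hp.dvd_choose_self (by omega) (by omega)
    obtain ⟨q, hq⟩ := hd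
    rw [hq, Nat.cast_mul, ← hL, mul_pow, ← pow_mul]
    have : (k + 1) * (i + 1 + 1) + 1 = (k + 3) + (k * (i + 1) + i) := by ring
    refine ⟨L ^ (k * (i + 1) + i) * y ^ (i + 1 + 1) * q, ?_⟩
    calc L ^ ((k + 1) * (i + 1 + 1)) * y ^ (i + 1 + 1) * (L * q)
        = L ^ ((k + 1) * (i + 1 + 1) + 1) * y ^ (i + 1 + 1) * q := by ring
      _ = _ := by rw [this]; ring
  · have him' : i = m := by omega
    subst him'
    rw [Nat.choose_self, Nat.cast_one, mul_one, mul_pow, ← pow_mul]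
    obtain ⟨j, rfl⟩ : ∃ j, i = j + 1 := ⟨i - 1, by omega⟩
    have : (k + 1) * (j + 1 + 1 + 1) = (k + 3) + (k * (j + 2) + j) := by ring
    rw [this]
    exact ⟨L ^ (k * (j + 2) + j) * y ^ (j + 1 + 1 + 1), by ring⟩

/-- `(1 + ℓ w)^(ℓ^k) ≡ 1 + ℓ^(k+1) w  mod ℓ^(k+2)`. -/
theorem xl_ring_pow_prime_pow {ℓ : ℕ} (hp : ℓ.Prime) (hodd : ℓ ≠ 2) (k : ℕ) (w : R) :
    (ℓ : R) ^ (k + 2) ∣ (1 + (ℓ : R) * w) ^ (ℓ ^ k) - (1 + (ℓ : R) ^ (k + 1) * w) := by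
  induction k with
  | zero => simp
  | succ k ih =>
    obtain ⟨e, he⟩ := ih
    have h1 : (1 + (ℓ : R) * w) ^ (ℓ ^ k) = 1 + (ℓ : R) ^ (k + 1) * (w + ℓ * e) := by
      linear_combination he
    have h2 : (1 + (ℓ : R) * w) ^ (ℓ ^ (k + 1)) = (1 + (ℓ : R) ^ (k + 1) * (w + ℓ * e)) ^ ℓ := by
      rw [← h1, ← pow_mul, pow_succ]
    rw [h2]
    obtain ⟨f, hf⟩ := xl_ring_pow_prime (R := R) hp hodd k (w + ℓ * e)
    refine ⟨f + e, ?_⟩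
    linear_combination hf

/-- multiplicativity of `1 + ℓ^c u` modulo `ℓ^(c+1)` -/
theorem xl_ring_mul (L : R) (d : ℕ) {y y' u u' : R}
    (h : L ^ (d + 2) ∣ y - (1 + L ^ (d + 1) * u)) (h' : L ^ (d + 2) ∣ y' - (1 + L ^ (d + 1) * u')) :
    L ^ (d + 2) ∣ y * y' - (1 + L ^ (d + 1) * (u + u')) := by
  obtain ⟨e, he⟩ := h
  obtain ⟨e', he'⟩ := h'
  have hy : y = 1 + L ^ (d + 1) * u + L ^ (d + 2) * e := by linear_combination he
  have hy' : y' = 1 + L ^ (d + 1) * u' + L ^ (d + 2) * e' := by linear_combination he'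
  refine ⟨e + e' + L ^ d * u * u' + L ^ (d + 1) * u * e' + L ^ (d + 1) * u' * e
    + L ^ (d + 2) * e * e', ?_⟩
  rw [hy, hy']
  ring

theorem xl_ring_npow (L : R) (d : ℕ) {y u : R} (h : L ^ (d + 2) ∣ y - (1 + L ^ (d + 1) * u))
    (a : ℕ) : L ^ (d + 2) ∣ y ^ a - (1 + L ^ (d + 1) * (a * u)) := by
  induction a with
  | zero => simp
  | succ a ih =>
    have := xl_ring_mul L d ih h
    have e1 : y ^ (a + 1) - (1 + L ^ (d + 1) * (((a + 1 : ℕ) : R) * u))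
        = y ^ a * y - (1 + L ^ (d + 1) * (a * u + u)) := by
      push_cast
      ring
    rw [e1]
    exact this

theorem xl_ring_prod (L : R) (d : ℕ) {ι : Type*} (s : Finset ι) (y u : ι → R)
    (h : ∀ j ∈ s, L ^ (d + 2) ∣ y j - (1 + L ^ (d + 1) * u j)) :
    L ^ (d + 2) ∣ ∏ j ∈ s, y j - (1 + L ^ (d + 1) * ∑ j ∈ s, u j) := by
  classical
  induction s using Finset.induction_on with
  | empty => simp
  | insert a t ha ih =>
    rw [Finset.prod_insert ha, Finset.sum_insert ha]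
    exact xl_ring_mul L d (h a (Finset.mem_insert_self a t))
      (ih fun j hj => h j (Finset.mem_insert_of_mem hj))

end ring

variable (ℓ : ℕ) [Fact ℓ.Prime] (M : Type*) [Field M] [NumberField M]

/-! ### elements `1 + ℓ^k w` -/

section emb

variable {𝕂 : Type*} [NormedField 𝕂] [NormedAlgebra ℚ_[ℓ] 𝕂] [IsUltrametricDist 𝕂] [CompleteSpace 𝕂]

omit [IsUltrametricDist 𝕂] [CompleteSpace 𝕂] in
theorem xl_norm_natCast_eq_one {s : ℕ} (hs : ¬ ℓ ∣ s) : ‖(s : 𝕂)‖ = 1 := by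
  rw [Log.norm_natCast_eq (ℓ := ℓ), Padic.norm_natCast_eq_one_iff]
  exact (Nat.Prime.coprime_iff_not_dvd Fact.out).2 hs

omit [IsUltrametricDist 𝕂] [CompleteSpace 𝕂] in
theorem xl_ell_ne_zero : (ℓ : 𝕂) ≠ 0 := by
  have h : ‖(ℓ : 𝕂)‖ = (ℓ : ℝ)⁻¹ := xl_norm_ell ℓ
  have hp : (0 : ℝ) < ℓ := by exact_mod_cast (Fact.out : ℓ.Prime).pos
  intro h0
  rw [h0, norm_zero] at h
  have := inv_pos.2 hp
  linarith

omit [IsUltrametricDist 𝕂] [CompleteSpace 𝕂] in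
theorem xl_norm_ell_lt_one : ‖(ℓ : 𝕂)‖ < 1 := by
  rw [xl_norm_ell]
  have hp : (1 : ℝ) < ℓ := by exact_mod_cast (Fact.out : ℓ.Prime).one_lt
  exact inv_lt_one_of_one_lt₀ hp

omit [CompleteSpace 𝕂] in
theorem xl_one_add_ne_zero (σ : M →+* 𝕂) {w : M} (hw : IsIntegral ℤ w) {k : ℕ} (hk : 1 ≤ k) :
    (1 : M) + (ℓ : M) ^ k * w ≠ 0 := by
  intro h0
  have h1 : σ ((1 : M) + (ℓ : M) ^ k * w) = 0 := by rw [h0, map_zero]
  rw [map_add, map_one, map_mul, map_pow, map_natCast] at h1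
  have h2 : (ℓ : 𝕂) ^ k * σ w = -1 := by linear_combination h1
  have h3 : ‖(ℓ : 𝕂) ^ k * σ w‖ < 1 := by
    rw [norm_mul, norm_pow]
    have a1 : ‖σ w‖ ≤ 1 := Log.norm_le_one_of_isIntegral (hw.map σ.toIntAlgHom)
    have a2 : ‖(ℓ : 𝕂)‖ ^ k < 1 := pow_lt_one₀ (norm_nonneg _) (xl_norm_ell_lt_one ℓ) (by omega)
    calc ‖(ℓ : 𝕂)‖ ^ k * ‖σ w‖ ≤ ‖(ℓ : 𝕂)‖ ^ k * 1 := by gcongr
      _ < 1 := by rwa [mul_one]
  rw [h2, norm_neg, norm_one] at h3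
  exact lt_irrefl _ h3

theorem xl_one_add_mem {w : M} (hw : IsIntegral ℤ w) {k : ℕ} (hk : 1 ≤ k)
    (h0 : (1 : M) + (ℓ : M) ^ k * w ≠ 0) : Units.mk0 _ h0 ∈ xlGamma ℓ M k := by
  rw [xl_mem_gamma_iff ℓ M k hk]
  refine ⟨1, ?_, ?_⟩
  · rw [Nat.dvd_one]
    exact (Fact.out : ℓ.Prime).ne_one
  · have hℓ : (ℓ : M) ^ k ≠ 0 := pow_ne_zero _ (by exact_mod_cast (Fact.out : ℓ.Prime).ne_zero)
    have : ((1 : ℕ) : M) * ((Units.mk0 _ h0 : Mˣ) - 1) / (ℓ : M) ^ k = w := by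
      rw [Units.val_mk0]
      field_simp
      ring
    rw [this]
    exact hw

end emb

/-! ### evaluation at generators -/

omit [Fact ℓ.Prime] in
/-- decomposition of `φ b` along the generators -/
theorem xl_phi_decomp {A : Type*} [AddCommGroup A] {n : ℕ} (g : Fin n → xlGamma ℓ M 1)
    (φ : Additive (xlGamma ℓ M 1) →+ A) (b : xlGamma ℓ M 1) (a : Fin n → ℤ) :
    φ (Additive.ofMul b) = φ (Additive.ofMul (b * (∏ j, g j ^ a j)⁻¹))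
      + ∑ j, a j • φ (Additive.ofMul (g j)) := by
  have h1 : Additive.ofMul b = Additive.ofMul (b * (∏ j, g j ^ a j)⁻¹)
      + ∑ j, a j • Additive.ofMul (g j) := by
    have : ∑ j, a j • Additive.ofMul (g j) = Additive.ofMul (∏ j, g j ^ a j) := by
      rw [ofMul_prod]
      rfl
    rw [this, ← ofMul_mul, inv_mul_cancel_right]
  conv_lhs => rw [h1]
  rw [map_add, map_sum]
  simp only [map_zsmul]

/-- evaluation at the generators -/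
noncomputable def xlEv (𝕂 : Type*) [NormedField 𝕂] {n : ℕ} (g : Fin n → xlGamma ℓ M 1) :
    xlPhiSpace ℓ M 𝕂 →ₗ[𝕂] (Fin n → 𝕂) where
  toFun φ j := (φ : Additive (xlGamma ℓ M 1) →+ 𝕂) (Additive.ofMul (g j))
  map_add' _ _ := rfl
  map_smul' _ _ := rfl

omit [Fact ℓ.Prime] in
theorem xlEv_injective (𝕂 : Type*) [NormedField 𝕂] {n : ℕ} (g : Fin n → xlGamma ℓ M 1)
    (hg : ∀ (c : ℕ) (b : xlGamma ℓ M 1), ∃ a : Fin n → ℤ,
      ((b * (∏ j, g j ^ a j)⁻¹ : xlGamma ℓ M 1) : Mˣ) ∈ xlGamma ℓ M c) :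
    Function.Injective (xlEv ℓ M 𝕂 g) := by
  rw [injective_iff_map_eq_zero]
  intro φ hφ
  have h0 : ∀ j, (φ : Additive (xlGamma ℓ M 1) →+ 𝕂) (Additive.ofMul (g j)) = 0 :=
    fun j => congrFun hφ j
  apply Subtype.ext
  refine AddMonoidHom.ext fun b => ?_
  obtain ⟨b, rfl⟩ := Additive.ofMul.surjective b
  rw [Submodule.coe_zero, AddMonoidHom.zero_apply, ← norm_le_zero_iff]
  refine le_of_forall_pos_le_add fun ε hε => ?_
  obtain ⟨c, hc⟩ := φ.2 ε hε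
  obtain ⟨a, ha⟩ := hg c b
  rw [xl_phi_decomp ℓ M g _ b a]
  simp only [h0, smul_zero, Finset.sum_const_zero, add_zero, zero_add]
  exact hc _ ha

/-! ### the generators -/

/-- an integral basis indexed by `Fin n` -/
noncomputable def xlOm : Module.Basis (Fin (Module.finrank ℚ M)) ℤ (𝓞 M) :=
  Module.finBasisOfFinrankEq ℤ (𝓞 M) (RingOfIntegers.rank M)

theorem xl_gen_ne_zero (w : 𝓞 M) : (1 : M) + (ℓ : M) ^ 1 * algebraMap (𝓞 M) M w ≠ 0 :=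
  xl_one_add_ne_zero ℓ M (Classical.arbitrary (M →+* ℂ_[ℓ])) (RingOfIntegers.isIntegral_coe w) le_rfl

/-- `g_j = 1 + ℓ ω_j` -/
noncomputable def xlG (j : Fin (Module.finrank ℚ M)) : xlGamma ℓ M 1 :=
  ⟨Units.mk0 _ (xl_gen_ne_zero ℓ M (xlOm M j)),
    xl_one_add_mem ℓ M (RingOfIntegers.isIntegral_coe _) le_rfl _⟩

theorem xlG_coe (j : Fin (Module.finrank ℚ M)) :
    (((xlG ℓ M j : xlGamma ℓ M 1) : Mˣ) : M) = algebraMap (𝓞 M) M (1 + (ℓ : 𝓞 M) * xlOm M j) := by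
  simp [xlG]

theorem xlG_prod_coe (a : Fin (Module.finrank ℚ M) → ℕ) :
    (((∏ j, xlG ℓ M j ^ ((a j : ℕ) : ℤ) : xlGamma ℓ M 1) : Mˣ) : M)
      = algebraMap (𝓞 M) M (∏ j, (1 + (ℓ : 𝓞 M) * xlOm M j) ^ a j) := by
  rw [map_prod, Subgroup.val_finset_prod, Units.coe_prod]
  refine Finset.prod_congr rfl fun j _ => ?_
  rw [zpow_natCast, Subgroup.coe_pow, Units.val_pow_eq_pow_val, xlG_coe, map_pow]

/-- choice of the exponents modulo `ℓ` -/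
theorem xl_exists_coeff {s : ℕ} (hs : ¬ ℓ ∣ s) (r : ℤ) :
    ∃ (a : ℕ) (q : ℤ), r = s * a + ℓ * q := by
  have hs0 : (s : ZMod ℓ) ≠ 0 := by
    rwa [Ne, ZMod.natCast_eq_zero_iff]
  set a : ℕ := ((r : ZMod ℓ) * (s : ZMod ℓ)⁻¹).val with ha
  have h1 : ((r - s * a : ℤ) : ZMod ℓ) = 0 := by
    push_cast
    rw [ha, ZMod.natCast_zmod_val]
    field_simp
    ring
  obtain ⟨q, hq⟩ := (ZMod.intCast_zmod_eq_zero_iff_dvd _ ℓ).1 h1
  exact ⟨a, q, by linarith⟩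

/-- the inductive step -/
theorem xl_gamma_step (hodd : ℓ ≠ 2) (d : ℕ) (b : xlGamma ℓ M 1)
    (hb : (b : Mˣ) ∈ xlGamma ℓ M (d + 1)) :
    ∃ a : Fin (Module.finrank ℚ M) → ℤ,
      ((b * (∏ j, xlG ℓ M j ^ a j)⁻¹ : xlGamma ℓ M 1) : Mˣ) ∈ xlGamma ℓ M (d + 2) := by
  have hp : ℓ.Prime := Fact.out
  have hℓM : (ℓ : M) ≠ 0 := by exact_mod_cast hp.ne_zero
  obtain ⟨s, hs, hint⟩ := (xl_mem_gamma_iff ℓ M (d + 1) (by omega) b).1 hb
  set y : 𝓞 M := ⟨_, hint⟩ with hy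
  have hyM : algebraMap (𝓞 M) M y = (s : M) * (((b : Mˣ) : M) - 1) / (ℓ : M) ^ (d + 1) := rfl
  choose a q haq using fun j => xl_exists_coeff ℓ hs ((xlOm M).repr y j)
  set A : 𝓞 M := ∑ j, (a j : 𝓞 M) * xlOm M j with hA
  set Q : 𝓞 M := ∑ j, (q j : 𝓞 M) * xlOm M j with hQ
  have hyAQ : y = (s : 𝓞 M) * A + (ℓ : 𝓞 M) * Q := by
    conv_lhs => rw [← (xlOm M).sum_repr y]
    rw [hA, hQ, Finset.mul_sum, Finset.mul_sum, ← Finset.sum_add_distrib]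
    refine Finset.sum_congr rfl fun j _ => ?_
    rw [haq j, zsmul_eq_mul]
    push_cast
    ring
  -- the product
  have hprod : (ℓ : 𝓞 M) ^ (d + 2) ∣ ∏ j, ((1 + (ℓ : 𝓞 M) * xlOm M j) ^ (ℓ ^ d)) ^ a j
      - (1 + (ℓ : 𝓞 M) ^ (d + 1) * A) :=
    xl_ring_prod (ℓ : 𝓞 M) d Finset.univ _ _ fun j _ =>
      xl_ring_npow (ℓ : 𝓞 M) d (xl_ring_pow_prime_pow hp hodd d (xlOm M j)) (a j)
  obtain ⟨e, he⟩ := hprod
  refine ⟨fun j => ((ℓ ^ d * a j : ℕ) : ℤ), ?_⟩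
  set Pu : xlGamma ℓ M 1 := ∏ j, xlG ℓ M j ^ ((ℓ ^ d * a j : ℕ) : ℤ) with hPu
  have hPM : (((Pu : xlGamma ℓ M 1) : Mˣ) : M)
      = 1 + (ℓ : M) ^ (d + 1) * algebraMap (𝓞 M) M A + (ℓ : M) ^ (d + 2) * algebraMap (𝓞 M) M e := by
    rw [hPu, xlG_prod_coe ℓ M fun j => ℓ ^ d * a j]
    have : ∏ j, (1 + (ℓ : 𝓞 M) * xlOm M j) ^ (ℓ ^ d * a j)
        = 1 + (ℓ : 𝓞 M) ^ (d + 1) * A + (ℓ : 𝓞 M) ^ (d + 2) * e := by
      simp only [pow_mul]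
      linear_combination he
    rw [this]
    simp only [map_add, map_mul, map_pow, map_one, map_natCast]
  -- the inverse of the product is `ℓ`-integral
  obtain ⟨s', hs', hint'⟩ := (xl_mem_gamma_iff ℓ M 1 le_rfl (Pu⁻¹ : xlGamma ℓ M 1)).1 (Pu⁻¹).2
  have hinv : IsIntegral ℤ ((s' : M) * (((Pu⁻¹ : xlGamma ℓ M 1) : Mˣ) : M)) := by
    have h1 : (s' : M) * (((Pu⁻¹ : xlGamma ℓ M 1) : Mˣ) : M)
        = (ℓ : M) * ((s' : M) * ((((Pu⁻¹ : xlGamma ℓ M 1) : Mˣ) : M) - 1) / (ℓ : M) ^ 1) + s' := by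
      field_simp
      ring
    rw [h1]
    exact ((isIntegral_natCast (R := ℤ) ℓ).mul hint').add (isIntegral_natCast s')
  rw [xl_mem_gamma_iff ℓ M (d + 2) (by omega)]
  refine ⟨s * s', fun hdvd => ?_, ?_⟩
  · rcases (Nat.Prime.dvd_mul hp).1 hdvd with h | h
    · exact hs h
    · exact hs' h
  · have hPinv : (((Pu : xlGamma ℓ M 1) : Mˣ) : M) * (((Pu⁻¹ : xlGamma ℓ M 1) : Mˣ) : M) = 1 := by
      rw [← Units.val_mul, ← Subgroup.coe_mul, mul_inv_cancel]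
      rfl
    have hsb : (s : M) * (((b : Mˣ) : M) - 1) = (ℓ : M) ^ (d + 1) * algebraMap (𝓞 M) M y := by
      rw [hyM]
      field_simp
    have hyM' : algebraMap (𝓞 M) M y
        = (s : M) * algebraMap (𝓞 M) M A + (ℓ : M) * algebraMap (𝓞 M) M Q := by
      rw [hyAQ]
      simp only [map_add, map_mul, map_natCast]
    have key : ((s * s' : ℕ) : M) * ((((b * Pu⁻¹ : xlGamma ℓ M 1) : Mˣ) : M) - 1) / (ℓ : M) ^ (d + 2)
        = algebraMap (𝓞 M) M (Q - s * e) * ((s' : M) * (((Pu⁻¹ : xlGamma ℓ M 1) : Mˣ) : M)) := by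
      rw [div_eq_iff (pow_ne_zero _ hℓM), Subgroup.coe_mul, Units.val_mul]
      simp only [map_sub, map_mul, map_natCast, Nat.cast_mul]
      set X := (((Pu⁻¹ : xlGamma ℓ M 1) : Mˣ) : M) with hX
      set B := ((b : Mˣ) : M) with hB
      have h1 : B * X - 1 = (B - (((Pu : xlGamma ℓ M 1) : Mˣ) : M)) * X := by
        rw [sub_mul, hPinv]
      rw [h1, hPM]
      rw [hyM'] at hsb
      linear_combination (s' : M) * X * hsb
    rw [key]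
    exact (RingOfIntegers.isIntegral_coe _).mul hinv

/-- LEAF A1 `XL.gamma_gen`  (here `ℓ` odd is used).  `g_j = 1 + ℓ ω_j`, `ω_j` an integral basis.
Induction on `c`: if `b ∈ Γ_c`, `c ≥ 1`, then `b = 1 + ℓ^c z`, `s z ∈ 𝓞 M`, `ℓ ∤ s`; choose `t` with `t s ≡ 1 mod ℓ`,
`t s z = ∑ a_j ω_j`.  As `g_j ^ (ℓ^(c-1)) ≡ 1 + ℓ^c ω_j mod ℓ^(c+1)` (ℓ odd), `b / ∏ g_j ^ (a_j ℓ^(c-1)) ∈ Γ_(c+1)`. -/
theorem xl_gamma_gen (hodd : ℓ ≠ 2) :
    ∃ g : Fin (Module.finrank ℚ M) → xlGamma ℓ M 1, ∀ (c : ℕ) (b : xlGamma ℓ M 1),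
      ∃ a : Fin (Module.finrank ℚ M) → ℤ, ((b * (∏ j, g j ^ a j)⁻¹ : xlGamma ℓ M 1) : Mˣ) ∈ xlGamma ℓ M c := by
  refine ⟨xlG ℓ M, fun c b => ?_⟩
  have key : ∀ d : ℕ, ∃ a : Fin (Module.finrank ℚ M) → ℤ,
      ((b * (∏ j, xlG ℓ M j ^ a j)⁻¹ : xlGamma ℓ M 1) : Mˣ) ∈ xlGamma ℓ M (d + 1) := by
    intro d
    induction d with
    | zero => exact ⟨0, by simpa using b.2⟩
    | succ d ih =>
      obtain ⟨a, ha⟩ := ih
      obtain ⟨a', ha'⟩ := xl_gamma_step ℓ M hodd d _ ha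
      refine ⟨a + a', ?_⟩
      have : b * (∏ j, xlG ℓ M j ^ (a + a') j)⁻¹
          = b * (∏ j, xlG ℓ M j ^ a j)⁻¹ * (∏ j, xlG ℓ M j ^ a' j)⁻¹ := by
        simp only [Pi.add_apply, zpow_add, Finset.prod_mul_distrib, mul_inv, mul_assoc]
      rw [this]
      exact ha'
  obtain ⟨a, ha⟩ := key c
  exact ⟨a, xlGamma_antitone ℓ M (Nat.le_succ c) ha⟩

/-- LEAF A1b `XL.phi_finrank_le`.  By `xl_gamma_gen`, `φ ↦ (φ (g_j))_j` is injective on `Φ(M, 𝕂)`: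
`‖φ b‖ = ‖φ (b / ∏ g_j^a_j)‖ ≤ ε` for all `ε`. -/
theorem xl_phi_finrank_le (hodd : ℓ ≠ 2) (𝕂 : Type*) [NormedField 𝕂] :
    Module.Finite 𝕂 (xlPhiSpace ℓ M 𝕂) ∧
      Module.finrank 𝕂 (xlPhiSpace ℓ M 𝕂) ≤ Module.finrank ℚ M := by
  obtain ⟨g, hg⟩ := xl_gamma_gen ℓ M hodd
  have hinj := xlEv_injective ℓ M 𝕂 g hg
  have hfin : Module.Finite 𝕂 (xlPhiSpace ℓ M 𝕂) := Module.Finite.of_injective (xlEv ℓ M 𝕂 g) hinj
  refine ⟨hfin, ?_⟩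
  have := LinearMap.finrank_le_finrank_of_injective hinj
  rwa [Module.finrank_fin_fun] at this

theorem xl_gamma_pow_pow (k : ℕ) {b : Mˣ} (hb : b ∈ xlGamma ℓ M 1) :
    b ^ (ℓ ^ k) ∈ xlGamma ℓ M (k + 1) := by
  induction k with
  | zero => simpa using hb
  | succ k ih =>
    rw [pow_succ, pow_mul]
    exact xl_gamma_pow ℓ M (k + 1) (by omega) ih

/-- LEAF A4 `XL.phi_bounded`.  `φ (Γ_c) ⊆ ℤ_ℓ` for some `c ≥ 1`, and `b ^ (ℓ^(c-1)) ∈ Γ_c` by `xl_gamma_pow`. -/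
theorem xl_phi_bounded (φ : Additive (xlGamma ℓ M 1) →+ ℚ_[ℓ]) (hφ : φ ∈ xlPhiSpace ℓ M ℚ_[ℓ]) :
    ∃ j : ℕ, ∀ b : xlGamma ℓ M 1, ‖(ℓ : ℚ_[ℓ]) ^ j * φ (Additive.ofMul b)‖ ≤ 1 := by
  obtain ⟨c, hc⟩ := hφ 1 one_pos
  refine ⟨c, fun b => ?_⟩
  have h1 : ((b ^ (ℓ ^ c) : xlGamma ℓ M 1) : Mˣ) ∈ xlGamma ℓ M c := by
    rw [Subgroup.coe_pow]
    exact xlGamma_antitone ℓ M (Nat.le_succ c) (xl_gamma_pow_pow ℓ M c b.2)
  have h2 := hc _ h1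
  rw [ofMul_pow, map_nsmul, nsmul_eq_mul] at h2
  simpa using h2

end Claimed.Agent.R239
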