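import Claimed.Agent.R239.XL.Frob
import Claimed.Agent.R239.CFT.P0d
import Claimed.Agent.R239.Tame.HilProf

/-!
# R239 / XL / GlueAux : the bridge between `U ≤ Gal(E/F)` and an abstract normal extension `L / M_U` embedded in `E`
(owner helper207; prefix `xlg`; no sorry).

`L` is a field with `Algebra (fld U) L`, `Algebra L E`, `IsScalarTower (fld U) L E`, `Normal (fld U) L`.
* `xlgRes U L : U →* Gal(L / fld U)` : restriction; `xlgRes_commutes`, `xlgRes_smul`, `xlgRes_surjective`, `xlgRes_eq_one_iff`,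
  `xlgRes_ker_isOpen`;
* `xlg_unram`  : if `xlgRes` kills `I_U(P)` then `v = P ∩ M_U` is unramified in `L`;
* `xlg_frob`   : `frob (fld U) L v = xlgRes (Frobenius lift at v)` for `v` unramified, `L / M_U` abelian.
-/

set_option autoImplicit false

open NumberField IsDedekindDomain Claims.C0403

namespace Claimed.Agent.R239

open CFT
open scoped Pointwise

variable {F E : Type} [Field F] [Field E] [Algebra F E]

section Res

variable (U : Subgroup Gal(E/F)) (L : Type) [Field L] [Algebra (fld U) L] [Algebra L E]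
  [IsScalarTower (fld U) L E] [Normal (fld U) L]

/-- restriction `U → Gal(L / M_U)`. -/
noncomputable def xlgRes : U →* Gal(L/(fld U)) :=
  (AlgEquiv.restrictNormalHom L).comp (hilbToGal U)

theorem xlgRes_commutes (u : U) (x : L) :
    algebraMap L E (xlgRes U L u x) = (u : Gal(E/F)) (algebraMap L E x) :=
  AlgEquiv.restrictNormal_commutes (hilbToGal U u) L x

theorem xlgRes_smul (u : U) (x : 𝓞 L) :
    algebraMap (𝓞 L) (𝓞 E) (xlgRes U L u • x) = (u : Gal(E/F)) • algebraMap (𝓞 L) (𝓞 E) x :=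
  RingOfIntegers.ext (xlgRes_commutes U L u (x : L))

theorem xlgRes_eq_one_iff (u : U) :
    xlgRes U L u = 1 ↔ ∀ x : L, (u : Gal(E/F)) (algebraMap L E x) = algebraMap L E x := by
  constructor
  · intro h x
    rw [← xlgRes_commutes, h]
    rfl
  · intro h
    ext x
    apply (algebraMap L E).injective
    rw [xlgRes_commutes, h]
    rfl

theorem xlgRes_surjective [IsGalois F E] (hU : IsClosed (U : Set Gal(E/F))) :
    Function.Surjective (xlgRes U L) :=
  (AlgEquiv.restrictNormalHom_surjective E).comp (hilbToGal_surjective U hU)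

theorem xlgRes_ker_isOpen [Algebra.IsIntegral F E] [FiniteDimensional (fld U) L] :
    IsOpen (((xlgRes U L).ker : Subgroup U) : Set U) := by
  let b := Module.finBasis (fld U) L
  have h : (((xlgRes U L).ker : Subgroup U) : Set U)
      = ⋂ i, (fun u : U => (u : Gal(E/F))) ⁻¹'
          (MulAction.stabilizer Gal(E/F) (algebraMap L E (b i)) : Set Gal(E/F)) := by
    ext u
    simp only [SetLike.mem_coe, MonoidHom.mem_ker, Set.mem_iInter, Set.mem_preimage,
      MulAction.mem_stabilizer_iff]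
    constructor
    · intro hu i
      exact (xlgRes_eq_one_iff U L u).1 hu (b i)
    · intro hu
      have h1 : (xlgRes U L u).toLinearMap = LinearMap.id := by
        apply b.ext
        intro i
        apply (algebraMap L E).injective
        exact (xlgRes_commutes U L u (b i)).trans (hu i)
      ext x
      exact LinearMap.congr_fun h1 x
  rw [h]
  exact isOpen_iInter_of_finite fun i =>
    (stabilizer_isOpen_of_isIntegral (K := F) _).preimage continuous_subtype_val

end Res

section Primes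

variable (U : Subgroup Gal(E/F)) [NumberField (fld U)] (L : Type) [Field L] [NumberField L]
  [Algebra (fld U) L] [Algebra L E] [IsScalarTower (fld U) L E]

/-- the prime `P ∩ L` of `L`. -/
noncomputable def xlgBelow (P : Ideal (𝓞 E)) [P.IsMaximal] : Pl L :=
  ⟨P.under (𝓞 L), inferInstance,
    Ring.ne_bot_of_isMaximal_of_not_isField inferInstance (RingOfIntegers.not_isField L)⟩

omit [NumberField (fld U)] [Algebra (fld U) L] [IsScalarTower (fld U) L E] in
theorem xlgBelow_asIdeal (P : Ideal (𝓞 E)) [P.IsMaximal] :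
    (xlgBelow L P).asIdeal = P.under (𝓞 L) := rfl

omit [NumberField (fld U)] [Algebra (fld U) L] [IsScalarTower (fld U) L E] in
theorem xlg_mem_below (P : Ideal (𝓞 E)) [P.IsMaximal] (x : 𝓞 L) :
    x ∈ (xlgBelow L P).asIdeal ↔ algebraMap (𝓞 L) (𝓞 E) x ∈ P := Iff.rfl

omit [NumberField (fld U)] in
theorem xlgBelow_under (P : Ideal (𝓞 E)) [P.IsMaximal] :
    (xlgBelow L P).asIdeal.under (𝓞 (fld U)) = below U P := by
  rw [xlgBelow_asIdeal, Ideal.under_under]

theorem xlgBelow_below (P : Ideal (𝓞 E)) [P.IsMaximal] (v : Pl (fld U))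
    (hP : below U P = v.asIdeal) : CFT.below (fld U) L (xlgBelow L P) = v :=
  HeightOneSpectrum.ext ((xlgBelow_under U L P).trans hP)

variable [Normal (fld U) L]

omit [NumberField (fld U)] in
/-- the restriction of a Frobenius lift is a Frobenius element at `P ∩ L`. -/
theorem xlg_isArithFrobAt (P : Ideal (𝓞 E)) [P.IsMaximal] {σ : Gal(E/F)} (hσ : IsFrob U P σ) :
    IsArithFrobAt (𝓞 (fld U)) (xlgRes U L ⟨σ, hσ.1⟩) (xlgBelow L P).asIdeal := by
  intro x
  rw [xlg_mem_below, xlgBelow_under]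
  have h := hσ.2 (algebraMap (𝓞 L) (𝓞 E) x)
  rw [map_sub, map_pow]
  have e : algebraMap (𝓞 L) (𝓞 E) ((MulSemiringAction.toAlgHom (𝓞 (fld U)) (𝓞 L)
      (xlgRes U L ⟨σ, hσ.1⟩)) x) = σ • algebraMap (𝓞 L) (𝓞 E) x := xlgRes_smul U L ⟨σ, hσ.1⟩ x
  rw [e]
  exact h

end Primes

section Frob

variable (U : Subgroup Gal(E/F)) [NumberField (fld U)] (L : Type) [Field L] [NumberField L]
  [Algebra (fld U) L] [Algebra L E] [IsScalarTower (fld U) L E]

/-- in an abelian extension a Frobenius at one prime above `v` is a Frobenius at all of them. -/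
theorem xlg_isFrob_of_isArithFrobAt (K : Type) [Field K] [NumberField K] (L : Type) [Field L]
    [NumberField L] [Algebra K L] [IsAbelianGalois K L] {τ : Gal(L/K)} (w : Pl L)
    (h : IsArithFrobAt (𝓞 K) τ w.asIdeal) : CFT.IsFrob K L τ (CFT.below K L w) := by
  intro w' hw'
  obtain ⟨ρ, rfl⟩ := exists_smul_eq K L hw'.symm
  have h1 := h.conj ρ
  have h2 : ρ * τ * ρ⁻¹ = τ := by
    rw [mul_comm' ρ τ, mul_assoc, mul_inv_cancel, mul_one]
  rw [h2] at h1
  exact h1

theorem xlg_isFrob_unique (K : Type) [Field K] [NumberField K] (L : Type) [Field L]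
    [NumberField L] [Algebra K L] [IsGalois K L] {v : Pl K} (hv : Unram K L v) {τ τ' : Gal(L/K)}
    (h : CFT.IsFrob K L τ v) (h' : CFT.IsFrob K L τ' v) : τ = τ' := by
  obtain ⟨w, hw⟩ := exists_above K L v
  have h1 := (h w hw).mul_inv_mem_inertia (h' w hw)
  rw [hv w hw, Subgroup.mem_bot] at h1
  exact mul_inv_eq_one.1 h1

theorem xlg_frob_eq (K : Type) [Field K] [NumberField K] (L : Type) [Field L]
    [NumberField L] [Algebra K L] [IsGalois K L] {v : Pl K} (hv : Unram K L v) {τ : Gal(L/K)}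
    (h : CFT.IsFrob K L τ v) : frob K L v = τ := by
  have hex : ∃ σ : Gal(L/K), CFT.IsFrob K L σ v := ⟨τ, h⟩
  unfold frob
  rw [dif_pos hex]
  exact xlg_isFrob_unique K L hv hex.choose_spec h

/-- `frob v` is the restriction of any Frobenius lift at `v`. -/
theorem xlg_frob [IsAbelianGalois (fld U) L] (v : Pl (fld U)) (hv : Unram (fld U) L v)
    (σ : Gal(E/F)) (hσ : xlFrobAt U v σ) : frob (fld U) L v = xlgRes U L ⟨σ, hσ.mem⟩ := by
  obtain ⟨P, hPm, hP, hF⟩ := hσ
  apply xlg_frob_eq (fld U) L hv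
  have h1 := xlg_isFrob_of_isArithFrobAt (fld U) L _ (xlg_isArithFrobAt U L P hF)
  rwa [xlgBelow_below U L P v hP] at h1

end Frob

section Unram

variable [IsGalois F E] (U : Subgroup Gal(E/F)) [NumberField (fld U)] (L : Type) [Field L]
  [NumberField L] [Algebra (fld U) L] [Algebra L E] [IsScalarTower (fld U) L E]

/-- an element of `Gal(E/L)` as an element of `U`. -/
noncomputable def xlgOfTop (hU : IsClosed (U : Set Gal(E/F))) (h : Gal(E/L)) : U :=
  ⟨(h.restrictScalars (fld U)).restrictScalars F, hilb_restrictScalars_mem U hU _⟩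

omit [NumberField (fld U)] [NumberField L] in
theorem xlgOfTop_smul (hU : IsClosed (U : Set Gal(E/F))) (h : Gal(E/L)) (y : 𝓞 E) :
    ((xlgOfTop U L hU h : U) : Gal(E/F)) • y = h • y := rfl

omit [NumberField (fld U)] [NumberField L] in
theorem xlgRes_ofTop [Normal (fld U) L] (hU : IsClosed (U : Set Gal(E/F))) (h : Gal(E/L)) :
    xlgRes U L (xlgOfTop U L hU h) = 1 := by
  rw [xlgRes_eq_one_iff]
  intro x
  exact h.commutes x

/-- "inertia maps onto inertia": every element of the inertia group of `P ∩ L` in `Gal(L / M_U)` is the restriction of an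
element of `I_U(P)`. -/
theorem xlg_inertia_lift [IsGalois (fld U) L] (hU : IsClosed (U : Set Gal(E/F)))
    (P : Ideal (𝓞 E)) [P.IsMaximal] (τ : Gal(L/(fld U)))
    (hτ : τ ∈ (xlgBelow L P).asIdeal.inertia Gal(L/(fld U))) :
    ∃ (g : Gal(E/F)) (hg : g ∈ inert F P ⊓ U), xlgRes U L ⟨g, hg.2⟩ = τ := by
  have : IsGalois L E := IsGalois.tower_top_of_isGalois (fld U) L E
  obtain ⟨u, rfl⟩ := xlgRes_surjective U L hU τ
  -- membership in `P ∩ L` is invariant under inertia
  have hinv : ∀ (ρ : Gal(L/(fld U))), ρ ∈ (xlgBelow L P).asIdeal.inertia Gal(L/(fld U)) →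
      ∀ x : 𝓞 L, ρ • x ∈ (xlgBelow L P).asIdeal ↔ x ∈ (xlgBelow L P).asIdeal := by
    intro ρ hρ x
    have h1 := hρ x
    constructor
    · intro h2
      have := sub_mem h2 h1
      simpa using this
    · intro h2
      have := add_mem h1 h2
      simpa using this
  have hunder : ((u : Gal(E/F)) • P).under (𝓞 L) = P.under (𝓞 L) := by
    ext x
    rw [Ideal.mem_comap, Ideal.mem_comap, Ideal.mem_pointwise_smul_iff_inv_smul_mem]
    have h1 := xlgRes_smul U L u⁻¹ x
    rw [Subgroup.coe_inv] at h1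
    rw [← h1, map_inv]
    exact hinv _ (inv_mem hτ) x
  obtain ⟨h, hh⟩ := hilb_transitive L ((u : Gal(E/F)) • P) P hunder
  set t : Gal(E/F) := (xlgOfTop U L hU h : U) * (u : Gal(E/F)) with ht
  have htP : t • P = P := by
    rw [ht, mul_smul]
    exact hh.symm
  have htL : ∀ x : 𝓞 L, t • algebraMap (𝓞 L) (𝓞 E) x - algebraMap (𝓞 L) (𝓞 E) x ∈ P := by
    intro x
    rw [ht, mul_smul, ← xlgRes_smul, xlgOfTop_smul, hilb_smul_algebraMap, ← map_sub]
    exact hτ x
  obtain ⟨h', hh'P, hh'⟩ := hilb_key L P (MulSemiringAction.toRingEquiv Gal(E/F) (𝓞 E) t)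
    htP.symm htL
  refine ⟨((xlgOfTop U L hU h')⁻¹ * (xlgOfTop U L hU h * u) : U), ⟨?_, SetLike.coe_mem _⟩, ?_⟩
  · intro y
    have h1 : h'⁻¹ • (t • y - h' • y) ∈ P := by
      have h2 : h'⁻¹ • (t • y - h' • y) ∈ h'⁻¹ • P :=
        Ideal.smul_mem_pointwise_smul _ _ _ (hh' y)
      have h3 : h'⁻¹ • P = P := by
        rw [inv_smul_eq_iff, hh'P]
      rwa [h3] at h2
    rw [smul_sub, inv_smul_smul] at h1
    exact h1
  · have e : (⟨((xlgOfTop U L hU h')⁻¹ * (xlgOfTop U L hU h * u) : U), SetLike.coe_mem _⟩ : U)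
        = (xlgOfTop U L hU h')⁻¹ * (xlgOfTop U L hU h * u) := rfl
    rw [e, map_mul, map_mul, map_inv, xlgRes_ofTop, xlgRes_ofTop]
    simp

/-- if the restriction to `L` kills `I_U(P)` then `v = P ∩ M_U` is unramified in `L`. -/
theorem xlg_unram [IsGalois (fld U) L] (hU : IsClosed (U : Set Gal(E/F))) (v : Pl (fld U))
    (P : Ideal (𝓞 E)) [P.IsMaximal] (hP : below U P = v.asIdeal)
    (hI : ∀ (g : Gal(E/F)) (hg : g ∈ inert F P ⊓ U), xlgRes U L ⟨g, hg.2⟩ = 1) :
    Unram (fld U) L v := by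
  refine unram_of_exists (fld U) L (xlgBelow L P) (xlgBelow_below U L P v hP) ?_
  rw [eq_bot_iff]
  intro τ hτ
  obtain ⟨g, hg, rfl⟩ := xlg_inertia_lift U L hU P τ hτ
  rw [Subgroup.mem_bot]
  exact hI g hg

end Unram

end Claimed.Agent.R239
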