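import Claimed.Agent.R239.XL.GlueAux

/-!
# R239 / XL / GlueEmbed : GL2: from an abstract abelian extension of `M_U` to a character of `U`

File of the package XL (sub-captain helper120; owner of this file helper207).  No sorry.
Plan of the package: `XL/Chain.lean`.
-/

set_option autoImplicit false

open NumberField IsDedekindDomain Claims.C0403 Polynomial

namespace Claimed.Agent.R239

open CFT

theorem xlg_rootSet_map (K E S : Type*) [Field K] [Field E] [Field S] [Algebra K E] [Algebra E S]
    [Algebra K S] [IsScalarTower K E S] (p : K[X]) :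
    (p.map (algebraMap K E)).rootSet S = p.rootSet S := by
  simp only [Polynomial.rootSet, Polynomial.aroots_def, Polynomial.map_map,
    ← IsScalarTower.algebraMap_eq]

/-- a finite abelian extension of a subfield of a solvably closed field embeds into it. -/
theorem xlg_exists_embed (K L E : Type) [Field K] [Field L] [Field E] [Algebra K L] [Algebra K E]
    [FiniteDimensional K L] [IsAbelianGalois K L] (hE : SolvablyClosed E) :
    Nonempty (L →ₐ[K] E) := by
  obtain ⟨p, -, hp⟩ := IsGalois.is_separable_splitting_field K L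
  refine ⟨IsSplittingField.lift L p (hE _ ?_)⟩
  set q : E[X] := p.map (algebraMap K E) with hq
  let S := q.SplittingField
  have : IsScalarTower K E S := inferInstanceAs (IsScalarTower K E q.SplittingField)
  have hS : (p.map (algebraMap K S)).Splits := by
    have := SplittingField.splits q
    rwa [hq, Polynomial.map_map, ← IsScalarTower.algebraMap_eq] at this
  let j : L →ₐ[K] S := IsSplittingField.lift L p hS
  let _ : Algebra L S := j.toRingHom.toAlgebra
  have : IsScalarTower K L S := IsScalarTower.of_algebraMap_eq (fun x => (j.commutes x).symm)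
  have hroot : ∀ x ∈ q.rootSet S, ∃ r : L, algebraMap L S r = x := by
    intro x hx
    have h1 : x ∈ p.rootSet S := by
      rw [← xlg_rootSet_map K E S p]
      exact hx
    rw [← (IsSplittingField.splits L p).image_rootSet j] at h1
    obtain ⟨r, -, hr⟩ := h1
    exact ⟨r, hr⟩
  intro a b
  apply Polynomial.Gal.ext
  intro x hx
  obtain ⟨r, rfl⟩ := hroot x hx
  let ρ : q.Gal → Gal(L/K) := fun c =>
    AlgEquiv.restrictNormal ((c : S ≃ₐ[E] S).restrictScalars K) L
  have hρ : ∀ (c : q.Gal) (z : L), c (algebraMap L S z) = algebraMap L S (ρ c z) := fun c z =>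
    (AlgEquiv.restrictNormal_commutes ((c : S ≃ₐ[E] S).restrictScalars K) L z).symm
  change a (b (algebraMap L S r)) = b (a (algebraMap L S r))
  rw [hρ b, hρ a, hρ a, hρ b]
  congr 1
  exact DFunLike.congr_fun (mul_comm' (ρ a) (ρ b)) r

variable {F E : Type} [Field F] [NumberField F] [Field E] [Algebra F E] [IsGalois F E]
variable {ℓ : ℕ} [Fact ℓ.Prime]

/-- LEAF GL2 `XL.glue_embed`  (CFT-world to `E`-world).  `L` is the splitting field of some `p` over `K`; the Galois group of `p`
over `E` is abelian, hence `p` splits in `E` (`SolvablyClosed`).  So there is `ι : L →ₐ[K] E`; `χ u = y (u|_L)`. -/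
theorem xl_glue_embed (hE : SolvablyClosed E) (U : Subgroup Gal(E/F)) (hU : IsOpen (U : Set Gal(E/F)))
    [NumberField (fld U)] (L : Type) [Field L] [NumberField L] [Algebra (fld U) L]
    [IsAbelianGalois (fld U) L] {A : Type} [CommGroup A] (y : Gal(L/(fld U)) →* A) :
    ∃ χ : U →* A, IsOpen ((χ.ker : Subgroup U) : Set U) ∧
      ∀ v : Pl (fld U), Unram (fld U) L v →
        ∀ (σ : Gal(E/F)) (hσ : xlFrobAt U v σ), χ ⟨σ, hσ.mem⟩ = y (frob (fld U) L v) := by
  obtain ⟨ι⟩ := xlg_exists_embed (fld U) L E hE
  let _ : Algebra L E := ι.toRingHom.toAlgebra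
  have : IsScalarTower (fld U) L E := IsScalarTower.of_algebraMap_eq (fun x => (ι.commutes x).symm)
  refine ⟨y.comp (xlgRes U L), ?_, ?_⟩
  · refine Subgroup.isOpen_mono (H₁ := (xlgRes U L).ker) ?_ (xlgRes_ker_isOpen U L)
    intro u hu
    rw [MonoidHom.mem_ker] at hu ⊢
    rw [MonoidHom.comp_apply, hu, map_one]
  · intro v hv σ hσ
    rw [MonoidHom.comp_apply, xlg_frob U L v hv σ hσ]

end Claimed.Agent.R239
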