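import Claimed.Agent.R239.XL.GlueAux

/-!
# R239 / XL / GlueLayer : GL1: from a finite character of `U` to an abstract abelian extension of `M_U`

File of the package XL (sub-captain helper120; owner of this file helper207).  No sorry.
Plan of the package: `XL/Chain.lean`.
-/

set_option autoImplicit false

open NumberField IsDedekindDomain Claims.C0403

namespace Claimed.Agent.R239

open CFT

section Layer

variable {F E : Type} [Field F] [Field E] [Algebra F E]

theorem xlg_fld_mono {U W : Subgroup Gal(E/F)} (hWU : W ≤ U) : fld U ≤ fld W :=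
  fun _ hx w => hx ⟨w.1, hWU w.2⟩

/-- `M_W` as an intermediate field of `E / M_U`. -/
def xlgLayer {U W : Subgroup Gal(E/F)} (hWU : W ≤ U) : IntermediateField (fld U) E :=
  IntermediateField.extendScalars (xlg_fld_mono hWU)

theorem mem_xlgLayer {U W : Subgroup Gal(E/F)} (hWU : W ≤ U) {x : E} :
    x ∈ xlgLayer hWU ↔ ∀ w ∈ W, w x = x :=
  ⟨fun h w hw => h ⟨w, hw⟩, fun h w => h w.1 w.2⟩

theorem xlgLayer_normal [IsGalois F E] {U W : Subgroup Gal(E/F)} (hWU : W ≤ U)
    (hU : IsClosed (U : Set Gal(E/F))) (hn : ∀ u ∈ U, ∀ w ∈ W, u⁻¹ * w * u ∈ W) :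
    Normal (fld U) (xlgLayer hWU) := by
  rw [IntermediateField.normal_iff_forall_map_le']
  rintro σ _ ⟨x, hx, rfl⟩
  obtain ⟨u, rfl⟩ := hilbToGal_surjective U hU σ
  replace hx : x ∈ xlgLayer hWU := hx
  rw [mem_xlgLayer] at hx
  rw [mem_xlgLayer]
  intro w hw
  have h1 := hx _ (hn u u.2 w hw)
  change w ((u : Gal(E/F)) x) = (u : Gal(E/F)) x
  have h2 : (u : Gal(E/F)) (((u : Gal(E/F))⁻¹ * w * u) x) = w ((u : Gal(E/F)) x) := by
    simp [AlgEquiv.mul_apply]
  rw [← h2, h1]

theorem xlgLayer_numberField [NumberField F] [IsGalois F E] {U W : Subgroup Gal(E/F)} (hWU : W ≤ U)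
    (hW : IsOpen (W : Set Gal(E/F))) : NumberField (xlgLayer hWU) := by
  have := hilb_numberField W hW
  let e : fld W ≃+* xlgLayer hWU :=
    { toFun := fun x => ⟨x.1, x.2⟩
      invFun := fun x => ⟨x.1, x.2⟩
      left_inv := fun _ => rfl
      right_inv := fun _ => rfl
      map_mul' := fun _ _ => rfl
      map_add' := fun _ _ => rfl }
  exact NumberField.of_ringEquiv _ _ e

theorem xlgRes_layer_eq_one_iff [IsGalois F E] {U W : Subgroup Gal(E/F)} (hWU : W ≤ U)
    (hW : IsClosed (W : Set Gal(E/F))) [Normal (fld U) (xlgLayer hWU)] (u : U) :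
    xlgRes U (xlgLayer hWU) u = 1 ↔ (u : Gal(E/F)) ∈ W := by
  rw [xlgRes_eq_one_iff]
  constructor
  · intro h
    rw [← hilb_fixingSubgroup_fld W hW]
    intro x
    exact h ⟨x.1, x.2⟩
  · intro h x
    exact (mem_xlgLayer hWU).1 x.2 _ h

end Layer

variable {F E : Type} [Field F] [NumberField F] [Field E] [Algebra F E] [IsGalois F E]
variable {ℓ : ℕ} [Fact ℓ.Prime]

omit [NumberField F] [IsGalois F E] in
theorem xlg_exists_above (U : Subgroup Gal(E/F)) [NumberField (fld U)] (v : Pl (fld U)) :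
    ∃ P : Ideal (𝓞 E), P.IsMaximal ∧ below U P = v.asIdeal := by
  have := v.isMaximal
  refine Ideal.exists_ideal_over_maximal_of_isIntegral v.asIdeal ?_
  have hinj : Function.Injective (algebraMap (𝓞 (fld U)) (𝓞 E)) := by
    intro a b hab
    apply RingOfIntegers.ext
    apply (algebraMap (fld U) E).injective
    exact congrArg (fun y : 𝓞 E => (y : E)) hab
  rw [(RingHom.injective_iff_ker_eq_bot _).1 hinj]
  exact bot_le

/-- LEAF GL1 `XL.glue_layer`  (`E`-world to CFT-world).  `L` = fixed field of `ker χ`, as an intermediate field of `E / M_U`;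
`y` = the factorisation of `χ` through the restriction `U → Gal(L/M_U)`; see `XL/GlueAux.lean` (`xlg_unram`, `xlg_frob`). -/
theorem xl_glue_layer (U : Subgroup Gal(E/F)) (hU : IsOpen (U : Set Gal(E/F))) [NumberField (fld U)]
    (n : ℕ) [NeZero n] (χ : U →* Multiplicative (ZMod n)) (hχ : IsOpen ((χ.ker : Subgroup U) : Set U)) :
    ∃ (L : Type) (_ : Field L) (_ : NumberField L) (_ : Algebra (fld U) L)
      (_ : IsAbelianGalois (fld U) L) (y : Gal(L/(fld U)) →* Multiplicative (ZMod n)),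
      Function.Injective y ∧ ∀ v : Pl (fld U),
        (∀ P : Ideal (𝓞 E), P.IsMaximal → below U P = v.asIdeal →
          ∀ (g : Gal(E/F)) (hg : g ∈ inert F P ⊓ U), χ ⟨g, hg.2⟩ = 1) →
        Unram (fld U) L v ∧
          ∀ (σ : Gal(E/F)) (hσ : xlFrobAt U v σ), y (frob (fld U) L v) = χ ⟨σ, hσ.mem⟩ := by
  set W : Subgroup Gal(E/F) := χ.ker.map U.subtype with hWdef
  have hWU : W ≤ U := by
    rintro _ ⟨u, -, rfl⟩
    exact u.2
  have hmemW : ∀ u : U, (u : Gal(E/F)) ∈ W ↔ χ u = 1 := by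
    intro u
    constructor
    · rintro ⟨u', hu', h⟩
      have : u' = u := Subtype.ext h
      rw [← this]
      exact hu'
    · intro h
      exact ⟨u, h, rfl⟩
  have hWopen : IsOpen (W : Set Gal(E/F)) := hU.isOpenMap_subtype_val _ hχ
  have hUc := hilb_isClosed_of_isOpen U hU
  have hWc := hilb_isClosed_of_isOpen W hWopen
  have hn : ∀ u ∈ U, ∀ w ∈ W, u⁻¹ * w * u ∈ W := by
    intro u hu w hw
    have h1 := (hmemW ⟨w, hWU hw⟩).1 hw
    have h2 : χ ((⟨u, hu⟩ : U)⁻¹ * ⟨w, hWU hw⟩ * ⟨u, hu⟩) = 1 := by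
      rw [map_mul, map_mul, h1, map_inv]
      simp
    exact (hmemW _).2 h2
  have hNormal := xlgLayer_normal hWU hUc hn
  have hNF := xlgLayer_numberField hWU hWopen
  have hGal : IsGalois (fld U) (xlgLayer hWU) := ⟨⟩
  have hr : Function.Surjective (xlgRes U (xlgLayer hWU)) := xlgRes_surjective U _ hUc
  have hker : ∀ u : U, xlgRes U (xlgLayer hWU) u = 1 ↔ χ u = 1 := fun u =>
    (xlgRes_layer_eq_one_iff hWU hWc u).trans (hmemW u)
  let y : Gal((xlgLayer hWU)/(fld U)) →* Multiplicative (ZMod n) :=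
    (xlgRes U (xlgLayer hWU)).liftOfSurjective hr ⟨χ, fun u hu => (hker u).1 hu⟩
  have hy : ∀ u : U, y (xlgRes U (xlgLayer hWU) u) = χ u := fun u =>
    MonoidHom.liftOfRightInverse_comp_apply _ _ _ _ u
  have hyinj : Function.Injective y := by
    rw [injective_iff_map_eq_one]
    intro τ hτ
    obtain ⟨u, rfl⟩ := hr τ
    rw [hy] at hτ
    exact (hker u).2 hτ
  have hAb : IsAbelianGalois (fld U) (xlgLayer hWU) :=
    { toIsGalois := hGal
      toIsMulCommutative := ⟨⟨fun a b => hyinj (by rw [map_mul, map_mul, mul_comm])⟩⟩ }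
  refine ⟨xlgLayer hWU, inferInstance, hNF, inferInstance, hAb, y, hyinj, fun v hv => ?_⟩
  obtain ⟨P, hPm, hP⟩ := xlg_exists_above U v
  have hur : Unram (fld U) (xlgLayer hWU) v :=
    xlg_unram U _ hUc v P hP (fun g hg => (hker _).2 (hv P hPm hP g hg))
  exact ⟨hur, fun σ hσ => by rw [xlg_frob U _ v hur σ hσ, hy]⟩

end Claimed.Agent.R239
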