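import Claimed.Agent.R239.LogLiouville
import Claimed.Agent.R239.XL.Gen
import Claimed.Agent.R239.XL.Lg

/-!
# R239 / XL / Repr : `Φ(M, 𝕂)` is spanned by the `lg ∘ σ`; `dim Φ(M, ℚ_ℓ) = n`

Skeleton file of the package XL (sub-captain helper120).  The statements are FIXED (msg helper120 before changing
one); the owner of this file replaces each `sorry`, adding auxiliary lemmas (prefix `xl_`) above.
Plan of the package: `XL/Chain.lean`.   Owner of this file: helper181.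
-/

set_option autoImplicit false

open NumberField IsDedekindDomain Claims.C0403

namespace Claimed.Agent.R239

open CFT

variable (ℓ : ℕ) [Fact ℓ.Prime] (M : Type*) [Field M] [NumberField M]

section lg

variable {𝕂 : Type*} [NormedField 𝕂] [NormedAlgebra ℚ_[ℓ] 𝕂] [IsUltrametricDist 𝕂] [CompleteSpace 𝕂]

/-- LEAF A2b `XL.emb_gamma`.  `σ b - 1 = ℓ^c σ z`, `s z` integral, `‖s‖ = 1`, `Log.norm_le_one_of_isIntegral`. -/
theorem xl_emb_gamma (σ : M →+* 𝕂) (c : ℕ) (hc : 1 ≤ c) {b : Mˣ} (hb : b ∈ xlGamma ℓ M c) :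
    ‖σ (b : M) - 1‖ ≤ ‖(ℓ : 𝕂)‖ ^ c := by
  obtain ⟨s, hs, hint⟩ := (xl_mem_gamma_iff ℓ M c hc b).1 hb
  have h1 : IsIntegral ℤ (σ ((s : M) * ((b : M) - 1) / (ℓ : M) ^ c)) := hint.map σ.toIntAlgHom
  have h2 := Log.norm_le_one_of_isIntegral h1
  rw [map_div₀, map_mul, map_pow, map_natCast, map_natCast, map_sub, map_one, norm_div, norm_mul,
    norm_pow, xl_norm_natCast_eq_one ℓ hs, one_mul] at h2
  have hpos : 0 < ‖(ℓ : 𝕂)‖ ^ c := pow_pos (norm_pos_iff.2 (xl_ell_ne_zero ℓ)) c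
  rwa [div_le_one hpos] at h2

omit [IsUltrametricDist 𝕂] [CompleteSpace 𝕂] in
theorem xl_norm_ell_lt_expRad (hodd : ℓ ≠ 2) : ‖(ℓ : 𝕂)‖ < Log.expRad ℓ := by
  rw [xl_norm_ell]
  exact xl_inv_lt_expRad ℓ hodd

theorem xl_emb_gamma_one (σ : M →+* 𝕂) (b : xlGamma ℓ M 1) :
    ‖σ ((b : Mˣ) : M) - 1‖ ≤ ‖(ℓ : 𝕂)‖ := by
  have := xl_emb_gamma ℓ M σ 1 le_rfl b.2
  rwa [pow_one] at this

/-- the additive map `λ_σ : b ↦ lg (σ b)` -/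
noncomputable def xlLam (hodd : ℓ ≠ 2) (σ : M →+* 𝕂) : Additive (xlGamma ℓ M 1) →+ 𝕂 where
  toFun b := xlLg ℓ (σ ((Additive.toMul b : xlGamma ℓ M 1) : Mˣ))
  map_zero' := by
    have h1 : ‖(1 : 𝕂) - 1‖ < Log.expRad ℓ := by
      rw [sub_self, norm_zero]
      exact Log.expRad_pos ℓ
    have h := xl_lg_norm ℓ h1
    rw [sub_self, norm_zero, norm_eq_zero] at h
    simpa using h
  map_add' a b := by
    have ha := (xl_emb_gamma_one ℓ M σ (Additive.toMul a)).trans_lt (xl_norm_ell_lt_expRad ℓ hodd)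
    have hb := (xl_emb_gamma_one ℓ M σ (Additive.toMul b)).trans_lt (xl_norm_ell_lt_expRad ℓ hodd)
    rw [← xl_lg_mul ℓ ha hb]
    simp

theorem xlLam_apply (hodd : ℓ ≠ 2) (σ : M →+* 𝕂) (b : xlGamma ℓ M 1) :
    xlLam ℓ M hodd σ (Additive.ofMul b) = xlLg ℓ (σ ((b : Mˣ) : M)) := rfl

theorem xlLam_mem (hodd : ℓ ≠ 2) (σ : M →+* 𝕂) : xlLam ℓ M hodd σ ∈ xlPhiSpace ℓ M 𝕂 := by
  intro ε hε
  obtain ⟨c, hc⟩ := exists_pow_lt_of_lt_one hε (xl_norm_ell_lt_one ℓ (𝕂 := 𝕂))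
  refine ⟨c + 1, fun b hb => ?_⟩
  have h1 := xl_emb_gamma ℓ M σ (c + 1) (by omega) hb
  have h0 := (xl_emb_gamma_one ℓ M σ b).trans_lt (xl_norm_ell_lt_expRad ℓ hodd)
  rw [xlLam_apply, xl_lg_norm ℓ h0]
  refine h1.trans (le_trans ?_ hc.le)
  exact pow_le_pow_of_le_one (norm_nonneg _) (xl_norm_ell_lt_one ℓ).le (by omega)

/-! ### linear independence of the `λ_σ` -/

/-- the key estimate -/
theorem xl_lam_estimate (hodd : ℓ ≠ 2) [CharZero 𝕂] (c : (M →+* 𝕂) → 𝕂) {C : ℝ} (hC0 : 0 ≤ C)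
    (hC : ∀ σ, ‖c σ‖ ≤ C)
    (h : ∀ b : xlGamma ℓ M 1, ∑ σ : M →+* 𝕂, c σ * xlLg ℓ (σ ((b : Mˣ) : M)) = 0)
    {w : M} (hw : IsIntegral ℤ w) {k : ℕ} (hk : 1 ≤ k) :
    ‖∑ σ : M →+* 𝕂, c σ * σ w‖ ≤ C * ‖(ℓ : 𝕂)‖ ^ k := by
  rcases isEmpty_or_nonempty (M →+* 𝕂) with hemp | ⟨⟨σ₀⟩⟩
  · simp only [Finset.univ_eq_empty, Finset.sum_empty, norm_zero]
    positivity
  have h0 := xl_one_add_ne_zero ℓ M σ₀ hw hk
  have hmem := xl_one_add_mem ℓ M hw hk h0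
  have hmem1 : Units.mk0 _ h0 ∈ xlGamma ℓ M 1 := xlGamma_antitone ℓ M hk hmem
  have hb := h ⟨_, hmem1⟩
  simp only [Units.val_mk0] at hb
  set q := ‖(ℓ : 𝕂)‖ ^ k with hq
  have hqpos : 0 < q := pow_pos (norm_pos_iff.2 (xl_ell_ne_zero ℓ)) k
  have hval : ∀ σ : M →+* 𝕂, σ ((1 : M) + (ℓ : M) ^ k * w) - 1 = (ℓ : 𝕂) ^ k * σ w := by
    intro σ
    rw [map_add, map_one, map_mul, map_pow, map_natCast]
    ring
  have herr : ∀ σ : M →+* 𝕂,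
      ‖xlLg ℓ (σ ((1 : M) + (ℓ : M) ^ k * w)) - (ℓ : 𝕂) ^ k * σ w‖ ≤ q ^ 2 := by
    intro σ
    have a1 := xl_emb_gamma ℓ M σ k hk hmem
    have a2 := xl_emb_gamma ℓ M σ 1 le_rfl hmem1
    rw [Units.val_mk0] at a1 a2
    rw [pow_one] at a2
    have a3 := xl_lg_sub ℓ hodd a2
    rw [hval σ] at a3 a1
    exact a3.trans (pow_le_pow_left₀ (norm_nonneg _) a1 2)
  have hid : (ℓ : 𝕂) ^ k * ∑ σ : M →+* 𝕂, c σ * σ w
      = -∑ σ : M →+* 𝕂, c σ * (xlLg ℓ (σ ((1 : M) + (ℓ : M) ^ k * w)) - (ℓ : 𝕂) ^ k * σ w) := by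
    have : ∑ σ : M →+* 𝕂, c σ * (xlLg ℓ (σ ((1 : M) + (ℓ : M) ^ k * w)) - (ℓ : 𝕂) ^ k * σ w)
        = ∑ σ : M →+* 𝕂, c σ * xlLg ℓ (σ ((1 : M) + (ℓ : M) ^ k * w))
          - (ℓ : 𝕂) ^ k * ∑ σ : M →+* 𝕂, c σ * σ w := by
      rw [Finset.mul_sum, ← Finset.sum_sub_distrib]
      refine Finset.sum_congr rfl fun σ _ => ?_
      ring
    rw [this, hb]
    ring
  have hbd : ‖(ℓ : 𝕂) ^ k * ∑ σ : M →+* 𝕂, c σ * σ w‖ ≤ C * q ^ 2 := by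
    rw [hid, norm_neg]
    refine IsUltrametricDist.norm_sum_le_of_forall_le_of_nonneg (by positivity) fun σ _ => ?_
    rw [norm_mul]
    exact mul_le_mul (hC σ) (herr σ) (norm_nonneg _) hC0
  rw [norm_mul, norm_pow, ← hq] at hbd
  have : q * ‖∑ σ : M →+* 𝕂, c σ * σ w‖ ≤ q * (C * q) := by
    calc _ ≤ C * q ^ 2 := hbd
      _ = q * (C * q) := by ring
  exact le_of_mul_le_mul_left this hqpos

theorem xl_lam_indep (hodd : ℓ ≠ 2) [CharZero 𝕂] (c : (M →+* 𝕂) → 𝕂)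
    (h : ∀ b : xlGamma ℓ M 1, ∑ σ : M →+* 𝕂, c σ * xlLg ℓ (σ ((b : Mˣ) : M)) = 0) : c = 0 := by
  classical
  -- a bound for the coefficients
  set C : ℝ := ∑ σ : M →+* 𝕂, ‖c σ‖ with hCdef
  have hC0 : 0 ≤ C := Finset.sum_nonneg fun _ _ => norm_nonneg _
  have hC : ∀ σ, ‖c σ‖ ≤ C := fun σ =>
    Finset.single_le_sum (f := fun σ => ‖c σ‖) (fun _ _ => norm_nonneg _) (Finset.mem_univ σ)
  -- vanishing on integral elements
  have hint : ∀ w : M, IsIntegral ℤ w → ∑ σ : M →+* 𝕂, c σ * σ w = 0 := by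
    intro w hw
    by_contra hne
    have hpos : 0 < ‖∑ σ : M →+* 𝕂, c σ * σ w‖ := norm_pos_iff.2 hne
    obtain ⟨k, hk⟩ := exists_pow_lt_of_lt_one (div_pos hpos (by positivity : 0 < C + 1))
      (xl_norm_ell_lt_one ℓ (𝕂 := 𝕂))
    have h1 := xl_lam_estimate ℓ M hodd c hC0 hC h hw (k := k + 1) (by omega)
    have h2 : ‖(ℓ : 𝕂)‖ ^ (k + 1) ≤ ‖(ℓ : 𝕂)‖ ^ k :=
      pow_le_pow_of_le_one (norm_nonneg _) (xl_norm_ell_lt_one ℓ).le (by omega)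
    have h3 : C * ‖(ℓ : 𝕂)‖ ^ (k + 1) < ‖∑ σ : M →+* 𝕂, c σ * σ w‖ := by
      rw [lt_div_iff₀ (by positivity)] at hk
      have h4 : 0 ≤ ‖(ℓ : 𝕂)‖ ^ k := by positivity
      nlinarith
    linarith
  -- vanishing everywhere
  have hall : ∀ x : M, ∑ σ : M →+* 𝕂, c σ * σ x = 0 := by
    intro x
    have halg : IsAlgebraic ℤ x := by
      have : IsAlgebraic ℚ x := Algebra.IsAlgebraic.isAlgebraic x
      exact (IsFractionRing.isAlgebraic_iff ℤ ℚ M).2 this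
    obtain ⟨n, hn, hnx⟩ := halg.exists_integral_multiple
    have h1 := hint _ hnx
    have h2 : ∑ σ : M →+* 𝕂, c σ * σ (n • x) = (n : 𝕂) * ∑ σ : M →+* 𝕂, c σ * σ x := by
      rw [Finset.mul_sum]
      refine Finset.sum_congr rfl fun σ _ => ?_
      rw [zsmul_eq_mul, map_mul, map_intCast]
      ring
    rw [h2] at h1
    exact (mul_eq_zero.1 h1).resolve_left (by exact_mod_cast hn)
  -- Dedekind
  have hLI := (linearIndependent_monoidHom M 𝕂).comp (fun σ : M →+* 𝕂 => (σ : M →* 𝕂))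
    (fun σ τ hστ => RingHom.ext fun x => DFunLike.congr_fun hστ x)
  rw [Fintype.linearIndependent_iff] at hLI
  funext σ
  refine hLI c ?_ σ
  funext x
  simpa [Finset.sum_apply] using hall x

/-- the `λ_σ` as elements of `Φ(M, 𝕂)` -/
noncomputable def xlLamPhi (hodd : ℓ ≠ 2) (σ : M →+* 𝕂) : xlPhiSpace ℓ M 𝕂 :=
  ⟨xlLam ℓ M hodd σ, xlLam_mem ℓ M hodd σ⟩

theorem xlLamPhi_sum_apply (hodd : ℓ ≠ 2) [CharZero 𝕂] (c : (M →+* 𝕂) → 𝕂) (b : xlGamma ℓ M 1) :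
    ((∑ σ : M →+* 𝕂, c σ • xlLamPhi ℓ M hodd σ : xlPhiSpace ℓ M 𝕂) :
        Additive (xlGamma ℓ M 1) →+ 𝕂) (Additive.ofMul b)
      = ∑ σ : M →+* 𝕂, c σ * xlLg ℓ (σ ((b : Mˣ) : M)) := by
  rw [Submodule.coe_sum, AddMonoidHom.finsetSum_apply]
  rfl

theorem xlLamPhi_linearIndependent (hodd : ℓ ≠ 2) [CharZero 𝕂] :
    LinearIndependent 𝕂 (xlLamPhi ℓ M (𝕂 := 𝕂) hodd) := by
  refine (Fintype.linearIndependent_iff (R := 𝕂) (M := xlPhiSpace ℓ M 𝕂)).2 ?_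
  intro c hc σ
  have := xl_lam_indep ℓ M hodd c fun b => by
    rw [← xlLamPhi_sum_apply ℓ M hodd c b, hc]
    rfl
  rw [this]
  rfl

theorem xl_phi_finrank_eq (hodd : ℓ ≠ 2) [CharZero 𝕂] [IsAlgClosed 𝕂] :
    Module.finrank 𝕂 (xlPhiSpace ℓ M 𝕂) = Module.finrank ℚ M := by
  obtain ⟨hfin, hle⟩ := xl_phi_finrank_le ℓ M hodd 𝕂
  have hge := LinearIndependent.fintype_card_le_finrank (R := 𝕂) (M := xlPhiSpace ℓ M 𝕂)
    (xlLamPhi_linearIndependent ℓ M (𝕂 := 𝕂) hodd)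
  rw [NumberField.Embeddings.card M 𝕂] at hge
  exact le_antisymm hle hge

/-- LEAF A2 `XL.phi_repr`.  The `n = [M:ℚ]` maps `λ_σ : b ↦ lg (σ b)` belong to `Φ(M, 𝕂)` (`xl_emb_gamma`, `xl_lg_norm`,
`xl_lg_mul`).  They are linearly independent: if `∑ c_σ λ_σ = 0`, evaluate at `b = 1 + ℓ^c w`, `w ∈ 𝓞 M`: by `xl_lg_sub`
`‖∑ c_σ σ w‖ ≤ max ‖c_σ‖ * ‖ℓ‖^c → 0`; so `∑ c_σ σ = 0` on `𝓞 M`, hence on `M`; Dedekind (`linearIndependent_monoidHom`).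
As `dim Φ(M, 𝕂) ≤ n` (`xl_phi_finrank_le`) and `card (M →+* 𝕂) = n`, they span. -/
theorem xl_phi_repr (hodd : ℓ ≠ 2) [CharZero 𝕂] [IsAlgClosed 𝕂] (φ : Additive (xlGamma ℓ M 1) →+ 𝕂)
    (hφ : φ ∈ xlPhiSpace ℓ M 𝕂) :
    ∃ c : (M →+* 𝕂) → 𝕂, ∀ b : xlGamma ℓ M 1,
      φ (Additive.ofMul b) = ∑ σ : M →+* 𝕂, c σ * xlLg ℓ (σ ((b : Mˣ) : M)) := by
  obtain ⟨hfin, -⟩ := xl_phi_finrank_le ℓ M hodd 𝕂
  have hcard : Fintype.card (M →+* 𝕂) = Module.finrank 𝕂 (xlPhiSpace ℓ M 𝕂) := by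
    rw [NumberField.Embeddings.card M 𝕂, xl_phi_finrank_eq ℓ M hodd]
  have hspan : Submodule.span 𝕂 (Set.range (xlLamPhi ℓ M (𝕂 := 𝕂) hodd)) = ⊤ :=
    LinearIndependent.span_eq_top_of_card_eq_finrank' (K := 𝕂) (V := xlPhiSpace ℓ M 𝕂)
      (xlLamPhi_linearIndependent ℓ M (𝕂 := 𝕂) hodd) hcard
  have hmem : (⟨φ, hφ⟩ : xlPhiSpace ℓ M 𝕂) ∈
      Submodule.span 𝕂 (Set.range (xlLamPhi ℓ M (𝕂 := 𝕂) hodd)) := by
    rw [hspan]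
    exact Submodule.mem_top
  obtain ⟨c, hc⟩ := (Submodule.mem_span_range_iff_exists_fun (M := xlPhiSpace ℓ M 𝕂) 𝕂).1 hmem
  refine ⟨c, fun b => ?_⟩
  rw [← xlLamPhi_sum_apply ℓ M hodd c b, hc]
end lg

/-- descent of the values from `𝕂` to `ℚ_ℓ` -/
theorem xl_descend {𝕂 : Type*} [NormedField 𝕂] [NormedAlgebra ℚ_[ℓ] 𝕂]
    (φ : Additive (xlGamma ℓ M 1) →+ 𝕂) (hφ : φ ∈ xlPhiSpace ℓ M 𝕂)
    (h : ∀ b, φ b ∈ Set.range (algebraMap ℚ_[ℓ] 𝕂)) :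
    ∃ ψ : Additive (xlGamma ℓ M 1) →+ ℚ_[ℓ], ψ ∈ xlPhiSpace ℓ M ℚ_[ℓ] ∧
      ∀ b, algebraMap ℚ_[ℓ] 𝕂 (ψ b) = φ b := by
  have hinj : Function.Injective (algebraMap ℚ_[ℓ] 𝕂) := (algebraMap ℚ_[ℓ] 𝕂).injective
  choose f hf using h
  refine ⟨⟨⟨f, ?_⟩, ?_⟩, ?_, hf⟩
  · apply hinj
    rw [hf, map_zero, map_zero]
  · intro a b
    apply hinj
    rw [map_add, hf, hf, hf, map_add]
  · intro ε hε
    obtain ⟨c, hc⟩ := hφ ε hε
    refine ⟨c, fun b hb => ?_⟩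
    have := hc b hb
    rw [← hf, norm_algebraMap'] at this
    exact this

/-- LEAF A3 `XL.phi_finrank`.  `≤` is `xl_phi_finrank_le`.  `≥`: work in `𝕂 = ℂ_[ℓ]`.  By the proof of `xl_phi_repr`,
`dim Φ(M, 𝕂) = n`, so the injective evaluation map `φ ↦ (φ (g_j))_j` is bijective: there are `φ_i ∈ Φ(M, 𝕂)` with
`φ_i (g_j) = δ_ij`.  For `b ∈ Γ_1` and every `c`, `φ_i b = (integer) + φ_i (b')`, `b' ∈ Γ_c`; so `φ_i b` lies in the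
closure of `ℤ`, hence in the (closed) image of `ℚ_ℓ`.  So `φ_i` comes from an element of `Φ(M, ℚ_ℓ)`; these `n` elements are
linearly independent. -/
theorem xl_phi_finrank (hodd : ℓ ≠ 2) :
    Module.finrank ℚ_[ℓ] (xlPhiSpace ℓ M ℚ_[ℓ]) = Module.finrank ℚ M := by
  classical
  obtain ⟨hfin, hle⟩ := xl_phi_finrank_le ℓ M hodd ℚ_[ℓ]
  refine le_antisymm hle ?_
  obtain ⟨g, hg⟩ := xl_gamma_gen ℓ M hodd
  obtain ⟨hfinC, -⟩ := xl_phi_finrank_le ℓ M hodd ℂ_[ℓ]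
  have hsurj : Function.Surjective (xlEv ℓ M ℂ_[ℓ] g) := by
    refine (LinearMap.injective_iff_surjective_of_finrank_eq_finrank (K := ℂ_[ℓ])
      (V := xlPhiSpace ℓ M ℂ_[ℓ]) (V₂ := Fin (Module.finrank ℚ M) → ℂ_[ℓ]) ?_).1 (xlEv_injective ℓ M ℂ_[ℓ] g hg)
    rw [xl_phi_finrank_eq ℓ M hodd, Module.finrank_fin_fun]
  choose Φ hΦ using fun i : Fin (Module.finrank ℚ M) => hsurj (Pi.single i 1)
  have hΦ' : ∀ i j, (Φ i : Additive (xlGamma ℓ M 1) →+ ℂ_[ℓ]) (Additive.ofMul (g j))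
      = if j = i then 1 else 0 := by
    intro i j
    have := congrFun (hΦ i) j
    rw [Pi.single_apply] at this
    exact this
  have hclosed : IsClosed (Set.range (algebraMap ℚ_[ℓ] ℂ_[ℓ])) :=
    (algebraMap_isometry ℚ_[ℓ] ℂ_[ℓ]).isClosedEmbedding.isClosed_range
  have hrange : ∀ i b, (Φ i : Additive (xlGamma ℓ M 1) →+ ℂ_[ℓ]) b
      ∈ Set.range (algebraMap ℚ_[ℓ] ℂ_[ℓ]) := by
    intro i b
    obtain ⟨b, rfl⟩ := Additive.ofMul.surjective b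
    rw [← hclosed.closure_eq, Metric.mem_closure_iff]
    intro ε hε
    obtain ⟨c, hc⟩ := (Φ i).2 (ε / 2) (by positivity)
    obtain ⟨a, ha⟩ := hg c b
    refine ⟨algebraMap ℚ_[ℓ] ℂ_[ℓ] (a i : ℚ_[ℓ]), ⟨_, rfl⟩, ?_⟩
    rw [xl_phi_decomp ℓ M g _ b a, dist_eq_norm]
    simp only [hΦ', smul_ite, smul_zero, Finset.sum_ite_eq', Finset.mem_univ, if_true, map_intCast,
      zsmul_eq_mul, mul_one, add_sub_cancel_right]
    exact (hc _ ha).trans_lt (by linarith)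
  choose ψ hψmem hψ using fun i => xl_descend ℓ M (Φ i : Additive (xlGamma ℓ M 1) →+ ℂ_[ℓ]) (Φ i).2
    (hrange i)
  have hψ' : ∀ i j, ψ i (Additive.ofMul (g j)) = if j = i then 1 else 0 := by
    intro i j
    apply (algebraMap ℚ_[ℓ] ℂ_[ℓ]).injective
    rw [hψ, hΦ']
    split_ifs <;> simp
  have hLI : LinearIndependent ℚ_[ℓ]
      (fun i : Fin (Module.finrank ℚ M) => (⟨ψ i, hψmem i⟩ : xlPhiSpace ℓ M ℚ_[ℓ])) := by
    refine (Fintype.linearIndependent_iff (R := ℚ_[ℓ]) (M := xlPhiSpace ℓ M ℚ_[ℓ])).2 ?_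
    intro c hc j
    have h1 := congrArg (fun φ : xlPhiSpace ℓ M ℚ_[ℓ] =>
      (φ : Additive (xlGamma ℓ M 1) →+ ℚ_[ℓ]) (Additive.ofMul (g j))) hc
    simp only [Submodule.coe_sum, AddMonoidHom.finsetSum_apply, Submodule.coe_smul,
      AddMonoidHom.smul_apply, hψ', Submodule.coe_zero, AddMonoidHom.zero_apply, smul_eq_mul,
      mul_ite, mul_one, mul_zero] at h1
    simpa using h1
  have := LinearIndependent.fintype_card_le_finrank (R := ℚ_[ℓ]) (M := xlPhiSpace ℓ M ℚ_[ℓ]) hLI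
  simpa using this

end Claimed.Agent.R239
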