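import Claimed.Agent.R239.XL.Repr
import Claimed.Agent.R239.XL.Ray

/-!
# R239 / XL / Units : comparison of `Ann` in an extension (Dirichlet rank)

Skeleton file of the package XL (sub-captain helper120).  The statements are FIXED (msg helper120 before changing
one); the owner of this file replaces each `sorry`, adding auxiliary lemmas (prefix `xl_`) above.
Plan of the package: `XL/Chain.lean`.   Owner of this file: helper181.
-/

set_option autoImplicit false

open NumberField IsDedekindDomain Claims.C0403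

namespace Claimed.Agent.R239

open CFT

variable (ℓ : ℕ) [Fact ℓ.Prime]

/-- LEAF C0 `XL.span_le_rank` (linear algebra).  `k`-linearly independent vectors `f q_i` have `ℤ`-linearly independent
preimages `q_i`; `LinearIndependent.fintype_card_le_finrank`. -/
theorem xl_span_le_rank {Q W k : Type*} [AddCommGroup Q] [Module.Finite ℤ Q] [Field k] [CharZero k]
    [AddCommGroup W] [Module k W] (f : Q →+ W) :
    Module.Finite k (Submodule.span k (Set.range f)) ∧
      Module.finrank k (Submodule.span k (Set.range f)) ≤ Module.finrank ℤ Q := by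
  classical
  obtain ⟨b, hbsub, hbspan, hbLI⟩ := exists_linearIndependent k (Set.range f)
  choose! q hq using fun x (hx : x ∈ b) => hbsub hx
  have hLIZ : LinearIndependent ℤ ((↑) : b → W) := by
    refine hbLI.restrict_scalars ?_
    intro m n hmn
    simpa using hmn
  have hLI : LinearIndependent ℤ (fun x : b => q x) := by
    refine LinearIndependent.of_comp f.toIntLinearMap ?_
    convert hLIZ using 1
    funext x
    exact hq x x.2
  have : Finite b := hLI.finite
  have := Fintype.ofFinite b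
  have hcard := hLI.fintype_card_le_finrank
  rw [← hbspan]
  refine ⟨Module.Finite.span_of_finite k (Set.toFinite b), ?_⟩
  rw [finrank_span_set_eq_card hbLI]
  simpa using hcard

/-- LEAF C1 `XL.units_finrank`.  `Units.finrank_modTorsion` + the torsion subgroup is finite (rank additivity
`Submodule.finrank_quotient_add_finrank` over `ℤ`, or transport linearly independent families). -/
theorem xl_units_finrank (M : Type*) [Field M] [NumberField M] :
    Module.Finite ℤ (Additive (𝓞 M)ˣ) ∧ Module.finrank ℤ (Additive (𝓞 M)ˣ) = Units.rank M :=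
  ⟨inferInstance, Units.finrank_eq M⟩

/-! ### linear algebra -/

theorem xl_finrank_le_map_add {k V V₂ : Type*} [Field k] [AddCommGroup V] [Module k V]
    [FiniteDimensional k V] [AddCommGroup V₂] [Module k V₂] (π : V →ₗ[k] V₂) (S : Submodule k V) :
    Module.finrank k S ≤ Module.finrank k (S.map π) + Module.finrank k (LinearMap.ker π) := by
  have h := LinearMap.finrank_range_add_finrank_ker (π.domRestrict S)
  rw [LinearMap.range_domRestrict, LinearMap.ker_domRestrict] at h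
  have h2 : Module.finrank k ((LinearMap.ker π).comap S.subtype) ≤ Module.finrank k (LinearMap.ker π) := by
    rw [← Submodule.finrank_map_subtype_eq, Submodule.map_comap_subtype]
    exact Submodule.finrank_mono inf_le_right
  omega

open Module Submodule in
theorem xl_abstract_diff {k Φ Φ' A A' : Type*} [Field k] [CharZero k]
    [AddCommGroup Φ] [Module k Φ] [FiniteDimensional k Φ]
    [AddCommGroup Φ'] [Module k Φ'] [FiniteDimensional k Φ']
    [AddCommGroup A] [Module.Finite ℤ A] [AddCommGroup A'] [Module.Finite ℤ A']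
    (ι : A' →+ A) (hι : Function.Injective ι) (ρ : Φ →ₗ[k] Φ')
    (P : A →+ Module.Dual k Φ) (P' : A' →+ Module.Dual k Φ')
    (hcomp : ∀ a' φ, P (ι a') φ = P' a' (ρ φ)) :
    finrank k (span k (Set.range P')).dualCoannihilator + finrank k Φ + finrank ℤ A'
      ≤ finrank k (span k (Set.range P)).dualCoannihilator + finrank k Φ' + finrank ℤ A := by
  set S := span k (Set.range P) with hS
  set S'' := span k (Set.range P') with hS''
  set S₁ := span k (Set.range (P.comp ι)) with hS₁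
  have h1 := Subspace.finrank_add_finrank_dualCoannihilator_eq S
  have h2 := Subspace.finrank_add_finrank_dualCoannihilator_eq S''
  have h3 : finrank k S₁ ≤ finrank k S'' := by
    have : S₁ = S''.map ρ.dualMap := by
      rw [hS₁, hS'', Submodule.map_span]
      congr 1
      ext x
      simp only [Set.mem_range, Set.mem_image, AddMonoidHom.comp_apply, exists_exists_eq_and]
      refine exists_congr fun a' => ?_
      have : P (ι a') = ρ.dualMap (P' a') := LinearMap.ext fun φ => hcomp a' φ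
      rw [this]
    rw [this]
    exact Submodule.finrank_map_le _ _
  set N : Submodule ℤ A := LinearMap.range ι.toIntLinearMap with hN
  have h4 := Submodule.finrank_quotient_add_finrank N
  have h4' : finrank ℤ N = finrank ℤ A' := LinearMap.finrank_range_of_inj hι
  have h5 : finrank k S ≤ finrank k S₁ + finrank ℤ (A ⧸ N) := by
    set π := S₁.mkQ with hπ
    set g : A →ₗ[ℤ] (Module.Dual k Φ ⧸ S₁) := (π.toAddMonoidHom.comp P).toIntLinearMap with hg
    have hker : N ≤ LinearMap.ker g := by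
      rintro _ ⟨a', rfl⟩
      rw [LinearMap.mem_ker]
      change π (P (ι a')) = 0
      rw [hπ, Submodule.mkQ_apply, Submodule.Quotient.mk_eq_zero]
      exact Submodule.subset_span ⟨a', rfl⟩
    obtain ⟨-, h6⟩ := xl_span_le_rank (k := k) (N.liftQ g hker).toAddMonoidHom
    have h7 : span k (Set.range (N.liftQ g hker).toAddMonoidHom) = S.map π := by
      rw [hS, Submodule.map_span]
      congr 1
      ext x
      constructor
      · rintro ⟨a, rfl⟩
        obtain ⟨a, rfl⟩ := N.mkQ_surjective a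
        exact ⟨P a, ⟨a, rfl⟩, rfl⟩
      · rintro ⟨_, ⟨a, rfl⟩, rfl⟩
        exact ⟨N.mkQ a, rfl⟩
    rw [h7] at h6
    have h8 := xl_finrank_le_map_add π S
    rw [hπ, Submodule.ker_mkQ] at h8
    rw [hπ] at h6
    omega
  omega

/-! ### the pairing between units and `Φ` -/

theorem xl_mem_dualCoannihilator_span {k V : Type*} [Field k] [AddCommGroup V] [Module k V]
    (s : Set (Module.Dual k V)) (φ : V) :
    φ ∈ (Submodule.span k s).dualCoannihilator ↔ ∀ w ∈ s, w φ = 0 := by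
  rw [Submodule.mem_dualCoannihilator]
  constructor
  · intro h w hw
    exact h w (Submodule.subset_span hw)
  · intro h w hw
    have hle : Submodule.span k s ≤ LinearMap.ker (Module.Dual.eval k V φ) :=
      Submodule.span_le.2 fun w hw => h w hw
    exact hle hw

section pair
variable (M : Type*) [Field M] [NumberField M]

/-- the pairing between global units and `Φ(M, ℚ_ℓ)` -/
noncomputable def xlPair (H : ℕ)
    (hH : ∀ u : (𝓞 M)ˣ, (Units.map (algebraMap (𝓞 M) M).toMonoidHom u) ^ H ∈ xlGamma ℓ M 1) :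
    Additive (𝓞 M)ˣ →+ Module.Dual ℚ_[ℓ] (xlPhiSpace ℓ M ℚ_[ℓ]) where
  toFun u :=
    { toFun := fun φ => (H : ℚ_[ℓ])⁻¹ * (φ : Additive (xlGamma ℓ M 1) →+ ℚ_[ℓ])
        (Additive.ofMul ⟨_, hH (Additive.toMul u)⟩)
      map_add' := fun φ ψ => by
        rw [Submodule.coe_add, AddMonoidHom.add_apply, mul_add]
      map_smul' := fun a φ => by
        rw [Submodule.coe_smul, AddMonoidHom.smul_apply, RingHom.id_apply, smul_eq_mul, smul_eq_mul]
        ring }
  map_zero' := by
    refine LinearMap.ext fun φ => ?_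
    have : (⟨_, hH (Additive.toMul (0 : Additive (𝓞 M)ˣ))⟩ : xlGamma ℓ M 1) = 1 := by
      apply Subtype.ext
      simp
    simp only [LinearMap.coe_mk, AddHom.coe_mk, this, ofMul_one, map_zero, mul_zero,
      LinearMap.zero_apply]
  map_add' u v := by
    refine LinearMap.ext fun φ => ?_
    have : (⟨_, hH (Additive.toMul (u + v))⟩ : xlGamma ℓ M 1)
        = ⟨_, hH (Additive.toMul u)⟩ * ⟨_, hH (Additive.toMul v)⟩ := by
      apply Subtype.ext
      simp [mul_pow]
    simp only [LinearMap.coe_mk, AddHom.coe_mk, this, ofMul_mul, map_add, mul_add,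
      LinearMap.add_apply]

theorem xlPair_apply (H : ℕ)
    (hH : ∀ u : (𝓞 M)ˣ, (Units.map (algebraMap (𝓞 M) M).toMonoidHom u) ^ H ∈ xlGamma ℓ M 1)
    (u : (𝓞 M)ˣ) (φ : xlPhiSpace ℓ M ℚ_[ℓ]) :
    xlPair ℓ M H hH (Additive.ofMul u) φ = (H : ℚ_[ℓ])⁻¹ *
      (φ : Additive (xlGamma ℓ M 1) →+ ℚ_[ℓ]) (Additive.ofMul ⟨_, hH u⟩) := rfl

theorem xl_ann_eq_map (H : ℕ) (hH0 : 0 < H)
    (hH : ∀ u : (𝓞 M)ˣ, (Units.map (algebraMap (𝓞 M) M).toMonoidHom u) ^ H ∈ xlGamma ℓ M 1) :
    (Submodule.span ℚ_[ℓ] (Set.range (xlPair ℓ M H hH))).dualCoannihilator.map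
      (xlPhiSpace ℓ M ℚ_[ℓ]).subtype = xlAnn ℓ M := by
  have hHne : (H : ℚ_[ℓ]) ≠ 0 := by exact_mod_cast hH0.ne'
  ext φ
  constructor
  · rintro ⟨φ, hφ, rfl⟩
    rw [SetLike.mem_coe, xl_mem_dualCoannihilator_span] at hφ
    refine ⟨φ.2, fun b u hbu => ?_⟩
    have h1 := hφ _ ⟨Additive.ofMul u, rfl⟩
    rw [xlPair_apply] at h1
    have h2 : (⟨_, hH u⟩ : xlGamma ℓ M 1) = b ^ H := by
      apply Subtype.ext
      apply Units.ext
      simp [hbu]
    rw [h2, ofMul_pow, map_nsmul, nsmul_eq_mul] at h1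
    have h3 := (mul_eq_zero.1 h1).resolve_left (inv_ne_zero hHne)
    exact (mul_eq_zero.1 h3).resolve_left hHne
  · rintro ⟨hφ1, hφ2⟩
    refine ⟨⟨φ, hφ1⟩, ?_, rfl⟩
    rw [SetLike.mem_coe, xl_mem_dualCoannihilator_span]
    rintro _ ⟨u, rfl⟩
    obtain ⟨u, rfl⟩ := Additive.ofMul.surjective u
    rw [xlPair_apply]
    have : φ (Additive.ofMul (⟨_, hH u⟩ : xlGamma ℓ M 1)) = 0 :=
      hφ2 _ (u ^ H) (by simp)
    simp only [this, mul_zero]

theorem xl_ann_finrank (H : ℕ) (hH0 : 0 < H)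
    (hH : ∀ u : (𝓞 M)ˣ, (Units.map (algebraMap (𝓞 M) M).toMonoidHom u) ^ H ∈ xlGamma ℓ M 1) :
    Module.finrank ℚ_[ℓ] (Submodule.span ℚ_[ℓ] (Set.range (xlPair ℓ M H hH))).dualCoannihilator
      = Module.finrank ℚ_[ℓ] (xlAnn ℓ M) := by
  rw [← xl_ann_eq_map ℓ M H hH0 hH, Submodule.finrank_map_subtype_eq]

end pair

section maps
variable {M' M : Type*} [Field M'] [NumberField M'] [Field M] [NumberField M] (f : M' →+* M)

theorem xl_gamma_map {c : ℕ} (hc : 1 ≤ c) {b : M'ˣ} (hb : b ∈ xlGamma ℓ M' c) :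
    Units.map f.toMonoidHom b ∈ xlGamma ℓ M c := by
  rw [xl_mem_gamma_iff ℓ M c hc]
  exact (xl_cong_map ℓ f c (b : M')).2 ((xl_mem_gamma_iff ℓ M' c hc b).1 hb)

/-- `Γ_1(M') → Γ_1(M)` -/
noncomputable def xlIota : xlGamma ℓ M' 1 →* xlGamma ℓ M 1 :=
  MonoidHom.codRestrict ((Units.map f.toMonoidHom).comp (xlGamma ℓ M' 1).subtype) (xlGamma ℓ M 1)
    fun b => xl_gamma_map ℓ f le_rfl b.2

theorem xlIota_coe (b : xlGamma ℓ M' 1) :
    ((xlIota ℓ f b : xlGamma ℓ M 1) : Mˣ) = Units.map f.toMonoidHom (b : M'ˣ) := rfl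

/-- restriction `Φ(M) → Φ(M')` -/
noncomputable def xlRho : xlPhiSpace ℓ M ℚ_[ℓ] →ₗ[ℚ_[ℓ]] xlPhiSpace ℓ M' ℚ_[ℓ] where
  toFun φ := ⟨(φ : Additive (xlGamma ℓ M 1) →+ ℚ_[ℓ]).comp (MonoidHom.toAdditive (xlIota ℓ f)), by
    intro ε hε
    obtain ⟨c, hc⟩ := φ.2 ε hε
    refine ⟨max c 1, fun b hb => ?_⟩
    refine hc (xlIota ℓ f b) ?_
    rw [xlIota_coe]
    exact xlGamma_antitone ℓ M (le_max_left c 1) (xl_gamma_map ℓ f (le_max_right c 1) hb)⟩
  map_add' _ _ := rfl
  map_smul' _ _ := rfl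

theorem xlRho_apply (φ : xlPhiSpace ℓ M ℚ_[ℓ]) (b : xlGamma ℓ M' 1) :
    (xlRho ℓ f φ : Additive (xlGamma ℓ M' 1) →+ ℚ_[ℓ]) (Additive.ofMul b)
      = (φ : Additive (xlGamma ℓ M 1) →+ ℚ_[ℓ]) (Additive.ofMul (xlIota ℓ f b)) := rfl

/-- global units of `M'` → global units of `M` -/
noncomputable def xlIotaE : Additive (𝓞 M')ˣ →+ Additive (𝓞 M)ˣ :=
  MonoidHom.toAdditive (Units.map (RingOfIntegers.mapRingHom f).toMonoidHom)

omit [NumberField M'] [NumberField M] in
theorem xlIotaE_injective : Function.Injective (xlIotaE f) := by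
  intro u v huv
  obtain ⟨u, rfl⟩ := Additive.ofMul.surjective u
  obtain ⟨v, rfl⟩ := Additive.ofMul.surjective v
  have h1 : Units.map (RingOfIntegers.mapRingHom f).toMonoidHom u
      = Units.map (RingOfIntegers.mapRingHom f).toMonoidHom v := huv
  have h2 : RingOfIntegers.mapRingHom f (u : 𝓞 M') = RingOfIntegers.mapRingHom f (v : 𝓞 M') :=
    congrArg Units.val h1
  have h3 : f ((u : 𝓞 M') : M') = f ((v : 𝓞 M') : M') := by
    rw [← RingOfIntegers.mapRingHom_apply, ← RingOfIntegers.mapRingHom_apply, h2]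
  congr 1
  exact Units.ext (RingOfIntegers.ext (f.injective h3))

theorem xlPair_compat (H : ℕ)
    (hH : ∀ u : (𝓞 M)ˣ, (Units.map (algebraMap (𝓞 M) M).toMonoidHom u) ^ H ∈ xlGamma ℓ M 1)
    (hH' : ∀ u : (𝓞 M')ˣ, (Units.map (algebraMap (𝓞 M') M').toMonoidHom u) ^ H ∈ xlGamma ℓ M' 1)
    (u : Additive (𝓞 M')ˣ) (φ : xlPhiSpace ℓ M ℚ_[ℓ]) :
    xlPair ℓ M H hH (xlIotaE f u) φ = xlPair ℓ M' H hH' u (xlRho ℓ f φ) := by
  obtain ⟨u, rfl⟩ := Additive.ofMul.surjective u
  have e1 : xlIotaE f (Additive.ofMul u)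
      = Additive.ofMul (Units.map (RingOfIntegers.mapRingHom f).toMonoidHom u) := rfl
  rw [e1, xlPair_apply, xlPair_apply, xlRho_apply]
  congr 3
  apply Subtype.ext
  rw [xlIota_coe]
  apply Units.ext
  simp [RingOfIntegers.mapRingHom_apply]

end maps

theorem xl_degree_rank (M : Type*) [Field M] [NumberField M] :
    Module.finrank ℚ M = Units.rank M + InfinitePlace.nrComplexPlaces M + 1 := by
  have h1 := InfinitePlace.card_add_two_mul_card_eq_rank M
  have h2 := InfinitePlace.card_eq_nrRealPlaces_add_nrComplexPlaces M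
  have h3 : 0 < Fintype.card (InfinitePlace M) := Fintype.card_pos
  rw [Units.rank]
  omega

/-- LEAF C3 `XL.ann_diff`.  Put `n = [M:ℚ]`, `n' = [M':ℚ]`, `r, r'` the unit ranks; `n - r = r₂ + 1`.
`ρ : Φ(M) → Φ(M')` restriction along `Γ_1(M') → Γ_1(M)` (well defined and continuous by `xl_mem_gamma_iff`, `xl_cong_map`).
`Ann'(M) := {φ ∈ Φ(M) : ρ φ ∈ Ann(M')}`.
(1) `dim Ann'(M) ≥ dim Ann(M') + n - n'`:  `dim Φ(M)/Ann'(M) ≤ dim Φ(M')/Ann(M')` (the induced map is injective), and
    `dim Φ = n`, `n'` (`xl_phi_finrank`).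
(2) `dim Ann'(M) - dim Ann(M) ≤ r - r'`:  `T : Ann'(M) → Hom_ℤ(E_M / E_M', ℚ_ℓ)`, `φ ↦ (u ↦ φ (u^h) / h)` (`xl_unit_pow`) has kernel
    `Ann(M)`, and the target has dimension `≤ finrank ℤ (E_M/E_M') = r - r'` (dualise `xl_span_le_rank`, `xl_units_finrank`,
    `E_M' → E_M` injective, rank additivity). -/
theorem xl_ann_diff (hodd : ℓ ≠ 2) (M' M : Type*) [Field M'] [NumberField M'] [Field M] [NumberField M]
    (f : M' →+* M) :
    Module.finrank ℚ_[ℓ] (xlAnn ℓ M') + InfinitePlace.nrComplexPlaces M ≤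
      Module.finrank ℚ_[ℓ] (xlAnn ℓ M) + InfinitePlace.nrComplexPlaces M' := by
  obtain ⟨h, hh, hu⟩ := xl_unit_pow ℓ M
  obtain ⟨h', hh', hu'⟩ := xl_unit_pow ℓ M'
  have hH : ∀ u : (𝓞 M)ˣ,
      (Units.map (algebraMap (𝓞 M) M).toMonoidHom u) ^ (h * h') ∈ xlGamma ℓ M 1 := fun u => by
    rw [pow_mul]
    exact pow_mem (hu u) h'
  have hH' : ∀ u : (𝓞 M')ˣ,
      (Units.map (algebraMap (𝓞 M') M').toMonoidHom u) ^ (h * h') ∈ xlGamma ℓ M' 1 := fun u => by
    rw [mul_comm, pow_mul]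
    exact pow_mem (hu' u) h
  have hfin : FiniteDimensional ℚ_[ℓ] (xlPhiSpace ℓ M ℚ_[ℓ]) := (xl_phi_finrank_le ℓ M hodd ℚ_[ℓ]).1
  have hfin' : FiniteDimensional ℚ_[ℓ] (xlPhiSpace ℓ M' ℚ_[ℓ]) :=
    (xl_phi_finrank_le ℓ M' hodd ℚ_[ℓ]).1
  have key := xl_abstract_diff (k := ℚ_[ℓ]) (xlIotaE f) (xlIotaE_injective f) (xlRho ℓ f)
    (xlPair ℓ M (h * h') hH) (xlPair ℓ M' (h * h') hH') (xlPair_compat ℓ f (h * h') hH hH')
  rw [xl_ann_finrank ℓ M _ (Nat.mul_pos hh hh') hH, xl_ann_finrank ℓ M' _ (Nat.mul_pos hh hh') hH',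
    xl_phi_finrank ℓ M hodd, xl_phi_finrank ℓ M' hodd, Units.finrank_eq, Units.finrank_eq,
    xl_degree_rank M, xl_degree_rank M'] at key
  omega

end Claimed.Agent.R239
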